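import Vale.Agent.P248.Lower

/-! The fibrewise momentum map and the upper bound for the total mass. -/

namespace Vale.Agent.P248

open MeasureTheory Filter Topology Complex Set
open scoped Matrix Real

variable {n : ℕ} {J : Type} [Fintype J]

structure Mom (X : Dat n J) (ι : Fin n → J) where
  p : J → ℝ → ℝ → ℝ
  mono : ∀ j t, Monotone (fun s => p j s t)
  strict : ∀ i t, StrictMono (fun s => p (ι i) s t)
  der : ∀ j (ζ : ℂ), ζ ∈ X.D j → ‖X.g j ζ‖ < 1 →
    HasDerivAt (fun s => p j s ζ.im) (‖deriv (X.g j) ζ‖ ^ 2) ζ.re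

noncomputable def Mom.PP {X : Dat n J} {ι : Fin n → J} (W : Mom X ι) (y x : Fin n → ℝ) :
    Fin n → ℝ := ∑ j, W.p j (X.a j ⬝ᵥ x) (X.a j ⬝ᵥ y) • X.a j

noncomputable def dotL (a : Fin n → ℝ) : (Fin n → ℝ) →L[ℝ] ℝ :=
  LinearMap.toContinuousLinearMap
    { toFun := fun x => a ⬝ᵥ x
      map_add' := fun x y => dotProduct_add a x y
      map_smul' := fun c x => by simp }

lemma dotL_apply (a x : Fin n → ℝ) : dotL a x = a ⬝ᵥ x := rfl

lemma Dat.norm_lt (X : Dat n J) {z : EE n} (hz : z ∈ X.U) (j : J) :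
    ‖X.g j (zt (X.a j) z)‖ < 1 := by
  have h1 : ‖X.g j (zt (X.a j) z)‖ ^ 2 ≤ X.Ph z :=
    Finset.single_le_sum (f := fun j => ‖X.g j (zt (X.a j) z)‖ ^ 2) (fun _ _ => sq_nonneg _)
      (Finset.mem_univ j)
  have h2 := hz.2
  nlinarith [norm_nonneg (X.g j (zt (X.a j) z))]

lemma Mom.hasFDeriv {X : Dat n J} {ι : Fin n → J} (W : Mom X ι) {x y : Fin n → ℝ}
    (hz : (x, y) ∈ X.U) : HasFDerivAt (W.PP y)
      (LinearMap.toContinuousLinearMap (Matrix.toLin' (gram X.a (X.hh (x, y))))) x := by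
  have h1 : ∀ j, HasFDerivAt (fun x => W.p j (X.a j ⬝ᵥ x) (X.a j ⬝ᵥ y) • X.a j)
      ((X.hh (x, y) j • dotL (X.a j)).smulRight (X.a j)) x := by
    intro j
    have h2 := W.der j _ (hz.1 j) (X.norm_lt hz j)
    rw [zt_re, zt_im] at h2
    exact (h2.comp_hasFDerivAt x (dotL (X.a j)).hasFDerivAt).smul_const (X.a j)
  refine (HasFDerivAt.fun_sum fun j _ => h1 j).congr_fderiv ?_
  ext v : 1
  simp only [ContinuousLinearMap.sum_apply, ContinuousLinearMap.smulRight_apply,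
    ContinuousLinearMap.smul_apply, dotL_apply, LinearMap.coe_toContinuousLinearMap',
    Matrix.toLin'_apply, gram, Matrix.sum_mulVec, Matrix.smul_mulVec, Matrix.vecMulVec_mulVec]
  refine Finset.sum_congr rfl fun j _ => ?_
  ext i
  simp; ring

lemma Mom.inj {X : Dat n J} {ι : Fin n → J} (W : Mom X ι) (ha : ∀ i, X.a (ι i) = Pi.single i 1)
    (y : Fin n → ℝ) : Function.Injective (W.PP y) := by
  intro x x' h
  by_contra hne
  obtain ⟨i, hi⟩ := Function.ne_iff.mp hne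
  have h1 : (W.PP y x - W.PP y x') ⬝ᵥ (x - x') = 0 := by rw [h]; simp
  have h2 : (W.PP y x - W.PP y x') ⬝ᵥ (x - x') = ∑ j, (W.p j (X.a j ⬝ᵥ x) (X.a j ⬝ᵥ y) -
      W.p j (X.a j ⬝ᵥ x') (X.a j ⬝ᵥ y)) * (X.a j ⬝ᵥ x - X.a j ⬝ᵥ x') := by
    rw [Mom.PP, Mom.PP, ← Finset.sum_sub_distrib, sum_dotProduct]
    refine Finset.sum_congr rfl fun j _ => ?_
    rw [← sub_smul, smul_dotProduct, dotProduct_sub, smul_eq_mul]
  have h3 : 0 < ∑ j, (W.p j (X.a j ⬝ᵥ x) (X.a j ⬝ᵥ y) -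
      W.p j (X.a j ⬝ᵥ x') (X.a j ⬝ᵥ y)) * (X.a j ⬝ᵥ x - X.a j ⬝ᵥ x') := by
    refine Finset.sum_pos' (fun j _ => ?_) ⟨ι i, Finset.mem_univ _, ?_⟩
    · rcases le_total (X.a j ⬝ᵥ x) (X.a j ⬝ᵥ x') with h | h
      · exact mul_nonneg_of_nonpos_of_nonpos (sub_nonpos.mpr (W.mono j _ h)) (sub_nonpos.mpr h)
      · exact mul_nonneg (sub_nonneg.mpr (W.mono j _ h)) (sub_nonneg.mpr h)
    · have e : ∀ v : Fin n → ℝ, X.a (ι i) ⬝ᵥ v = v i := fun v => by rw [ha]; simp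
      rw [e x, e x']
      rcases lt_or_gt_of_ne hi with h | h
      · exact mul_pos_of_neg_of_neg (sub_neg.mpr (W.strict i _ h)) (sub_neg.mpr h)
      · exact mul_pos (sub_pos.mpr (W.strict i _ h)) (sub_pos.mpr h)
  linarith

theorem mass_upper {X : Dat n J} (hQ : IsCompact X.Q) {ι : Fin n → J} (W : Mom X ι)
    (ha : ∀ i, X.a (ι i) = Pi.single i 1) :
    ENNReal.ofReal (∫ z in X.U, X.dt z) =
      ∫⁻ y, volume (W.PP y '' {x | (x, y) ∈ X.U}) := by
  have hU := X.isOpen_U.measurableSet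
  rw [ofReal_integral_eq_lintegral_ofReal (X.integrableOn_dt hQ)
    (Eventually.of_forall fun z => X.dt_nonneg z), ← lintegral_indicator hU]
  have hm : AEMeasurable (X.U.indicator fun z => ENNReal.ofReal (X.dt z))
      ((volume : Measure (Fin n → ℝ)).prod volume) :=
    (aemeasurable_indicator_iff hU).mpr
      (((X.cdt.mono fun _ hz => hz.1).aemeasurable hU).ennreal_ofReal)
  refine (lintegral_prod_symm _ hm).trans (lintegral_congr fun y => ?_)
  have hUy : MeasurableSet {x | (x, y) ∈ X.U} :=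
    (X.isOpen_U.preimage (Continuous.prodMk_left y)).measurableSet
  rw [← lintegral_abs_det_fderiv_eq_addHaar_image volume hUy
    (fun x hx => (W.hasFDeriv hx).hasFDerivWithinAt) (W.inj ha y).injOn,
    ← lintegral_indicator hUy]
  refine lintegral_congr fun x => ?_
  by_cases hx : (x, y) ∈ X.U
  · rw [indicator_of_mem hx, indicator_of_mem (show x ∈ {x | (x, y) ∈ X.U} from hx),
      LinearMap.det_toContinuousLinearMap, LinearMap.det_toLin',
      abs_of_nonneg (gram_det_nonneg _ (X.hh_nonneg _)), Dat.dt]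
  · rw [indicator_of_notMem hx, indicator_of_notMem (show x ∉ {x | (x, y) ∈ X.U} from hx)]

theorem core {k : ℕ} (X : Dat (k + 1) J) (hQ : IsCompact X.Q) {m : ℕ} {ε : ℝ} (hε : 0 < ε)
    (C : Coord X m ε) (W : Mom X C.ι) :
    ENNReal.ofReal ((π * (m + 1)) ^ (k + 1) / ((k + 1).factorial : ℝ)) ≤
      ∫⁻ y, volume (W.PP y '' {x | (x, y) ∈ X.U}) := by
  rw [← mass_upper hQ W C.ha]
  refine ENNReal.ofReal_le_ofReal ?_
  rw [div_le_iff₀' (by exact_mod_cast (k + 1).factorial_pos)]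
  exact mass_lower X hQ hε C

end Vale.Agent.P248
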