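import Vale.Agent.P248.Inv
import Vale.Agent.P248.Upper

/-! The approximate inequality for a finite family of functionals. -/

namespace Vale.Agent.P248

open MeasureTheory Filter Topology Complex Set Metric
open scoped Matrix Real Pointwise

variable {n : ℕ} {J : Type} [Fintype J]

noncomputable def XX (a : J → Fin n → ℝ) (m : ℕ) (ε : ℝ) : Dat n (J ⊕ Fin n) where
  a := Sum.elim a fun i => Pi.single i 1
  D := Sum.elim (fun _ => DD) fun _ => univ
  g := Sum.elim (fun _ => gg (m + 1)) fun _ ζ => ε * ζ ^ (m + 1)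
  hD := by
    rintro (j | i)
    exacts [isOpen_DD, isOpen_univ]
  hg := by
    rintro (j | i)
    · exact analytic_gg _
    · exact fun ζ _ => analyticAt_const.mul (analyticAt_id.pow _)

lemma XX_Om {a : J → Fin n → ℝ} {m : ℕ} {ε : ℝ} {z : EE n} :
    z ∈ (XX a m ε).Om ↔ ∀ j, zt (a j) z ∈ DD := by
  simp [Dat.Om, XX]

lemma XX_Ph (a : J → Fin n → ℝ) (m : ℕ) (ε : ℝ) (z : EE n) :
    (XX a m ε).Ph z = ∑ j, ‖gg (m + 1) (zt (a j) z)‖ ^ 2 +
      ∑ i, ε ^ 2 * ‖zt (Pi.single i 1) z‖ ^ (2 * (m + 1)) := by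
  rw [Dat.Ph, Fintype.sum_sum_type]
  congr 1
  refine Finset.sum_congr rfl fun i _ => ?_
  simp only [XX, Sum.elim_inr, norm_mul, norm_pow, Complex.norm_real, Real.norm_eq_abs, mul_pow,
    sq_abs]
  rw [← pow_mul, mul_comm (m + 1) 2]

lemma norm_le_of_Om {a : J → Fin n → ℝ} {R : ℝ}
    (hR : ∀ y, (∀ j, |a j ⬝ᵥ y| ≤ 1) → ‖y‖ ≤ R) {z : EE n} (hz : ∀ j, zt (a j) z ∈ DD) :
    ‖z.1‖ ≤ R ∧ ‖z.2‖ ≤ R :=
  ⟨hR _ fun j => by
    rw [← zt_re]; exact (Complex.abs_re_le_norm _).trans (norm_le_of_mem (hz j)),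
   hR _ fun j => by
    rw [← zt_im]; exact (Complex.abs_im_le_norm _).trans (norm_le_of_mem (hz j))⟩

lemma XX_compact {a : J → Fin n → ℝ} {R : ℝ} (hR : ∀ y, (∀ j, |a j ⬝ᵥ y| ≤ 1) → ‖y‖ ≤ R)
    (m : ℕ) (ε : ℝ) : IsCompact (XX a m ε).Q := by
  set S : Set ℂ := closedBall 0 1 ∩ {w | 2 * ‖w‖ ^ (m + 1 + 1) ≤ 1} with hS
  have hSc : IsCompact S :=
    (isCompact_closedBall 0 1).inter_right (isClosed_le (by fun_prop) continuous_const)
  have hS1 : ∀ w ∈ S, ‖w‖ < 1 := by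
    intro w hw
    refine lt_of_le_of_ne (by simpa using hw.1) fun h => ?_
    have := hw.2
    simp only [mem_setOf_eq, h] at this
    norm_num at this
  have hC : IsClosed (psi '' S) :=
    (hSc.image_of_continuousOn (continuousOn_psi.mono inter_subset_left)).isClosed
  have hT : IsClosed (⋂ j, zt (a j) ⁻¹' (psi '' S)) :=
    isClosed_iInter fun j => hC.preimage (continuous_zt _)
  have hsub : (⋂ j, zt (a j) ⁻¹' (psi '' S)) ⊆ (XX a m ε).Om := by
    intro z hz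
    rw [XX_Om]
    intro j
    obtain ⟨w, hw, h⟩ := mem_iInter.mp hz j
    rw [← h]; exact mem_DD (hS1 w hw)
  have hQ : (XX a m ε).Q = (⋂ j, zt (a j) ⁻¹' (psi '' S)) ∩ (XX a m ε).Ph ⁻¹' Iic 1 := by
    ext z
    refine ⟨fun hz => ⟨mem_iInter.mpr fun j => ?_, hz.2⟩, fun hz => ⟨hsub hz.1, hz.2⟩⟩
    have h1 := XX_Om.mp hz.1 j
    refine ⟨FF (zt (a j) z), ⟨by simpa using (norm_FF h1).le, ?_⟩, psi_FF h1⟩
    have h2 : ‖(XX a m ε).g (Sum.inl j) (zt ((XX a m ε).a (Sum.inl j)) z)‖ ^ 2 ≤ (XX a m ε).Ph z :=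
      Finset.single_le_sum (f := fun j => ‖(XX a m ε).g j (zt ((XX a m ε).a j) z)‖ ^ 2)
        (fun _ _ => sq_nonneg _) (Finset.mem_univ _)
    have h3 : ‖gg (m + 1) (zt (a j) z)‖ ^ 2 ≤ 1 ^ 2 := by rw [one_pow]; exact h2.trans hz.2
    have := le_of_sq_le_sq h3 zero_le_one
    rwa [norm_gg] at this
  refine isCompact_of_isClosed_isBounded ?_ ?_
  · rw [hQ]
    exact ((XX a m ε).cPh.mono hsub).preimage_isClosed_of_isClosed hT isClosed_Iic
  · refine (isBounded_closedBall (x := (0 : EE n)) (r := R)).subset fun z hz => ?_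
    have := norm_le_of_Om hR (XX_Om.mp hz.1)
    rw [mem_closedBall_zero_iff, Prod.norm_def]
    exact max_le this.1 this.2

lemma norm_deriv_extra (m : ℕ) (ε : ℝ) (ζ : ℂ) :
    ‖deriv (fun ζ : ℂ => (ε : ℂ) * ζ ^ (m + 1)) ζ‖ ^ 2 =
      ε ^ 2 * (((m : ℝ) + 1) ^ 2 * ‖ζ‖ ^ (2 * m)) := by
  rw [((hasDerivAt_pow (m + 1) ζ).const_mul (ε : ℂ)).deriv, norm_mul, norm_mul, norm_pow,
    Complex.norm_natCast, Complex.norm_real, Real.norm_eq_abs, mul_pow, mul_pow, sq_abs,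
    Nat.add_sub_cancel, ← pow_mul, mul_comm m 2]
  push_cast; ring

lemma zt_eq_sum (a : Fin n → ℝ) (z : EE n) :
    zt a z = ∑ i, (a i : ℂ) * zt (Pi.single i 1) z := by
  apply Complex.ext
  · simp [zt_re, Complex.re_sum, dotProduct, Pi.single_apply]
  · simp [zt_im, Complex.im_sum, dotProduct, Pi.single_apply]

noncomputable def CC (a : J → Fin n → ℝ) (m : ℕ) {ε : ℝ} (hε : 0 < ε) : Coord (XX a m ε) m ε where
  ι := Sum.inr
  ha := fun _ => rfl
  hh := fun i z => norm_deriv_extra m ε _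
  hloc := by
    intro δ hδ
    have hc := cc_pos
    obtain ⟨ρ, hρ, hball⟩ := Metric.isOpen_iff.mp isOpen_DD 0
      (by rw [← psi_zero]; exact mem_DD (by simp))
    set A := 1 + ∑ j, ∑ i, |a j i| with hA
    have hA0 : 0 < A := by positivity
    set B := (Fintype.card J : ℝ) * (4 * (2 / cc * A) ^ (2 * (m + 1 + 1))) + 1 with hB
    have hB0 : 0 < B := by positivity
    set r := min (ρ / (2 * A)) (min 1 (δ * ε ^ 2 / B)) with hr
    have hr0 : 0 < r := lt_min (by positivity) (lt_min one_pos (by positivity))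
    refine ⟨r, hr0, fun z hz => ?_⟩
    set μ := ‖fun i => zt (Pi.single i 1) z‖ with hμ
    have hμ0 : 0 ≤ μ := norm_nonneg _
    have hμr : μ ≤ r := (pi_norm_le_iff_of_nonneg hr0.le).mpr hz
    have h1 : ∀ j, ‖zt (a j) z‖ ≤ A * μ := by
      intro j
      rw [zt_eq_sum]
      refine (norm_sum_le _ _).trans ?_
      calc _ ≤ ∑ i, |a j i| * μ := Finset.sum_le_sum fun i _ => by
              rw [norm_mul, Complex.norm_real, Real.norm_eq_abs]
              exact mul_le_mul_of_nonneg_left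
                (norm_le_pi_norm (fun i => zt (Pi.single i 1) z) i) (abs_nonneg _)
        _ = (∑ i, |a j i|) * μ := by rw [Finset.sum_mul]
        _ ≤ A * μ := by
              refine mul_le_mul_of_nonneg_right ?_ hμ0
              have := Finset.single_le_sum (f := fun j => ∑ i, |a j i|)
                (fun _ _ => by positivity) (Finset.mem_univ j)
              linarith
    have h2 : ∀ j, zt (a j) z ∈ DD := by
      intro j
      refine hball (mem_ball_zero_iff.mpr ((h1 j).trans_lt ?_))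
      have : μ ≤ ρ / (2 * A) := hμr.trans (min_le_left _ _)
      rw [le_div_iff₀ (by positivity)] at this
      nlinarith
    refine ⟨XX_Om.mpr h2, ?_⟩
    have h3 : ∀ j, ‖gg (m + 1) (zt (a j) z)‖ ^ 2 ≤
        4 * (2 / cc * A) ^ (2 * (m + 1 + 1)) * μ ^ (2 * (m + 1 + 1)) := by
      intro j
      have h4 : ‖FF (zt (a j) z)‖ ≤ 2 / cc * A * μ := by
        have := norm_le_psi (norm_FF (h2 j))
        rw [psi_FF (h2 j)] at this
        have h5 := this.trans (h1 j)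
        rw [← le_div_iff₀' (by positivity)] at h5
        refine h5.trans (le_of_eq ?_)
        field_simp
      rw [norm_gg, mul_pow, ← pow_mul, mul_comm (m + 1 + 1) 2, mul_assoc, ← mul_pow]
      norm_num
      gcongr
    have h6 : μ ^ (2 * (m + 1)) ≤ ∑ i, ‖zt (Pi.single i 1) z‖ ^ (2 * (m + 1)) := by
      rcases isEmpty_or_nonempty (Fin n) with h | h
      · have : μ = 0 := by rw [hμ]; exact Pi.norm_def _ |>.trans (by simp)
        rw [this, zero_pow (by omega)]; positivity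
      · obtain ⟨i, hi⟩ : ∃ i, μ = ‖zt (Pi.single i 1) z‖ := by
          obtain ⟨i, hi⟩ := Finite.exists_max fun i : Fin n => ‖zt (Pi.single i 1) z‖
          exact ⟨i, le_antisymm ((pi_norm_le_iff_of_nonneg (norm_nonneg _)).mpr hi)
            (norm_le_pi_norm (fun i => zt (Pi.single i 1) z) i)⟩
        rw [hi]
        exact Finset.single_le_sum (f := fun i => ‖zt (Pi.single i 1) z‖ ^ (2 * (m + 1)))
          (fun _ _ => by positivity) (Finset.mem_univ i)
    have h7 : B * μ ^ 2 ≤ δ * ε ^ 2 := by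
      have e1 : μ ≤ 1 := hμr.trans ((min_le_right _ _).trans (min_le_left _ _))
      have e2 : μ ≤ δ * ε ^ 2 / B := hμr.trans ((min_le_right _ _).trans (min_le_right _ _))
      rw [le_div_iff₀' hB0] at e2
      nlinarith [mul_nonneg hB0.le hμ0]
    rw [XX_Ph, ← Finset.mul_sum]
    have h8 : ∑ j, ‖gg (m + 1) (zt (a j) z)‖ ^ 2 ≤ B * μ ^ 2 * μ ^ (2 * (m + 1)) := by
      refine (Finset.sum_le_sum fun j _ => h3 j).trans ?_
      rw [Finset.sum_const, nsmul_eq_mul, Finset.card_univ, mul_assoc B, ← pow_add,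
        show 2 + 2 * (m + 1) = 2 * (m + 1 + 1) by ring, ← mul_assoc]
      exact mul_le_mul_of_nonneg_right (by linarith) (by positivity)
    have h9 := mul_le_mul h7 h6 (by positivity) (by positivity)
    nlinarith

noncomputable def qq (m : ℕ) (ε s t : ℝ) : ℝ :=
  ∫ σ in (0 : ℝ)..s, ε ^ 2 * (((m : ℝ) + 1) ^ 2 * ‖(σ : ℂ) + t * I‖ ^ (2 * m))

lemma qq_deriv (m : ℕ) (ε s t : ℝ) : HasDerivAt (fun s => qq m ε s t)
    (ε ^ 2 * (((m : ℝ) + 1) ^ 2 * ‖(s : ℂ) + t * I‖ ^ (2 * m))) s :=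
  ((by fun_prop : Continuous fun σ : ℝ => ε ^ 2 * (((m : ℝ) + 1) ^ 2 *
    ‖(σ : ℂ) + t * I‖ ^ (2 * m))).integral_hasStrictDerivAt 0 s).hasDerivAt

lemma qq_strict (m : ℕ) {ε : ℝ} (hε : 0 < ε) (t : ℝ) : StrictMono fun s => qq m ε s t := by
  have hp : ∀ s : ℝ, s ≠ 0 → 0 < deriv (fun s => qq m ε s t) s := by
    intro s hs
    rw [(qq_deriv m ε s t).deriv]
    have : 0 < ‖(s : ℂ) + t * I‖ := norm_pos_iff.mpr fun h => hs (by simpa using congrArg re h)
    positivity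
  have hc : Continuous fun s => qq m ε s t :=
    continuous_iff_continuousAt.mpr fun s => (qq_deriv m ε s t).continuousAt
  refine StrictMonoOn.Iic_union_Ici (a := 0) ?_ ?_
  · exact strictMonoOn_of_deriv_pos (convex_Iic 0) hc.continuousOn fun s hs =>
      hp s (by rw [interior_Iic] at hs; exact ne_of_lt hs)
  · exact strictMonoOn_of_deriv_pos (convex_Ici 0) hc.continuousOn fun s hs =>
      hp s (by rw [interior_Ici] at hs; exact ne_of_gt hs)

lemma qq_le (m : ℕ) (ε : ℝ) {s t R : ℝ} (hs : |s| ≤ R) (ht : |t| ≤ R) :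
    |qq m ε s t| ≤ ε ^ 2 * (((m : ℝ) + 1) ^ 2 * (2 * R) ^ (2 * m) * R) := by
  have hR : 0 ≤ R := (abs_nonneg _).trans hs
  have := intervalIntegral.norm_integral_le_of_norm_le_const (a := 0) (b := s)
    (C := ε ^ 2 * (((m : ℝ) + 1) ^ 2 * (2 * R) ^ (2 * m)))
    (f := fun σ : ℝ => ε ^ 2 * (((m : ℝ) + 1) ^ 2 * ‖(σ : ℂ) + t * I‖ ^ (2 * m))) (by
      intro σ hσ
      rw [Real.norm_of_nonneg (by positivity)]
      have h1 : |σ| ≤ |s| := by simpa using abs_sub_left_of_mem_uIcc (uIoc_subset_uIcc hσ)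
      have h2 : ‖(σ : ℂ) + t * I‖ ≤ 2 * R := by
        refine (norm_add_le _ _).trans ?_
        simp only [norm_mul, Complex.norm_real, Real.norm_eq_abs, norm_I]
        linarith
      gcongr)
  rw [sub_zero] at this
  refine le_trans this ?_
  rw [← mul_assoc _ _ R]
  exact mul_le_mul_of_nonneg_left hs (by positivity)

noncomputable def MM (a : J → Fin n → ℝ) (m : ℕ) {ε : ℝ} (hε : 0 < ε) :
    Mom (XX a m ε) (CC a m hε).ι where
  p := Sum.elim (fun _ => pp (m + 1)) fun _ => qq m ε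
  mono := by
    rintro (j | i) t
    exacts [pp_mono _ t, (qq_strict m hε t).monotone]
  strict := fun i t => qq_strict m hε t
  der := by
    rintro (j | i) ζ h1 h2
    · have := pp_deriv (m + 1) (s := ζ.re) (t := ζ.im) (by rw [re_add_im]; exact ⟨h1, h2⟩)
      rwa [re_add_im] at this
    · have := qq_deriv m ε ζ.re ζ.im
      rw [re_add_im, ← norm_deriv_extra] at this
      exact this

def Lam (a : J → Fin n → ℝ) (η : ℝ) (y : Fin n → ℝ) : Set (Fin n → ℝ) :=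
  {P | ∃ (x : Fin n → ℝ) (w : J → ℂ) (t : J → ℝ),
    (∀ j, ‖w j‖ < 1 ∧ psi (w j) = zt (a j) (x, y) ∧ (t j ≠ 0 → 1 - η ≤ ‖w j‖) ∧
      0 ≤ t j * (w j).re) ∧ ∑ j, |t j| ≤ 1 ∧ ‖P - ∑ j, t j • a j‖ ≤ η}

lemma soft {p G τ r : ℝ} (hτ : 0 ≤ τ) (hG : 0 ≤ G) (h : |p| ≤ G + 2 * τ) (hr : 0 ≤ p * r) :
    ∃ t, |t| ≤ G ∧ |p - t| ≤ 3 * τ ∧ (t ≠ 0 → τ < G) ∧ 0 ≤ t * r := by
  rw [abs_le] at h
  by_cases h1 : 3 * τ < p
  · refine ⟨p - 3 * τ, abs_le.mpr ⟨by linarith, by linarith⟩, abs_le.mpr ⟨by linarith, by linarith⟩,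
      fun _ => by linarith, mul_nonneg (by linarith) ?_⟩
    exact nonneg_of_mul_nonneg_right hr (by linarith)
  by_cases h2 : p < -(3 * τ)
  · refine ⟨p + 3 * τ, abs_le.mpr ⟨by linarith, by linarith⟩, abs_le.mpr ⟨by linarith, by linarith⟩,
      fun _ => by linarith, mul_nonneg_of_nonpos_of_nonpos (by linarith) ?_⟩
    exact nonpos_of_mul_nonneg_right hr (by linarith)
  · exact ⟨0, by simpa using hG, abs_le.mpr ⟨by linarith, by linarith⟩, fun h => absurd rfl h,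
      by simp⟩

theorem approx {k : ℕ} (a : J → Fin (k + 1) → ℝ) {R : ℝ}
    (hR : ∀ y, (∀ j, |a j ⬝ᵥ y| ≤ 1) → ‖y‖ ≤ R) {η : ℝ} (hη : 0 < η) (hη1 : η < 1) :
    ENNReal.ofReal (4 ^ (k + 1) / ((k + 1).factorial : ℝ)) ≤
      ENNReal.ofReal ((1 + η) ^ (k + 1)) * ∫⁻ y, volume (Lam a η y) := by
  have hR0 : 0 ≤ R := by simpa using hR 0 (by simp)
  set τ := η / (2 * (3 * ∑ j, ‖a j‖ + 1)) with hτ
  have hS : 0 ≤ ∑ j, ‖a j‖ := by positivity
  have hτ0 : 0 < τ := by positivity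
  have hτ1 : τ * (2 * (3 * ∑ j, ‖a j‖ + 1)) = η := by rw [hτ]; field_simp
  have hτ2 : 2 * τ ≤ η := by nlinarith
  have hlim : Tendsto (fun N : ℕ => 4 * (1 - η) ^ N) atTop (𝓝 (4 * 0)) :=
    (tendsto_pow_atTop_nhds_zero_of_lt_one (by linarith) (by linarith)).const_mul 4
  obtain ⟨N, hN1, hN2, hN3, hN4⟩ := ((pp_bound hτ0).and ((hlim.eventually (gt_mem_nhds
    (show 4 * (0 : ℝ) < τ by linarith))).and ((eventually_gt_atTop 0).and
    (tendsto_natCast_atTop_atTop (R := ℝ).eventually_ge_atTop (2 / τ))))).exists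
  obtain ⟨m, rfl⟩ : ∃ m, N = m + 1 := ⟨N - 1, by omega⟩
  push_cast at hN1 hN4
  rw [div_le_iff₀ hτ0] at hN4
  set κ := (1 + η) * ((m : ℝ) + 1) * π / 4 with hκ
  have hκ0 : 0 < κ := by positivity
  have hκ1 : (1 + τ) * ((m : ℝ) + 1 + 1) * π / 4 ≤ κ := by
    rw [hκ]
    have : (1 + τ) * ((m : ℝ) + 1 + 1) ≤ (1 + η) * ((m : ℝ) + 1) := by
      nlinarith [mul_nonneg (sub_nonneg.mpr hτ2) (show (0 : ℝ) ≤ m + 1 by positivity)]
    gcongr
  have hκ2 : (m : ℝ) + 1 + 1 ≤ 2 * κ := by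
    have h1 : (m : ℝ) + 1 + 1 ≤ (1 + τ) * ((m : ℝ) + 1 + 1) :=
      le_mul_of_one_le_left (by positivity) (by linarith)
    nlinarith [Real.pi_gt_three]
  set B := ((m : ℝ) + 1) ^ 2 * (2 * R) ^ (2 * m) * R with hB
  have hB0 : 0 ≤ B := by positivity
  set ε := min 1 (κ * η / 2 / (B + 1)) with hεd
  have hε : 0 < ε := lt_min one_pos (by positivity)
  have hεB : ε ^ 2 * B ≤ κ * η / 2 := by
    have e1 : ε ≤ 1 := min_le_left _ _
    have e2 : ε ≤ κ * η / 2 / (B + 1) := min_le_right _ _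
    rw [le_div_iff₀ (by positivity)] at e2
    nlinarith [mul_nonneg hε.le hB0]
  have hcore := core (XX a m ε) (XX_compact hR m ε) hε (CC a m hε) (MM a m hε)
  have hsub : ∀ y, (MM a m hε).PP y '' {x | (x, y) ∈ (XX a m ε).U} ⊆ κ • Lam a η y := by
    rintro y _ ⟨x, hx, rfl⟩
    have hD := XX_Om.mp hx.1
    have hlt : ∀ j, ‖gg (m + 1) (zt (a j) (x, y))‖ < 1 := fun j =>
      (XX a m ε).norm_lt hx (Sum.inl j)
    have ht : ∀ j, ∃ t, |t| ≤ ‖gg (m + 1) (zt (a j) (x, y))‖ ^ 2 ∧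
        |pp (m + 1) (a j ⬝ᵥ x) (a j ⬝ᵥ y) / κ - t| ≤ 3 * τ ∧
        (t ≠ 0 → τ < ‖gg (m + 1) (zt (a j) (x, y))‖ ^ 2) ∧ 0 ≤ t * (FF (zt (a j) (x, y))).re := by
      intro j
      refine soft hτ0.le (sq_nonneg _) ?_ ?_
      · have h1 := hN1 _ ⟨hD j, hlt j⟩
        rw [zt_re, zt_im] at h1
        rw [abs_div, abs_of_pos hκ0, div_le_iff₀ hκ0]
        nlinarith [mul_le_mul_of_nonneg_right hκ1 (sq_nonneg ‖gg (m + 1) (zt (a j) (x, y))‖)]
      · have h1 := pp_sign (m + 1) (hD j)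
        rw [zt_re, zt_im] at h1
        rw [div_mul_eq_mul_div]
        exact div_nonneg h1 hκ0.le
    choose t ht1 ht2 ht3 ht4 using ht
    rw [mem_smul_set_iff_inv_smul_mem₀ hκ0.ne']
    refine ⟨x, fun j => FF (zt (a j) (x, y)), t, fun j => ⟨norm_FF (hD j), psi_FF (hD j),
      fun h => ?_, ht4 j⟩, ?_, ?_⟩
    · by_contra hc
      push Not at hc
      have h1 := ht3 j h
      have h2 : ‖gg (m + 1) (zt (a j) (x, y))‖ ≤ 2 * (1 - η) ^ (m + 1) := by
        rw [norm_gg]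
        refine mul_le_mul_of_nonneg_left ((pow_le_pow_left₀ (norm_nonneg _) hc.le _).trans
          (pow_le_pow_of_le_one (by linarith) (by linarith) (by omega))) zero_le_two
      have h3 := hlt j
      have h4 := norm_nonneg (gg (m + 1) (zt (a j) (x, y)))
      nlinarith
    · refine (Finset.sum_le_sum fun j _ => ht1 j).trans ?_
      have h1 := hx.2
      rw [XX_Ph] at h1
      have : 0 ≤ ∑ i, ε ^ 2 * ‖zt (Pi.single i 1) (x, y)‖ ^ (2 * (m + 1)) := by positivity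
      linarith
    · have e : κ⁻¹ • (MM a m hε).PP y x - ∑ j, t j • a j =
          ∑ j, (pp (m + 1) (a j ⬝ᵥ x) (a j ⬝ᵥ y) / κ - t j) • a j +
            κ⁻¹ • fun i => qq m ε (x i) (y i) := by
        rw [Mom.PP, Fintype.sum_sum_type, smul_add, Finset.smul_sum]
        simp only [sub_smul, Finset.sum_sub_distrib]
        have e2 : ∑ i, (MM a m hε).p (Sum.inr i) ((XX a m ε).a (Sum.inr i) ⬝ᵥ x)
            ((XX a m ε).a (Sum.inr i) ⬝ᵥ y) • (XX a m ε).a (Sum.inr i) =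
            fun i => qq m ε (x i) (y i) := by
          ext i
          simp [MM, XX, Finset.sum_apply, Pi.single_apply]
        rw [e2, add_sub_right_comm]
        congr 2
        refine Finset.sum_congr rfl fun j _ => ?_
        rw [smul_smul, div_eq_inv_mul]; rfl
      rw [e]
      refine (norm_add_le _ _).trans ?_
      have h1 : ‖∑ j, (pp (m + 1) (a j ⬝ᵥ x) (a j ⬝ᵥ y) / κ - t j) • a j‖ ≤ 3 * τ * ∑ j, ‖a j‖ := by
        rw [Finset.mul_sum]
        refine (norm_sum_le _ _).trans (Finset.sum_le_sum fun j _ => ?_)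
        rw [norm_smul, Real.norm_eq_abs]
        exact mul_le_mul_of_nonneg_right (ht2 j) (norm_nonneg _)
      have h2 : ‖κ⁻¹ • fun i => qq m ε (x i) (y i)‖ ≤ η / 2 := by
        rw [norm_smul, norm_inv, Real.norm_of_nonneg hκ0.le, inv_mul_le_iff₀ hκ0]
        have hxy := norm_le_of_Om hR hD
        refine (pi_norm_le_iff_of_nonneg (by positivity)).mpr fun i => ?_
        refine (qq_le m ε ((norm_le_pi_norm x i).trans hxy.1)
          ((norm_le_pi_norm y i).trans hxy.2)).trans ?_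
        linarith
      nlinarith
  have h2 : ∫⁻ y, volume ((MM a m hε).PP y '' {x | (x, y) ∈ (XX a m ε).U}) ≤
      ENNReal.ofReal (κ ^ (k + 1)) * ∫⁻ y, volume (Lam a η y) := by
    rw [← lintegral_const_mul' _ _ ENNReal.ofReal_ne_top]
    refine lintegral_mono fun y => (measure_mono (hsub y)).trans (le_of_eq ?_)
    rw [Measure.addHaar_smul, Module.finrank_fin_fun, abs_of_pos (by positivity)]
  have h3 := hcore.trans h2
  have hc : 0 < (π * (m + 1) / 4) ^ (k + 1) := by positivity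
  rw [← ENNReal.mul_le_mul_iff_right (ENNReal.ofReal_pos.mpr hc).ne' ENNReal.ofReal_ne_top,
    ← mul_assoc, ← ENNReal.ofReal_mul hc.le, ← ENNReal.ofReal_mul hc.le]
  have e1 : (π * (m + 1) / 4) ^ (k + 1) * (4 ^ (k + 1) / ((k + 1).factorial : ℝ)) =
      (π * (m + 1)) ^ (k + 1) / ((k + 1).factorial : ℝ) := by rw [div_pow]; field_simp
  have e2 : (π * (m + 1) / 4) ^ (k + 1) * (1 + η) ^ (k + 1) = κ ^ (k + 1) := by
    rw [← mul_pow, hκ]; congr 1; ring
  rwa [e1, e2]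

end Vale.Agent.P248
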