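import Vale.Agent.P248.Psi

/-! Boundary behaviour of the conformal map. -/

namespace Vale.Agent.P248

open Filter Topology Complex Set Metric
open scoped Real ComplexConjugate

lemma psi_mono' {w₁ w₂ : ℂ} (h₁ : ‖w₁‖ ≤ 1) (h₂ : ‖w₂‖ ≤ 1) :
    cc / 2 * ‖w₁ - w₂‖ ^ 2 ≤ ((psi w₁ - psi w₂) * conj (w₁ - w₂)).re := by
  have e : closure (ball (0 : ℂ) 1 ×ˢ ball (0 : ℂ) 1) = closedBall 0 1 ×ˢ closedBall 0 1 := by
    rw [closure_prod_eq, closure_ball _ one_ne_zero]
  refine le_on_closure (s := ball (0 : ℂ) 1 ×ˢ ball (0 : ℂ) 1)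
    (f := fun p : ℂ × ℂ => cc / 2 * ‖p.1 - p.2‖ ^ 2)
    (g := fun p : ℂ × ℂ => ((psi p.1 - psi p.2) * conj (p.1 - p.2)).re)
    (fun p hp => psi_mono (by simpa using hp.1) (by simpa using hp.2)) (by fun_prop) ?_
    (x := (w₁, w₂)) (by rw [e]; exact ⟨by simpa using h₁, by simpa using h₂⟩)
  rw [e]
  refine Complex.continuous_re.comp_continuousOn (ContinuousOn.mul (ContinuousOn.sub ?_ ?_) ?_)
  · exact continuousOn_psi.comp continuousOn_fst fun _ h => h.1
  · exact continuousOn_psi.comp continuousOn_snd fun _ h => h.2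
  · exact (Complex.continuous_conj.comp (by fun_prop)).continuousOn

lemma re_psi_mul' {w : ℂ} (hw : ‖w‖ ≤ 1) : cc / 2 * w.re ^ 2 ≤ (psi w).re * w.re := by
  have h := psi_mono' hw (w₂ := w.im * I) (by
    simpa using (Complex.abs_im_le_norm w).trans hw)
  have e : w - w.im * I = (w.re : ℂ) := by apply Complex.ext <;> simp
  rw [e] at h
  simpa [re_psi_imag] using h

lemma hasSum_rot {ω : ℂ} (h : ‖ω‖ ≤ 1) :
    HasSum (fun k : ℕ => (cc : ℂ) * (ω ^ (2 * k + 1) / ((2 * k + 1 : ℕ) : ℂ) ^ 2))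
      (-I * psi (I * ω)) := by
  have h1 := ((summable_tm (w := I * ω) (by simpa using h)).hasSum.mul_left (cc : ℂ)).mul_left (-I)
  convert! h1 using 2 with k
  rw [tm, mul_pow, pow_succ I, pow_mul I, I_sq]
  have : ((-1 : ℂ)) ^ k * (-1) ^ k = 1 := by rw [← mul_pow]; simp
  linear_combination (cc * ω ^ (2 * k + 1) / ((2 * k + 1 : ℕ) : ℂ) ^ 2) *
    (I_mul_I + I * I * this)

lemma hasSum_cc : HasSum (fun k : ℕ => cc * (1 / ((2 * k + 1 : ℕ) : ℝ) ^ 2)) 1 := by
  convert! hasSum_odd.mul_left cc using 1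
  unfold cc; field_simp

lemma psi_I : psi I = I := by
  have h1 := hasSum_rot (ω := 1) (by simp)
  have h2 := Complex.hasSum_ofReal.mpr hasSum_cc
  have h3 : -I * psi (I * 1) = ((1 : ℝ) : ℂ) := h1.unique (by convert! h2 using 2 with k; simp)
  rw [mul_one] at h3
  linear_combination I * h3 + psi I * I_mul_I + I * ofReal_one

lemma re_zero_of_im {w : ℂ} (hw : ‖w‖ ≤ 1) (h : (psi w).im = 1 ∨ (psi w).im = -1) :
    (psi w).re = 0 := by
  have h1 := pow_le_one₀ (norm_nonneg _) (norm_psi_le hw) (n := 2)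
  rw [Complex.sq_norm, Complex.normSq_apply] at h1
  rcases h with h | h <;> rw [h] at h1 <;> nlinarith

lemma im_of_re_zero {w : ℂ} (hw : ‖w‖ = 1) (h : (psi w).re = 0) :
    (psi w).im = 1 ∨ (psi w).im = -1 := by
  have h1 := re_psi_mul' hw.le
  have hc := cc_pos
  rw [h, zero_mul] at h1
  have h2 : w.re = 0 := by
    by_contra hn
    have := mul_pos (half_pos hc) (sq_pos_of_ne_zero hn)
    linarith
  have h3 : ‖w‖ ^ 2 = 1 := by rw [hw]; norm_num
  rw [Complex.sq_norm, Complex.normSq_apply, h2, mul_zero, zero_add] at h3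
  rcases mul_self_eq_one_iff.mp h3 with e | e
  · left
    rw [show w = I from Complex.ext (by simp [h2]) (by simp [e]), psi_I, I_im]
  · right
    rw [show w = -I from Complex.ext (by simp [h2]) (by simp [e]), psi_neg, psi_I]; simp

lemma real_of_im_zero {w : ℂ} (hw : ‖w‖ ≤ 1) (h : (psi w).im = 0) : w.im = 0 := by
  have h1 := psi_mono' hw (w₂ := conj w) (by simpa using hw)
  rw [psi_conj, Complex.conj_eq_iff_im.mpr h, sub_self, zero_mul, zero_re] at h1
  have h2 : ‖w - conj w‖ ^ 2 ≤ 0 := nonpos_of_mul_nonpos_right h1 (half_pos cc_pos)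
  have h3 : w - conj w = 0 := by simpa using h2
  exact Complex.conj_eq_iff_im.mp (sub_eq_zero.mp h3).symm

lemma psi_one_pos : 0 < (psi 1).re := by
  have := re_psi_mul' (w := 1) (by simp)
  have := cc_pos
  simp only [one_re] at *
  linarith

lemma re_le_psi_one {w : ℂ} (hw : ‖w‖ ≤ 1) (h : (psi w).im = 0) : (psi w).re ≤ (psi 1).re := by
  have h1 := real_of_im_zero hw h
  have h2 := psi_mono' (w₁ := 1) (by simp) hw
  have h3 : w.re ≤ 1 := (Complex.re_le_norm w).trans hw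
  rcases h3.eq_or_lt with e | e
  · rw [show w = 1 from Complex.ext e h1]
  · have h4 := le_trans (mul_nonneg (half_pos cc_pos).le (sq_nonneg _)) h2
    simp only [mul_re, sub_re, conj_re, conj_im, sub_im, one_im, one_re, h1, sub_zero, neg_zero,
      mul_zero] at h4
    have := nonneg_of_mul_nonneg_left h4 (by linarith)
    linarith

lemma re_eq_psi_one {w : ℂ} (hw : ‖w‖ = 1) (h0 : 0 ≤ w.re) (h : (psi w).im = 0) :
    (psi w).re = (psi 1).re := by
  have h1 := real_of_im_zero hw.le h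
  have h3 : ‖w‖ ^ 2 = 1 := by rw [hw]; norm_num
  rw [Complex.sq_norm, Complex.normSq_apply, h1, mul_zero, add_zero] at h3
  rcases mul_self_eq_one_iff.mp h3 with e | e
  · rw [show w = 1 from Complex.ext e h1]
  · linarith

noncomputable def qm (m : ℕ) (ω : ℂ) : ℂ := ∑ i ∈ Finset.range m, ω ^ i * conj ω ^ (m - 1 - i)

lemma qm_mul (m : ℕ) (ω : ℂ) : ‖qm m ω‖ * |ω.im| = |(ω ^ m).im| := by
  have h := congrArg norm (geom_sum₂_mul ω (conj ω) m)
  rw [← map_pow, Complex.sub_conj, Complex.sub_conj, norm_mul] at h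
  simp only [norm_mul, Complex.norm_real, Real.norm_eq_abs, norm_I, abs_two] at h
  rw [qm]; linarith

lemma qm_le (m : ℕ) {ω : ℂ} (h : ‖ω‖ ≤ 1) : ‖qm m ω‖ ≤ m := by
  refine (norm_sum_le _ _).trans ?_
  calc _ ≤ ∑ _i ∈ Finset.range m, (1 : ℝ) := Finset.sum_le_sum fun i _ => by
          rw [norm_mul, norm_pow, norm_pow, Complex.norm_conj]
          exact mul_le_one₀ (pow_le_one₀ (norm_nonneg _) h) (by positivity)
            (pow_le_one₀ (norm_nonneg _) h)
    _ = m := by simp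

lemma qm_ge (k : ℕ) : ∀ᶠ ω in 𝓝 (1 : ℂ), ((2 * k + 1 : ℕ) : ℝ) / 2 < ‖qm (2 * k + 1) ω‖ := by
  have hc : Continuous fun ω => ‖qm (2 * k + 1) ω‖ := by
    unfold qm
    exact (continuous_finset_sum _ fun i _ => (continuous_pow i).mul
      (Complex.continuous_conj.pow _)).norm
  refine hc.continuousAt.eventually (lt_mem_nhds ?_)
  have : qm (2 * k + 1) 1 = ((2 * k + 1 : ℕ) : ℂ) := by simp [qm]
  simp only [this, Complex.norm_natCast]
  exact half_lt_self (by positivity)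

lemma im_sq_le {ζ : ℂ} (h : ‖ζ‖ ≤ 1) : ζ.im ^ 2 ≤ 2 * (1 - ζ.re) := by
  have h1 := pow_le_one₀ (norm_nonneg _) h (n := 2)
  rw [Complex.sq_norm, Complex.normSq_apply] at h1
  nlinarith [sq_nonneg (1 - ζ.re)]

lemma hasSum_gap {ω : ℂ} (h : ‖ω‖ ≤ 1) :
    HasSum (fun k : ℕ => cc * ((1 - (ω ^ (2 * k + 1)).re) / ((2 * k + 1 : ℕ) : ℝ) ^ 2))
      (1 - (psi (I * ω)).im) := by
  have h1 := hasSum_cc.sub (Complex.hasSum_re (hasSum_rot h))
  convert! h1 using 2 with k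
  · rw [re_ofReal_mul, ← ofReal_natCast, ← ofReal_pow, div_ofReal_re]; ring
  · simp

lemma gap_nonneg {ω : ℂ} (h : ‖ω‖ ≤ 1) (k : ℕ) :
    0 ≤ cc * ((1 - (ω ^ (2 * k + 1)).re) / ((2 * k + 1 : ℕ) : ℝ) ^ 2) := by
  have : (ω ^ (2 * k + 1)).re ≤ 1 := (Complex.re_le_norm _).trans (by
    rw [norm_pow]; exact pow_le_one₀ (norm_nonneg _) h)
  exact mul_nonneg cc_pos.le (div_nonneg (by linarith) (by positivity))

lemma im_small {ε : ℝ} (hε : 0 < ε) : ∃ δ > 0, ∀ ω : ℂ, ‖ω‖ ≤ 1 → 1 - (psi (I * ω)).im ≤ δ →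
    ω.im ^ 2 ≤ ε * (1 - (psi (I * ω)).im) := by
  have hc := cc_pos
  obtain ⟨M, hM⟩ := exists_nat_ge (8 / (cc * ε))
  obtain ⟨r, hr, hb⟩ := Metric.nhds_basis_closedBall.eventually_iff.mp
    ((eventually_all_finset (Finset.range M)).mpr fun k _ => qm_ge k)
  refine ⟨cc * r ^ 2 / 2, by positivity, fun ω h1 h2 => ?_⟩
  have h3 := le_hasSum (hasSum_gap h1) 0 fun k _ => gap_nonneg h1 k
  have h4 : ω ∈ closedBall (1 : ℂ) r := by
    rw [mem_closedBall_iff_norm]
    refine le_of_sq_le_sq ?_ hr.le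
    have h5 := pow_le_one₀ (norm_nonneg _) h1 (n := 2)
    rw [Complex.sq_norm, Complex.normSq_apply] at h5 ⊢
    simp only [mul_zero, zero_add, pow_one, Nat.cast_one, one_pow, div_one] at h3
    have h6 : cc * (1 - ω.re) ≤ cc * (r ^ 2 / 2) := by linarith
    have := le_of_mul_le_mul_left h6 hc
    simp only [sub_re, one_re, sub_im, one_im]
    nlinarith
  have h5 := sum_le_hasSum (Finset.range M) (fun k _ => gap_nonneg h1 k) (hasSum_gap h1)
  have h6 : ∑ _k ∈ Finset.range M, cc * (ω.im ^ 2 / 8) ≤ 1 - (psi (I * ω)).im := by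
    refine le_trans (Finset.sum_le_sum fun k hk => mul_le_mul_of_nonneg_left ?_ hc.le) h5
    have h7 := im_sq_le (ζ := ω ^ (2 * k + 1)) (by
      rw [norm_pow]; exact pow_le_one₀ (norm_nonneg _) h1)
    rw [← sq_abs, ← qm_mul, mul_pow, sq_abs] at h7
    have h8 := pow_le_pow_left₀ (by positivity) (hb h4 k hk).le 2
    rw [le_div_iff₀ (by positivity)]
    nlinarith [mul_le_mul_of_nonneg_right h8 (sq_nonneg ω.im)]
  rw [Finset.sum_const, Finset.card_range, nsmul_eq_mul] at h6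
  rw [div_le_iff₀ (by positivity)] at hM
  nlinarith [mul_le_mul_of_nonneg_left h6 hε.le, mul_le_mul_of_nonneg_right hM (sq_nonneg ω.im)]

theorem re_small {ε : ℝ} (hε : 0 < ε) : ∃ δ > 0, ∀ w : ℂ, ‖w‖ ≤ 1 → 1 - (psi w).im ≤ δ →
    (psi w).re ^ 2 ≤ ε * (1 - (psi w).im) := by
  have hc := cc_pos
  obtain ⟨M, hM⟩ := ((tendsto_sum_nat_add fun k : ℕ => cc * (1 / ((2 * k + 1 : ℕ) : ℝ) ^ 2)
    ).eventually (gt_mem_nhds (show (0 : ℝ) < ε / 8 by positivity))).exists
  obtain ⟨δ, hδ, hsm⟩ := im_small (ε := ε / (4 * (cc * M) ^ 2 + 1)) (by positivity)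
  refine ⟨δ, hδ, fun w hw hu => ?_⟩
  obtain ⟨ω, rfl⟩ : ∃ ω, w = I * ω := ⟨-I * w, by rw [← mul_assoc, mul_neg, I_mul_I]; simp⟩
  have h1 : ‖ω‖ ≤ 1 := by simpa using hw
  have h2 := hsm ω h1 hu
  set u := 1 - (psi (I * ω)).im
  have hu0 : 0 ≤ u := (hasSum_gap h1).nonneg (gap_nonneg h1)
  set σ := |(psi (I * ω)).re| with hσ
  rw [← sq_abs, ← hσ]
  rcases (abs_nonneg (psi (I * ω)).re).eq_or_lt with h0 | h0
  · rw [hσ, ← h0]; simpa using mul_nonneg hε.le hu0
  rw [← hσ] at h0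
  have h3 := Complex.hasSum_im (hasSum_rot h1)
  have e3 : ∀ k : ℕ, ((cc : ℂ) * (ω ^ (2 * k + 1) / ((2 * k + 1 : ℕ) : ℂ) ^ 2)).im =
      cc * ((ω ^ (2 * k + 1)).im / ((2 * k + 1 : ℕ) : ℝ) ^ 2) := fun k => by
    rw [im_ofReal_mul, ← ofReal_natCast, ← ofReal_pow, div_ofReal_im]
  simp only [e3] at h3
  have h4 := h3.summable.sum_add_tsum_nat_add M
  rw [h3.tsum_eq] at h4
  have h5 : σ = |(-I * psi (I * ω)).im| := by rw [hσ]; simp
  have hd : |∑ k ∈ Finset.range M, cc * ((ω ^ (2 * k + 1)).im / ((2 * k + 1 : ℕ) : ℝ) ^ 2)| ≤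
      cc * M * |ω.im| := by
    refine (Finset.abs_sum_le_sum_abs _ _).trans ?_
    calc _ ≤ ∑ _k ∈ Finset.range M, cc * |ω.im| := Finset.sum_le_sum fun k _ => by
            rw [abs_mul, abs_of_pos hc, abs_div, ← qm_mul, abs_of_pos (by positivity :
              0 < ((2 * k + 1 : ℕ) : ℝ) ^ 2)]
            refine mul_le_mul_of_nonneg_left ?_ hc.le
            rw [div_le_iff₀ (by positivity)]
            have h6 := qm_le (2 * k + 1) h1
            have h7 : (1 : ℝ) ≤ ((2 * k + 1 : ℕ) : ℝ) := by exact_mod_cast Nat.le_add_left 1 _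
            nlinarith [mul_le_mul_of_nonneg_right h6 (abs_nonneg ω.im),
              mul_nonneg (abs_nonneg ω.im) (mul_nonneg (zero_le_one.trans h7) (sub_nonneg.mpr h7))]
      _ = _ := by simp; ring
  set l := 2 / ε * σ with hl
  have hl0 : 0 < l := by positivity
  have s1 := (summable_nat_add_iff M).mpr hasSum_cc.summable
  have s2 := (summable_nat_add_iff M).mpr (hasSum_gap h1).summable
  have ht := tsum_of_norm_bounded
    (f := fun k : ℕ => cc * ((ω ^ (2 * (k + M) + 1)).im / ((2 * (k + M) + 1 : ℕ) : ℝ) ^ 2))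
    ((s1.hasSum.mul_left l).add (s2.hasSum.mul_left (1 / (2 * l)))) (by
      intro k
      have h7 := im_sq_le (ζ := ω ^ (2 * (k + M) + 1)) (by
        rw [norm_pow]; exact pow_le_one₀ (norm_nonneg _) h1)
      rw [Real.norm_eq_abs, abs_mul, abs_of_pos hc, abs_div, abs_of_pos (by positivity :
        0 < ((2 * (k + M) + 1 : ℕ) : ℝ) ^ 2)]
      have h8 : |(ω ^ (2 * (k + M) + 1)).im| ≤
          l + 1 / (2 * l) * (1 - (ω ^ (2 * (k + M) + 1)).re) := by
        rw [← sq_abs] at h7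
        rw [one_div_mul_eq_div, ← sub_le_iff_le_add', le_div_iff₀ (by positivity)]
        nlinarith [sq_nonneg (|(ω ^ (2 * (k + M) + 1)).im| - 2 * l)]
      refine (mul_le_mul_of_nonneg_left (div_le_div_of_nonneg_right h8 (by positivity))
        hc.le).trans (le_of_eq ?_)
      ring)
  have h9 := (hasSum_gap h1).summable.sum_add_tsum_nat_add M
  rw [(hasSum_gap h1).tsum_eq] at h9
  have h10 := Finset.sum_nonneg fun k (_ : k ∈ Finset.range M) => gap_nonneg h1 k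
  have h11 : σ ≤ cc * M * |ω.im| + (l * (ε / 8) + 1 / (2 * l) * u) := by
    rw [h5, ← h4]
    refine (abs_add_le _ _).trans (add_le_add hd (ht.trans (add_le_add
      (mul_le_mul_of_nonneg_left hM.le hl0.le) (mul_le_mul_of_nonneg_left ?_ (by positivity)))))
    linarith
  have e1 : l * (ε / 8) = σ / 4 := by rw [hl]; field_simp; norm_num
  have e2 : σ * (1 / (2 * l) * u) = ε / 4 * u := by rw [hl]; field_simp; ring
  have h12 : 4 * (cc * M * |ω.im|) ^ 2 ≤ ε * u := by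
    rw [mul_pow, sq_abs]
    rw [div_mul_eq_mul_div, le_div_iff₀ (by positivity)] at h2
    nlinarith [sq_nonneg ω.im]
  rw [e1] at h11
  nlinarith [mul_le_mul_of_nonneg_left h11 h0.le, sq_nonneg (σ - 2 * (cc * M * |ω.im|))]

end Vale.Agent.P248
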