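import Mathlib

/-! Definitions for the symmetric Mahler problem. -/

namespace Vale.Agent.P248

open scoped Matrix

/-- The polar body with respect to the Euclidean inner product. -/
def polar {n : ℕ} (K : Set (Fin n → ℝ)) : Set (Fin n → ℝ) := {y | ∀ x ∈ K, y ⬝ᵥ x ≤ 1}

end Vale.Agent.P248
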