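import Vale.Agent.P248.Limit

/-! The limiting structure in the equality case. -/

namespace Vale.Agent.P248

open MeasureTheory Filter Topology Complex Set Metric
open scoped Matrix Real Pointwise

variable {n : ℕ}

def LimP (K 𝒜 : Set (Fin n → ℝ)) : Prop :=
  ∀ y ∈ K, ∀ P ∈ polar K, ∃ x, (∀ a ∈ 𝒜, ∃ w, ‖w‖ ≤ 1 ∧ psi w = zt a (x, y)) ∧
    ∀ u, 0 < P ⬝ᵥ u → ∃ a ∈ 𝒜, P ⬝ᵥ u ≤ a ⬝ᵥ u ∧
      ∃ w, ‖w‖ = 1 ∧ 0 ≤ w.re ∧ psi w = zt a (x, y)

lemma SB.pos {K : Set (Fin n → ℝ)} (h : SB K) {y : Fin n → ℝ} (hy : y ∈ K) {δ : ℝ} (hδ : 0 < δ) :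
    0 < volume (K ∩ ball y δ) := by
  have h1 : y ∈ closure (interior K) := by
    rw [h.cvx.closure_interior_eq_closure_of_nonempty_interior
      ⟨0, mem_interior_iff_mem_nhds.mpr h.nhds⟩]
    exact subset_closure hy
  have h2 := mem_closure_iff.mp h1 _ isOpen_ball (mem_ball_self hδ)
  exact ((isOpen_ball.inter isOpen_interior).measure_pos volume h2).trans_le
    (measure_mono fun z hz => ⟨interior_subset hz.2, hz.1⟩)

lemma zt_neg (a : Fin n → ℝ) (z : EE n) : zt (-a) z = -zt a z := by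
  simp [zt, add_comm]

lemma dense_step {k : ℕ} {K 𝒜 : Set (Fin (k + 1) → ℝ)} (h : SB K) (h1 : 𝒜 ⊆ polar K)
    (h2 : polar 𝒜 = K) (hs : ∀ a ∈ 𝒜, -a ∈ 𝒜)
    (heq : volume K * volume (polar K) ≤ ENNReal.ofReal (4 ^ (k + 1) / ((k + 1).factorial : ℝ)))
    {y P : Fin (k + 1) → ℝ} (hy : y ∈ K) (hP : P ∈ polar K) :
    ∃ C, ∀ δ > 0, ∃ y' P' x, ‖y' - y‖ ≤ δ ∧ ‖P' - P‖ ≤ δ ∧ ‖x‖ ≤ C ∧
      (∀ a ∈ 𝒜, ∃ b w, ‖a - b‖ ≤ δ ∧ ‖w‖ ≤ 1 ∧ psi w = zt b (x, y')) ∧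
      ∀ u c, 0 ≤ c → c + (k + 1) * (δ * ‖u‖) < P' ⬝ᵥ u → ∃ a ∈ 𝒜, ∃ w, c ≤ a ⬝ᵥ u ∧ ‖w‖ ≤ 1 ∧
        1 - δ ≤ ‖w‖ ∧ 0 ≤ w.re ∧ psi w = zt a (x, y') := by
  obtain ⟨C, hC, hnet⟩ := net h h1 h2
  refine ⟨C, fun δ hδ => ?_⟩
  by_contra hn
  have hfin : volume K * volume (polar K) ≠ ⊤ :=
    ENNReal.mul_ne_top h.cpt.measure_lt_top.ne h.pol.cpt.measure_lt_top.ne
  set D := max C δ⁻¹ with hD
  have hCD : C ≤ D := le_max_left _ _
  have key := lim_aux (a := volume K * volume (polar K) +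
    volume (polar K ∩ ball P δ) * volume (K ∩ ball y δ)) (hC.trans_le hCD) (k + 1) (2 * (k + 1))
    (fun η hη hη1 hDη => ?_) hfin
  · exact absurd key (not_le.mpr (ENNReal.lt_add_right hfin
      (mul_ne_zero (h.pol.pos hP hδ).ne' (h.pos hy hδ).ne')))
  have hCη : C * η ≤ D * η := by gcongr
  have hηδ : η ≤ δ := by
    have : δ⁻¹ * η ≤ 1 := (mul_le_mul_of_nonneg_right (le_max_right _ _) hη.le).trans hDη
    rwa [inv_mul_le_iff₀ hδ, mul_one] at this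
  obtain ⟨s, s1, s2, s3, s4⟩ := hnet η hη (hCη.trans hDη)
  have hc : 1 ≤ 1 + C * η := by nlinarith
  have hav := avoid h.cpt.measurableSet hc (h.sub_smul hc) (h.pol.sub_smul hc) s4
    (B₁ := ball y δ) (B₂ := ball P δ) measurableSet_ball measurableSet_ball (by
      rintro y' hy' P' ⟨x, w, t, h3, h4, h5⟩ hP'
      refine hn ⟨y', P', x, (mem_ball_iff_norm.mp hy').le, (mem_ball_iff_norm.mp hP').le,
        s3 x fun j => ?_, fun a ha => ?_, fun u c hc0 hc => ?_⟩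
      · have := (Complex.abs_re_le_norm _).trans (norm_psi_le (h3 j).1.le)
        rwa [(h3 j).2.1, zt_re] at this
      · obtain ⟨b, hb, hab⟩ := s2 a ha
        exact ⟨b, w ⟨b, hb⟩, hab.trans hηδ, (h3 _).1.le, (h3 _).2.1⟩
      · by_contra hn'
        have h6 : ∀ j : s, t j * (j.1 ⬝ᵥ u) ≤ |t j| * c := by
          intro j
          obtain ⟨g1, g2, g3, g4⟩ := h3 j
          rcases lt_trichotomy (t j) 0 with e | e | e
          · rw [abs_of_neg e]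
            have : ¬c ≤ -j.1 ⬝ᵥ u := fun hh => hn' ⟨-j.1, hs _ (s1 _ j.2), -w j, hh,
              by simpa using g1.le, by rw [norm_neg]; linarith [g3 e.ne],
              by simpa using nonpos_of_mul_nonneg_right g4 e, by rw [psi_neg, g2, zt_neg]⟩
            rw [neg_dotProduct] at this
            nlinarith
          · simp [e]
          · rw [abs_of_pos e]
            have : ¬c ≤ j.1 ⬝ᵥ u := fun hh => hn' ⟨j.1, s1 _ j.2, w j, hh, g1.le,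
              by linarith [g3 e.ne'], nonneg_of_mul_nonneg_right g4 e, g2⟩
            nlinarith
        have e : P' ⬝ᵥ u = (P' - ∑ j, t j • j.1) ⬝ᵥ u + ∑ j, t j * (j.1 ⬝ᵥ u) := by
          rw [sub_dotProduct, sum_dotProduct]; simp
        have h7 := (le_abs_self _).trans (abs_dot_le (P' - ∑ j, t j • j.1) u)
        have h8 : ((k + 1 : ℕ) : ℝ) * (‖P' - ∑ j, t j • j.1‖ * ‖u‖) ≤ (k + 1) * (δ * ‖u‖) := by
          push_cast; gcongr; exact h5.trans hηδ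
        have h9 := Finset.sum_le_sum fun j (_ : j ∈ Finset.univ) => h6 j
        rw [← Finset.sum_mul] at h9
        nlinarith)
  have h3 := heq.trans (approx _ s3 hη hη1)
  have h4 : (1 : ENNReal) ≤ ENNReal.ofReal ((1 + η) ^ (k + 1)) :=
    ENNReal.one_le_ofReal.mpr (one_le_pow₀ (by linarith))
  calc _ ≤ ENNReal.ofReal ((1 + η) ^ (k + 1)) * ((∫⁻ y, volume (Lam (fun j : s => j.1) η y)) +
          volume (polar K ∩ ball P δ) * volume (K ∩ ball y δ)) := by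
        rw [mul_add]; exact add_le_add h3 (le_mul_of_one_le_left' h4)
    _ ≤ ENNReal.ofReal ((1 + η) ^ (k + 1)) * (ENNReal.ofReal ((1 + D * η) ^ (2 * (k + 1))) *
          (volume K * volume (polar K))) := by
        refine mul_le_mul_right (hav.trans (mul_le_mul_left (ENNReal.ofReal_le_ofReal ?_) _)) _
        gcongr
    _ = _ := by rw [ENNReal.ofReal_mul (by positivity), mul_assoc]

lemma tendsto_of_le {l : Filter ℝ} (hl : l ≤ 𝓝[>] 0) {f : ℝ → Fin n → ℝ} {a : Fin n → ℝ}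
    (h : ∀ δ > 0, ‖f δ - a‖ ≤ δ) : Tendsto f l (𝓝 a) := by
  rw [tendsto_iff_norm_sub_tendsto_zero]
  refine squeeze_zero' (Eventually.of_forall fun _ => norm_nonneg _)
    (hl (mem_of_superset self_mem_nhdsWithin h)) (tendsto_id'.mpr (hl.trans nhdsWithin_le_nhds))

lemma tendsto_zt {l : Filter ℝ} {b x y : ℝ → Fin n → ℝ} {a x₀ y₀ : Fin n → ℝ}
    (hb : Tendsto b l (𝓝 a)) (hx : Tendsto x l (𝓝 x₀)) (hy : Tendsto y l (𝓝 y₀)) :
    Tendsto (fun δ => zt (b δ) (x δ, y δ)) l (𝓝 (zt a (x₀, y₀))) := by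
  have hc : Continuous fun p : (Fin n → ℝ) × EE n => zt p.1 p.2 := by unfold zt; fun_prop
  have h := (hc.tendsto (a, x₀, y₀)).comp (hb.prodMk_nhds (hx.prodMk_nhds hy))
  simpa only [Function.comp_def] using h

theorem limP {k : ℕ} {K 𝒜 : Set (Fin (k + 1) → ℝ)} (h : SB K) (h1 : 𝒜 ⊆ polar K)
    (h2 : polar 𝒜 = K) (hs : ∀ a ∈ 𝒜, -a ∈ 𝒜) (hc : IsCompact 𝒜)
    (heq : volume K * volume (polar K) ≤ ENNReal.ofReal (4 ^ (k + 1) / ((k + 1).factorial : ℝ))) :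
    LimP K 𝒜 := by
  intro y hy P hP
  obtain ⟨C, hC⟩ := dense_step h h1 h2 hs heq hy hP
  choose! y' P' x g1 g2 g3 g4 g5 using hC
  set 𝒰 := Ultrafilter.of (𝓝[>] (0 : ℝ))
  have hl : (𝒰 : Filter ℝ) ≤ 𝓝[>] 0 := Ultrafilter.of_le _
  have hpos : ∀ᶠ δ in (𝒰 : Filter ℝ), 0 < δ := hl self_mem_nhdsWithin
  have hid : Tendsto (fun δ : ℝ => δ) 𝒰 (𝓝 0) := tendsto_id'.mpr (hl.trans nhdsWithin_le_nhds)
  have ty := tendsto_of_le hl g1
  have tP := tendsto_of_le hl g2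
  obtain ⟨x₀, -, tx⟩ := (isCompact_closedBall (0 : Fin (k + 1) → ℝ) C).ultrafilter_le_nhds'
    (𝒰.map x) (hpos.mono fun δ hδ => mem_closedBall_zero_iff.mpr (g3 δ hδ))
  replace tx : Tendsto x 𝒰 (𝓝 x₀) := tx
  refine ⟨x₀, fun a ha => ?_, fun u hu => ?_⟩
  · choose! b w q1 q2 q3 using fun δ hδ => g4 δ hδ a ha
    have tb := tendsto_of_le hl (f := b) (a := a) fun δ hδ => by rw [norm_sub_rev]; exact q1 δ hδ
    obtain ⟨w₀, w1, w2⟩ := ((isCompact_closedBall (0 : ℂ) 1).image_of_continuousOn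
      continuousOn_psi).isClosed.mem_of_tendsto (tendsto_zt tb tx ty) (hpos.mono fun δ hδ =>
        ⟨w δ, mem_closedBall_zero_iff.mpr (q2 δ hδ), q3 δ hδ⟩)
    exact ⟨w₀, mem_closedBall_zero_iff.mp w1, w2⟩
  · have tc : Tendsto (fun δ => P' δ ⬝ᵥ u - (k + 1) * (δ * ‖u‖) - δ) 𝒰 (𝓝 (P ⬝ᵥ u)) := by
      have := ((((by fun_prop : Continuous fun P : Fin (k + 1) → ℝ => P ⬝ᵥ u).tendsto P).comp
        tP).sub ((hid.mul_const ‖u‖).const_mul ((k : ℝ) + 1))).sub hid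
      simpa using this
    obtain ⟨p, hp⟩ := Eventually.choice (r := fun δ (p : (Fin (k + 1) → ℝ) × ℂ) => p.1 ∈ 𝒜 ∧
        P' δ ⬝ᵥ u - (k + 1) * (δ * ‖u‖) - δ ≤ p.1 ⬝ᵥ u ∧ ‖p.2‖ ≤ 1 ∧ 1 - δ ≤ ‖p.2‖ ∧
        0 ≤ p.2.re ∧ psi p.2 = zt p.1 (x δ, y' δ)) (by
      filter_upwards [hpos, tc.eventually (lt_mem_nhds hu)] with δ hδ hc
      obtain ⟨a, ha, w, hw⟩ := g5 δ hδ u _ hc.le (by linarith)
      exact ⟨(a, w), ha, hw⟩)
    obtain ⟨⟨a, w⟩, ⟨ha, hw⟩, tp⟩ := (hc.prod (isCompact_closedBall (0 : ℂ) 1)).ultrafilter_le_nhds'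
      (𝒰.map p) (hp.mono fun δ hδ => ⟨hδ.1, mem_closedBall_zero_iff.mpr hδ.2.2.1⟩)
    replace tp : Tendsto p 𝒰 (𝓝 (a, w)) := tp
    have ta := (continuous_fst.tendsto _).comp tp
    have tw := (continuous_snd.tendsto _).comp tp
    refine ⟨a, ha, le_of_tendsto_of_tendsto tc (((by fun_prop : Continuous
      fun P : Fin (k + 1) → ℝ => P ⬝ᵥ u).tendsto a).comp ta) (hp.mono fun δ hδ => hδ.2.1), w,
      le_antisymm (mem_closedBall_zero_iff.mp hw) ?_, ?_, ?_⟩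
    · have := le_of_tendsto_of_tendsto (hid.const_sub 1) tw.norm (hp.mono fun δ hδ => hδ.2.2.2.1)
      simpa using this
    · exact ge_of_tendsto ((Complex.continuous_re.tendsto _).comp tw)
        (hp.mono fun δ hδ => hδ.2.2.2.2.1)
    · refine tendsto_nhds_unique_of_eventuallyEq ((continuousOn_psi w hw).tendsto.comp
        (tendsto_nhdsWithin_iff.mpr ⟨tw, hp.mono fun δ hδ =>
          mem_closedBall_zero_iff.mpr hδ.2.2.1⟩)) (tendsto_zt ta tx ty)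
        (hp.mono fun δ hδ => hδ.2.2.2.2.2)

end Vale.Agent.P248
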