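import Mathlib

/-! Combinatorics of Dynkin systems with the interpolation property. -/

namespace Vale.Agent.P248

open Set

structure Dyn {Y : Type} (𝒮 : Set (Set Y)) : Prop where
  emp : ∅ ∈ 𝒮
  cpl : ∀ U ∈ 𝒮, Uᶜ ∈ 𝒮
  dif : ∀ T ∈ 𝒮, ∀ U ∈ 𝒮, T ⊆ U → U \ T ∈ 𝒮
  mid : ∀ U₁ ∈ 𝒮, ∀ U₂ ∈ 𝒮, ∀ U₃ ∈ 𝒮, ∀ U₄ ∈ 𝒮, U₁ ∩ U₂ ⊆ U₃ ∪ U₄ → U₃ ∩ U₄ ⊆ U₁ ∪ U₂ →
    ∃ T ∈ 𝒮, U₁ ∩ U₂ ⊆ T ∧ U₃ ∩ U₄ ⊆ T ∧ T ⊆ U₁ ∪ U₂ ∧ T ⊆ U₃ ∪ U₄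

def Atom {Y : Type} (𝒮 : Set (Set Y)) (S : Set Y) : Prop :=
  S ∈ 𝒮 ∧ S.Nonempty ∧ ∀ T ∈ 𝒮, T.Nonempty → T ⊆ S → T = S

variable {Y : Type} {𝒮 : Set (Set Y)}

lemma Dyn.uni (h : Dyn 𝒮) {T U : Set Y} (hT : T ∈ 𝒮) (hU : U ∈ 𝒮) (hd : Disjoint T U) :
    T ∪ U ∈ 𝒮 := by
  have := h.cpl _ (h.dif T hT _ (h.cpl U hU) hd.subset_compl_right)
  rwa [diff_eq, compl_inter, compl_compl, compl_compl, union_comm] at this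

lemma Dyn.ind [Finite Y] (h : Dyn 𝒮) {p : Set Y → Prop} (h0 : p ∅) (h1 : ∀ S, Atom 𝒮 S → p S)
    (h2 : ∀ T ∈ 𝒮, ∀ U ∈ 𝒮, Disjoint T U → p T → p U → p (T ∪ U)) : ∀ U ∈ 𝒮, p U := by
  intro U
  induction U using (wellFounded_lt (α := Set Y)).induction with
  | _ U ih =>
  intro hU
  rcases U.eq_empty_or_nonempty with rfl | hne
  · exact h0
  by_cases ha : ∀ T ∈ 𝒮, T.Nonempty → T ⊆ U → T = U
  · exact h1 U ⟨hU, hne, ha⟩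
  push Not at ha
  obtain ⟨T, hT, hTne, hTU, hTU'⟩ := ha
  have hd := h.dif T hT U hU hTU
  have := h2 T hT _ hd disjoint_sdiff_right (ih T (hTU.ssubset_of_ne hTU') hT)
    (ih _ (diff_ssubset_left_iff.mpr (by rwa [inter_eq_right.mpr hTU])) hd)
  rwa [union_diff_cancel hTU] at this

lemma Dyn.lemA (h : Dyn 𝒮) {S U U' : Set Y} (hS : Atom 𝒮 S) (hU : U ∈ 𝒮) (hU' : U' ∈ 𝒮)
    (hne : (U ∩ U').Nonempty) (hs : U ∩ U' ⊆ S) : S ⊆ U ∪ U' := by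
  obtain ⟨T, hT, h1, -, h3, h4⟩ := h.mid U hU U' hU' ∅ h.emp S hS.1 (by simpa using hs) (by simp)
  rw [← hS.2.2 T hT (hne.mono h1) (by simpa using h4)]
  exact h3

lemma Dyn.lemG' (h : Dyn 𝒮) {ρ₁ ρ₂ γ₁ γ₂ T : Set Y} (r1 : Atom 𝒮 ρ₁) (r2 : ρ₂ ∈ 𝒮)
    (g1 : Atom 𝒮 γ₁) (g2 : γ₂ ∈ 𝒮) (dr : Disjoint ρ₁ ρ₂) (dg : Disjoint γ₁ γ₂)
    (n11 : (ρ₁ ∩ γ₁).Nonempty) (n21 : (ρ₂ ∩ γ₁).Nonempty) (hT : T ∈ 𝒮) (h1 : ρ₁ ∩ γ₁ ⊆ T)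
    (h2 : T ⊆ ρ₁ ∪ ρ₂ ∪ γ₁) (h3 : T ⊆ ρ₂ ∪ (γ₁ ∪ γ₂)) (h4 : ρ₂ ⊆ T) : ρ₁ ⊆ γ₁ ∪ γ₂ := by
  have hT2 := h.dif _ r2 T hT h4
  by_cases hc : (T \ ρ₂ ∩ γ₂).Nonempty
  · have := h.lemA r1 hT2 g2 hc (by
      rintro y ⟨⟨y1, y2⟩, y3⟩
      rcases h2 y1 with (y4 | y4) | y4
      exacts [y4, absurd y4 y2, absurd y3 (disjoint_left.mp dg y4)])
    intro y hy
    rcases this hy with ⟨y1, y2⟩ | y1
    · exact (h3 y1).resolve_left y2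
    · exact Or.inr y1
  · exfalso
    have e := g1.2.2 _ hT2 (n11.mono fun y hy => ⟨h1 hy, disjoint_left.mp dr hy.1⟩) (by
      rintro y ⟨y1, y2⟩
      exact ((h3 y1).resolve_left y2).resolve_right fun y3 => hc ⟨y, ⟨y1, y2⟩, y3⟩)
    obtain ⟨y, y1, y2⟩ := n21
    rw [← e] at y2
    exact y2.2 y1

lemma Dyn.lemG (h : Dyn 𝒮) {ρ₁ ρ₂ γ₁ γ₂ : Set Y} (r1 : Atom 𝒮 ρ₁) (r2 : Atom 𝒮 ρ₂)
    (g1 : Atom 𝒮 γ₁) (g2 : Atom 𝒮 γ₂) (dr : Disjoint ρ₁ ρ₂) (dg : Disjoint γ₁ γ₂)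
    (n11 : (ρ₁ ∩ γ₁).Nonempty) (n21 : (ρ₂ ∩ γ₁).Nonempty) (n22 : (ρ₂ ∩ γ₂).Nonempty) :
    ρ₁ ⊆ γ₁ ∪ γ₂ ∨ γ₂ ⊆ ρ₂ ∪ ρ₁ := by
  have hg := h.uni g1.1 g2.1 dg
  obtain ⟨T, hT, h1, h2, h3, h4⟩ := h.mid _ (h.uni r1.1 r2.1 dr) _ g1.1 _ r2.1 _ hg
    (fun y hy => Or.inr (Or.inl hy.2)) (fun y hy => Or.inl (Or.inr hy.1))
  obtain ⟨S, hS, h5, -, h6, h7⟩ := h.mid _ g1.1 _ r2.1 ∅ h.emp T hT
    (fun y hy => Or.inr (h1 ⟨Or.inr hy.2, hy.1⟩)) (by simp)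
  rw [empty_union] at h7
  by_cases hc : S ⊆ γ₁
  · right
    have e := g1.2.2 S hS (n21.mono fun y hy => h5 ⟨hy.2, hy.1⟩) hc
    refine h.lemG' g2 g1.1 r2 r1.1 dg.symm dr.symm (by rwa [inter_comm]) (by rwa [inter_comm]) hT
      (fun y hy => h2 ⟨hy.2, Or.inr hy.1⟩) (fun y hy => ?_) (fun y hy => ?_) (e ▸ h7)
    · rcases h4 hy with y1 | y1 | y1
      exacts [Or.inr y1, Or.inl (Or.inr y1), Or.inl (Or.inl y1)]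
    · rcases h3 hy with (y1 | y1) | y1
      exacts [Or.inr (Or.inr y1), Or.inr (Or.inl y1), Or.inl y1]
  · left
    have hn : (S ∩ γ₂).Nonempty := by
      by_contra hn
      obtain ⟨y, y1, y2⟩ := not_subset.mp hc
      have := h.lemA r2 hS (h.cpl _ hg) ⟨y, y1, fun y3 => y3.elim y2 fun y4 => hn ⟨y, y1, y4⟩⟩
        fun z hz => (h6 hz.1).resolve_left fun z1 => hz.2 (Or.inl z1)
      obtain ⟨z, z1, z2⟩ := n22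
      exact hn ⟨z, (this z1).resolve_right fun z3 => z3 (Or.inr z2), z2⟩
    have := h.lemA r2 hS g2.1 hn fun z hz =>
      (h6 hz.1).resolve_left (disjoint_right.mp dg hz.2)
    exact h.lemG' r1 r2.1 g1 g2.1 dr dg n11 n21 hT (fun y hy => h1 ⟨Or.inl hy.1, hy.2⟩) h3 h4
      fun y hy => (this hy).elim (fun y1 => h7 y1) fun y1 => h2 ⟨hy, Or.inr y1⟩

lemma Dyn.part [Finite Y] (h : Dyn 𝒮) : ∀ U ∈ 𝒮, ∃ P : Set (Set Y),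
    (∀ ρ ∈ P, Atom 𝒮 ρ ∧ ρ ⊆ U) ∧ (∀ ρ ∈ P, ∀ ρ' ∈ P, ρ ≠ ρ' → Disjoint ρ ρ') ∧
      ∀ y ∈ U, ∃ ρ ∈ P, y ∈ ρ := by
  refine h.ind ⟨∅, by simp, by simp, by simp⟩
    (fun S hS => ⟨{S}, by simp [hS], by simp, by simp⟩) ?_
  rintro T - U - hd ⟨P, p1, p2, p3⟩ ⟨Q, q1, q2, q3⟩
  refine ⟨P ∪ Q, ?_, ?_, ?_⟩
  · rintro ρ (h | h)
    exacts [⟨(p1 ρ h).1, (p1 ρ h).2.trans subset_union_left⟩,
      ⟨(q1 ρ h).1, (q1 ρ h).2.trans subset_union_right⟩]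
  · rintro ρ (h | h) ρ' (h' | h') hne
    exacts [p2 ρ h ρ' h' hne, hd.mono (p1 ρ h).2 (q1 ρ' h').2,
      hd.symm.mono (q1 ρ h).2 (p1 ρ' h').2, q2 ρ h ρ' h' hne]
  · rintro y (hy | hy)
    · obtain ⟨ρ, h1, h2⟩ := p3 y hy; exact ⟨ρ, Or.inl h1, h2⟩
    · obtain ⟨ρ, h1, h2⟩ := q3 y hy; exact ⟨ρ, Or.inr h1, h2⟩

lemma Atom.eq_of_sub {S T U : Set Y} (hS : Atom 𝒮 S) (hT : Atom 𝒮 T) (h : T ⊆ S ∪ U)
    (hd : Disjoint T U) : T = S :=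
  hS.2.2 T hT.1 hT.2.1 fun _ hy => (h hy).resolve_right (disjoint_left.mp hd hy)

lemma Atom.compl_of {S T : Set Y} (hT : Atom 𝒮 T) (hd : Disjoint S T) (hc : ∀ y, y ∈ S ∪ T) :
    Atom 𝒮 Sᶜ := by
  have : Sᶜ = T := Subset.antisymm (fun y hy => (hc y).resolve_left hy) hd.symm.subset_compl_right
  rwa [this]

theorem Dyn.tri [Finite Y] [Nonempty Y] (h : Dyn 𝒮) : Atom 𝒮 univ ∨
    (∃ Z : Set Y, Z.Nonempty ∧ Zᶜ.Nonempty ∧ ∀ S, Atom 𝒮 S → S ⊆ Z ∨ S ⊆ Zᶜ) ∨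
    ∃ S, Atom 𝒮 S ∧ Atom 𝒮 Sᶜ := by
  by_contra hc
  push Not at hc
  obtain ⟨c1, c2, c3⟩ := hc
  obtain ⟨P, p1, p2, p3⟩ := h.part univ (by simpa using h.cpl _ h.emp)
  obtain ⟨ρ₀, hρ₀, -⟩ := p3 (Classical.arbitrary Y) (mem_univ _)
  obtain ⟨γ, hγ, hmax⟩ := Set.exists_max_image {S | Atom 𝒮 S}
    (fun S => {ρ ∈ P | (ρ ∩ S).Nonempty}.ncard) (toFinite _) ⟨ρ₀, (p1 _ hρ₀).1⟩
  have hall : ∀ ρ ∈ P, (ρ ∩ γ).Nonempty := by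
    by_contra hn
    push Not at hn
    obtain ⟨ρ, hρ, hρ'⟩ := hn
    obtain ⟨γ', hγ', d1, d2⟩ := c2 {y | ∃ ρ ∈ P, (ρ ∩ γ).Nonempty ∧ y ∈ ρ}
      (by
        obtain ⟨y, hy⟩ := hγ.2.1
        obtain ⟨ρ, h1, h2⟩ := p3 y (mem_univ _)
        exact ⟨y, ρ, h1, ⟨y, h2, hy⟩, h2⟩)
      (by
        obtain ⟨y, hy⟩ := (p1 ρ hρ).1.2.1
        refine ⟨y, ?_⟩
        rintro ⟨ρ', h1, h2, h3⟩
        have : ρ ≠ ρ' := by rintro rfl; exact h2.ne_empty hρ'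
        exact disjoint_left.mp (p2 ρ hρ ρ' h1 this) hy h3)
    obtain ⟨y, y1, y2⟩ := not_subset.mp d1
    obtain ⟨z, z1, z2⟩ := not_subset.mp d2
    obtain ⟨ρi, i1, i2, i3⟩ := not_not.mp z2
    obtain ⟨ρj, j1, j3⟩ := p3 y (mem_univ _)
    have j2 : ¬(ρj ∩ γ).Nonempty := fun h => y2 ⟨ρj, j1, h, j3⟩
    obtain ⟨ρk, k1, k2, k3⟩ : ∃ ρk ∈ P, (ρk ∩ γ).Nonempty ∧ ¬(ρk ∩ γ').Nonempty := by
      by_contra hn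
      push Not at hn
      refine absurd (hmax γ' hγ') (not_le.mpr (ncard_lt_ncard ⟨fun ρ h => ⟨h.1, hn ρ h.1 h.2⟩,
        fun h => j2 (h ⟨j1, y, j3, y1⟩).2⟩))
    have dk : Disjoint ρk γ' := disjoint_iff_inter_eq_empty.mpr (not_nonempty_iff_eq_empty.mp k3)
    have dj : Disjoint ρj γ := disjoint_iff_inter_eq_empty.mpr (not_nonempty_iff_eq_empty.mp j2)
    have ik : ρk ≠ ρi := by rintro rfl; exact k3 ⟨z, i3, z1⟩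
    have ij : ρj ≠ ρi := by rintro rfl; exact j2 i2
    have jk : ρj ≠ ρk := by rintro rfl; exact j2 k2
    have kγ : ρk ≠ γ := by
      rintro rfl
      exact i2.ne_empty (disjoint_iff_inter_eq_empty.mp (p2 _ k1 _ i1 ik).symm)
    by_cases hd : Disjoint γ γ'
    · rcases h.lemG (p1 _ k1).1 (p1 _ i1).1 hγ hγ' (p2 _ k1 _ i1 ik) hd k2 i2 ⟨z, i3, z1⟩ with
        e | e
      · exact kγ (Atom.eq_of_sub hγ (p1 _ k1).1 e dk)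
      · exact (e y1).elim (disjoint_left.mp (p2 _ j1 _ i1 ij) j3)
          (disjoint_left.mp (p2 _ j1 _ k1 jk) j3)
    · rcases h.lemG (p1 _ k1).1 hγ' hγ (p1 _ j1).1 dk dj.symm k2
        (by rw [inter_comm]; exact not_disjoint_iff_nonempty_inter.mp hd) ⟨y, y1, j3⟩ with e | e
      · exact kγ (Atom.eq_of_sub hγ (p1 _ k1).1 e (p2 _ j1 _ k1 jk).symm)
      · have := Atom.eq_of_sub hγ' (p1 _ j1).1 e (p2 _ j1 _ k1 jk)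
        rw [← this] at z1
        exact disjoint_left.mp (p2 _ j1 _ i1 ij) z1 i3
  have hne : γᶜ.Nonempty := by
    rw [nonempty_compl]; rintro rfl; exact c1 hγ
  obtain ⟨Q, q1, -, q3⟩ := h.part _ (h.cpl _ hγ.1)
  obtain ⟨γ₂, g1, -⟩ := q3 _ hne.some_mem
  have hγ₂ := (q1 _ g1).1
  have dg : Disjoint γ γ₂ := (subset_compl_iff_disjoint_left.mp (q1 _ g1).2)
  have hnP : ∀ ρ ∈ P, γ₂ ≠ ρ := by
    rintro ρ hρ rfl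
    exact (hall _ hρ).ne_empty (disjoint_iff_inter_eq_empty.mp dg.symm)
  obtain ⟨y, hy⟩ : ∃ y, y ∉ γ ∪ γ₂ := by
    by_contra hn
    push Not at hn
    exact c3 γ hγ (Atom.compl_of hγ₂ dg hn)
  obtain ⟨ρc, c4, c5⟩ := p3 y (mem_univ _)
  obtain ⟨z, z1, z2⟩ : ∃ z ∈ γ₂, z ∉ ρc :=
    not_subset.mp fun hs => hnP _ c4 ((p1 _ c4).1.2.2 _ hγ₂.1 hγ₂.2.1 hs)
  obtain ⟨ρa, a1, a2⟩ := p3 z (mem_univ _)
  obtain ⟨x, x1, x2⟩ : ∃ x ∈ γ₂, x ∉ ρa :=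
    not_subset.mp fun hs => hnP _ a1 ((p1 _ a1).1.2.2 _ hγ₂.1 hγ₂.2.1 hs)
  have ca : ρc ≠ ρa := by rintro rfl; exact z2 a2
  have e := (h.lemG (p1 _ c4).1 (p1 _ a1).1 hγ hγ₂ (p2 _ c4 _ a1 ca) dg (hall _ c4) (hall _ a1)
    ⟨z, a2, z1⟩).resolve_left fun e => hy (e c5)
  obtain ⟨w, hw⟩ : ∃ w, w ∉ ρc ∪ ρa := by
    by_contra hn
    push Not at hn
    exact c3 ρc (p1 _ c4).1 (Atom.compl_of (p1 _ a1).1 (p2 _ c4 _ a1 ca) hn)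
  obtain ⟨ρd, d1, d2⟩ := p3 w (mem_univ _)
  have da : ρd ≠ ρa := by rintro rfl; exact hw (Or.inr d2)
  have dc : ρd ≠ ρc := by rintro rfl; exact hw (Or.inl d2)
  rcases h.lemG (p1 _ d1).1 (p1 _ a1).1 hγ hγ₂ (p2 _ d1 _ a1 da) dg (hall _ d1) (hall _ a1)
    ⟨z, a2, z1⟩ with f | f
  · have := Atom.eq_of_sub hγ (p1 _ d1).1 f
      ((disjoint_union_right.mpr ⟨p2 _ d1 _ a1 da, p2 _ d1 _ c4 dc⟩).mono_right e)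
    exact (hall _ a1).ne_empty (this ▸ disjoint_iff_inter_eq_empty.mp (p2 _ d1 _ a1 da).symm)
  · exact disjoint_left.mp (p2 _ d1 _ c4 dc) ((f x1).resolve_left x2) ((e x1).resolve_left x2)

lemma Dyn.edge' (h : Dyn 𝒮) {S U T : Set Y} (hS : Atom 𝒮 S) (hR : Atom 𝒮 Sᶜ) (hU : U ∈ 𝒮)
    (hn : ¬Atom 𝒮 U) (hT : T ∈ 𝒮) (h1 : U ∩ S ⊆ T) (h2 : T ⊆ U ∪ S) : T = U ∨ T = S := by
  rcases U.eq_empty_or_nonempty with rfl | hne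
  · rcases T.eq_empty_or_nonempty with rfl | hne
    exacts [Or.inl rfl, Or.inr (hS.2.2 T hT hne (by simpa using h2))]
  have hUS : (U ∩ S).Nonempty := by
    by_contra hc
    refine hn ?_
    rwa [hR.2.2 U hU hne fun y hy hy' => hc ⟨y, hy, hy'⟩]
  have key : ∀ U₁ ∈ 𝒮, U₁ ⊆ U → ¬U₁ ⊆ T → ∀ y ∈ T, y ∉ S → y ∈ U₁ := by
    intro U₁ m1 m2 m3 y y1 y2
    obtain ⟨z, z1, z2⟩ := not_subset.mp m3
    exact (h.lemA hR (h.cpl T hT) m1 ⟨z, z2, z1⟩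
      (fun x hx hx' => hx.1 (h1 ⟨m2 hx.2, hx'⟩)) y2).resolve_left fun h => h y1
  have key2 : ∀ U₁ ∈ 𝒮, ∀ U₂ ∈ 𝒮, U₁.Nonempty → U₂.Nonempty → Disjoint U₁ U₂ → U₁ ⊆ U →
      ¬U₁ ⊆ T → U₂ ⊆ T → T = S := by
    intro U₁ m1 U₂ m2 n1 n2 hd s1 s2 s3
    have e2 : U₂ = S := hS.2.2 _ m2 n2 fun y hy => by
      by_contra hy'
      exact disjoint_left.mp hd (key U₁ m1 s1 s2 y (s3 hy) hy') hy
    subst e2
    have e1 := hR.2.2 _ m1 n1 hd.subset_compl_right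
    rcases (T \ U₂).eq_empty_or_nonempty with e | e
    · exact Subset.antisymm (diff_eq_empty.mp e) s3
    · have := hR.2.2 _ (h.dif _ m2 T hT s3) e fun y hy => hy.2
      exact absurd (by rw [e1, ← this]; exact diff_subset) s2
  have hna : ¬∀ T ∈ 𝒮, T.Nonempty → T ⊆ U → T = U := fun h => hn ⟨hU, hne, h⟩
  push Not at hna
  obtain ⟨U₁, m1, n1, s1, e1⟩ := hna
  have m2 := h.dif _ m1 U hU s1
  have n2 : (U \ U₁).Nonempty := diff_nonempty.mpr fun h => e1 (Subset.antisymm s1 h)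
  by_cases t1 : U₁ ⊆ T <;> by_cases t2 : U \ U₁ ⊆ T
  · have hUT : U ⊆ T := fun y hy => by
      by_cases hy' : y ∈ U₁
      exacts [t1 hy', t2 ⟨hy, hy'⟩]
    rcases (T \ U).eq_empty_or_nonempty with e | e
    · exact Or.inl (Subset.antisymm (diff_eq_empty.mp e) hUT)
    · have := hS.2.2 _ (h.dif _ hU T hT hUT) e fun y hy => (h2 hy.1).resolve_left hy.2
      obtain ⟨y, y1, y2⟩ := hUS
      rw [← this] at y2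
      exact absurd y1 y2.2
  · exact Or.inr (key2 _ m2 _ m1 n2 n1 disjoint_sdiff_left diff_subset t2 t1)
  · exact Or.inr (key2 _ m1 _ m2 n1 n2 disjoint_sdiff_right s1 t1 t2)
  · refine Or.inr (hS.2.2 T hT (hUS.mono h1) fun y hy => ?_)
    by_contra hy'
    exact (key _ m2 diff_subset t2 y hy hy').2 (key _ m1 s1 t1 y hy hy')

theorem Dyn.edge (h : Dyn 𝒮) {S U T : Set Y} (hS : Atom 𝒮 S) (hR : Atom 𝒮 Sᶜ) (hU : U ∈ 𝒮)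
    (hn : ¬(Atom 𝒮 U ∧ Atom 𝒮 Uᶜ)) (hT : T ∈ 𝒮) (h1 : U ∩ S ⊆ T) (h2 : T ⊆ U ∪ S) :
    T = U ∨ T = S := by
  rcases not_and_or.mp hn with hn | hn
  · exact h.edge' hS hR hU hn hT h1 h2
  · have := h.edge' hR (by rwa [compl_compl]) (h.cpl U hU) hn (h.cpl T hT)
      (by rw [← compl_union]; exact compl_subset_compl.mpr h2)
      (by rw [← compl_inter]; exact compl_subset_compl.mpr h1)
    simpa using this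

lemma Dyn.inter_mem [Finite Y] (h : Dyn 𝒮) {Z : Set Y} (hZ : ∀ S, Atom 𝒮 S → S ⊆ Z ∨ S ⊆ Zᶜ) :
    ∀ U ∈ 𝒮, U ∩ Z ∈ 𝒮 := by
  refine h.ind (by simpa using h.emp) (fun S hS => ?_) fun T _ U _ hd h1 h2 => ?_
  · rcases hZ S hS with e | e
    · rw [inter_eq_left.mpr e]; exact hS.1
    · rw [disjoint_iff_inter_eq_empty.mp (subset_compl_iff_disjoint_right.mp e)]; exact h.emp
  · rw [union_inter_distrib_right]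
    exact h.uni h1 h2 (hd.mono inter_subset_left inter_subset_left)

end Vale.Agent.P248
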