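import Mathlib

/-! Hanner polytopes. -/

namespace Vale.Agent.P248

/-- Hanner polytopes: segments, closed under products and free sums. -/
inductive IsHanner : (n : ℕ) → Set (Fin n → ℝ) → Prop
  | segment (a : ℝ) (ha : 0 < a) : IsHanner 1 {x | x 0 ∈ Set.Icc (-a) a}
  | prod {k l : ℕ} {H₁ : Set (Fin k → ℝ)} {H₂ : Set (Fin l → ℝ)} :
      IsHanner k H₁ → IsHanner l H₂ →
      IsHanner (k + l) {x | ∃ u ∈ H₁, ∃ v ∈ H₂, x = Fin.append u v}
  | freeSum {k l : ℕ} {H₁ : Set (Fin k → ℝ)} {H₂ : Set (Fin l → ℝ)} :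
      IsHanner k H₁ → IsHanner l H₂ →
      IsHanner (k + l) (convexHull ℝ
        ({x | ∃ u ∈ H₁, x = Fin.append u (0 : Fin l → ℝ)} ∪
          {x | ∃ v ∈ H₂, x = Fin.append (0 : Fin k → ℝ) v}))

end Vale.Agent.P248
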