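import Vale.Agent.P248.Dynkin
import Vale.Agent.P248.HannerDef

/-! The decomposition theorem. -/

namespace Vale.Agent.P248

open Set Submodule
open scoped Matrix Pointwise

variable {N : ℕ}

structure Half (V A : Set (Fin N → ℝ)) : Prop where
  fin : V.Finite
  ne : V.Nonempty
  symm : ∀ v ∈ V, -v ∈ V
  pm : ∀ a ∈ A, ∀ v ∈ V, a ⬝ᵥ v = 1 ∨ a ⬝ᵥ v = -1
  nd : ∀ x ∈ span ℝ V, (∀ a ∈ A, a ⬝ᵥ x = 0) → x = 0
  cl : ∀ x ∈ span ℝ V, (∀ a ∈ A, a ⬝ᵥ x = 1 ∨ a ⬝ᵥ x = -1) → x ∈ V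
  mid : ∀ v ∈ V, ∀ w ∈ V, ∀ U ⊆ V, U.Nonempty →
    (∀ a ∈ A, (∀ u ∈ U, a ⬝ᵥ u = 1) → a ⬝ᵥ v = 1 ∨ a ⬝ᵥ w = 1) →
    ∃ x ∈ V, (∀ a ∈ A, a ⬝ᵥ v = 1 → a ⬝ᵥ w = 1 → a ⬝ᵥ x = 1) ∧
      ∀ a ∈ A, (∀ u ∈ U, a ⬝ᵥ u = 1) → a ⬝ᵥ x = 1

def Sys (V A : Set (Fin N → ℝ)) : Prop := Half V A ∧ Half A V

def sg (A : Set (Fin N → ℝ)) (v₀ u : Fin N → ℝ) : Set {a // a ∈ A ∧ a ⬝ᵥ v₀ = 1} :=
  {a | a.1 ⬝ᵥ u = -1}

variable {V A : Set (Fin N → ℝ)}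

lemma Sys.base (h : Sys V A) {v₀ : Fin N → ℝ} (h₀ : v₀ ∈ V) {p : (Fin N → ℝ) → Prop}
    (hp : ∀ a ∈ A, p (-a) → p a) (h1 : ∀ a ∈ A, a ⬝ᵥ v₀ = 1 → p a) : ∀ a ∈ A, p a := by
  intro a ha
  rcases h.1.pm a ha v₀ h₀ with e | e
  · exact h1 a ha e
  · exact hp a ha (h1 _ (h.2.symm a ha) (by rw [neg_dotProduct, e, neg_neg]))

lemma Sys.inj (h : Sys V A) {v₀ u u' : Fin N → ℝ} (h₀ : v₀ ∈ V) (hu : u ∈ V) (hu' : u' ∈ V)
    (e : sg A v₀ u = sg A v₀ u') : u = u' := by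
  rw [← sub_eq_zero]
  refine h.1.nd _ (sub_mem (subset_span hu) (subset_span hu')) (h.base h₀ (fun a _ h => ?_)
    fun a ha h1 => ?_)
  · rwa [neg_dotProduct, neg_eq_zero] at h
  · have : a ⬝ᵥ u = -1 ↔ a ⬝ᵥ u' = -1 := Set.ext_iff.mp e ⟨a, ha, h1⟩
    rw [dotProduct_sub]
    rcases h.1.pm a ha u hu with e1 | e1 <;> rcases h.1.pm a ha u' hu' with e2 | e2 <;>
      rw [e1, e2] at this ⊢ <;> first | (norm_num; done) | norm_num at this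

lemma Sys.sg_self (v₀ : Fin N → ℝ) : sg A v₀ v₀ = ∅ := by
  ext a
  simp only [sg, mem_setOf_eq, a.2.2, mem_empty_iff_false]
  norm_num

lemma Sys.sg_neg (h : Sys V A) (v₀ : Fin N → ℝ) {u : Fin N → ℝ} (hu : u ∈ V) :
    sg A v₀ (-u) = (sg A v₀ u)ᶜ := by
  ext a
  simp only [sg, mem_setOf_eq, mem_compl_iff, dotProduct_neg]
  rcases h.1.pm a a.2.1 u hu with e | e <;> rw [e] <;> norm_num

lemma Sys.not_mem (h : Sys V A) {v₀ u : Fin N → ℝ} (hu : u ∈ V) {a : {a // a ∈ A ∧ a ⬝ᵥ v₀ = 1}} :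
    a ∉ sg A v₀ u ↔ a.1 ⬝ᵥ u = 1 := by
  simp only [sg, mem_setOf_eq]
  rcases h.1.pm a a.2.1 u hu with e | e <;> rw [e] <;> norm_num

lemma Sys.between (h : Sys V A) {v₀ u w x : Fin N → ℝ} (hu : u ∈ V) (hw : w ∈ V) (hx : x ∈ V)
    (hb : ∀ a ∈ A, a ⬝ᵥ u = 1 → a ⬝ᵥ w = 1 → a ⬝ᵥ x = 1) :
    sg A v₀ u ∩ sg A v₀ w ⊆ sg A v₀ x ∧ sg A v₀ x ⊆ sg A v₀ u ∪ sg A v₀ w := by
  constructor
  · rintro a ⟨h1, h2⟩
    have := hb _ (h.2.symm a a.2.1) (by rw [neg_dotProduct, h1, neg_neg])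
      (by rw [neg_dotProduct, h2, neg_neg])
    rw [neg_dotProduct] at this
    exact neg_eq_iff_eq_neg.mp this
  · intro a ha
    by_contra hc
    rw [mem_union, not_or, h.not_mem hu, h.not_mem hw] at hc
    exact (h.not_mem hx).mpr (hb a a.2.1 hc.1 hc.2) ha

lemma Sys.dyn (h : Sys V A) {v₀ : Fin N → ℝ} (h₀ : v₀ ∈ V) : Dyn (sg A v₀ '' V) where
  emp := ⟨v₀, h₀, Sys.sg_self v₀⟩
  cpl := by
    rintro _ ⟨u, hu, rfl⟩
    exact ⟨-u, h.1.symm u hu, h.sg_neg v₀ hu⟩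
  dif := by
    rintro _ ⟨t, ht, rfl⟩ _ ⟨u, hu, rfl⟩ hs
    have key : ∀ a ∈ A, a ⬝ᵥ v₀ = 1 → (a ⬝ᵥ u = 1 ∧ a ⬝ᵥ t = 1) ∨ (a ⬝ᵥ u = -1 ∧ a ⬝ᵥ t = 1) ∨
        (a ⬝ᵥ u = -1 ∧ a ⬝ᵥ t = -1) := by
      intro a ha h1
      rcases h.1.pm a ha t ht with e | e
      · rcases h.1.pm a ha u hu with e' | e'
        exacts [Or.inl ⟨e', e⟩, Or.inr (Or.inl ⟨e', e⟩)]
      · exact Or.inr (Or.inr ⟨hs (show (⟨a, ha, h1⟩ : {a // a ∈ A ∧ a ⬝ᵥ v₀ = 1}) ∈ sg A v₀ t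
          from e), e⟩)
    refine ⟨v₀ + u - t, h.1.cl _ (sub_mem (add_mem (subset_span h₀) (subset_span hu))
      (subset_span ht)) (h.base h₀ (fun a _ h => ?_) fun a ha h1 => ?_), ?_⟩
    · rw [neg_dotProduct] at h
      rcases h with h | h
      exacts [Or.inr (by linarith), Or.inl (by linarith)]
    · rw [dotProduct_sub, dotProduct_add, h1]
      rcases key a ha h1 with e | e | e <;> rw [e.1, e.2] <;> norm_num
    · ext a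
      simp only [sg, mem_setOf_eq, mem_diff, dotProduct_sub, dotProduct_add, a.2.2]
      rcases key a a.2.1 a.2.2 with e | e | e <;> rw [e.1, e.2] <;> norm_num
  mid := by
    rintro _ ⟨u₁, m1, rfl⟩ _ ⟨u₂, m2, rfl⟩ _ ⟨u₃, m3, rfl⟩ _ ⟨u₄, m4, rfl⟩ s1 s2
    obtain ⟨x, hx, h1, h2⟩ := h.1.mid u₁ m1 u₂ m2 {u₃, u₄} (by simp [insert_subset_iff, m3, m4])
      (by simp) (by
        intro a ha hU
        have e3 := hU u₃ (by simp)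
        have e4 := hU u₄ (by simp)
        by_contra hc
        rw [not_or] at hc
        have e1 := (h.1.pm a ha u₁ m1).resolve_left hc.1
        have e2 := (h.1.pm a ha u₂ m2).resolve_left hc.2
        rcases h.1.pm a ha v₀ h₀ with e | e
        · rcases s1 (show (⟨a, ha, e⟩ : {a // a ∈ A ∧ a ⬝ᵥ v₀ = 1}) ∈ _ from ⟨e1, e2⟩) with f | f
          · exact (h.not_mem m3).mpr e3 f
          · exact (h.not_mem m4).mpr e4 f
        · have hn : -a ∈ A ∧ -a ⬝ᵥ v₀ = 1 := ⟨h.2.symm a ha, by rw [neg_dotProduct, e, neg_neg]⟩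
          rcases s2 (show (⟨-a, hn⟩ : {a // a ∈ A ∧ a ⬝ᵥ v₀ = 1}) ∈ _ from
            ⟨by simp [sg, e3], by simp [sg, e4]⟩) with f | f
          · exact (h.not_mem m1).mpr (by simp [e1]) f
          · exact (h.not_mem m2).mpr (by simp [e2]) f)
    have b1 := h.between (v₀ := v₀) m1 m2 hx h1
    have b2 := h.between (v₀ := v₀) m3 m4 hx fun a ha e3 e4 => h2 a ha (by simp [e3, e4])
    exact ⟨_, ⟨x, hx, rfl⟩, b1.1, b2.1, b1.2, b2.2⟩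

structure Spl (V A A₁ A₂ : Set (Fin N → ℝ)) : Prop where
  un : ∀ a, a ∈ A ↔ a ∈ A₁ ∨ a ∈ A₂
  s1 : ∀ a ∈ A₁, -a ∈ A₁
  s2 : ∀ a ∈ A₂, -a ∈ A₂
  n1 : A₁.Nonempty
  n2 : A₂.Nonempty
  pr : ∀ u ∈ V, ∃ x ∈ span ℝ V, (∀ a ∈ A₁, a ⬝ᵥ x = a ⬝ᵥ u) ∧ ∀ a ∈ A₂, a ⬝ᵥ x = 0

variable {A₁ A₂ : Set (Fin N → ℝ)}

lemma Spl.swap (s : Spl V A A₁ A₂) : Spl V A A₂ A₁ where
  un := fun a => (s.un a).trans or_comm
  s1 := s.s2
  s2 := s.s1
  n1 := s.n2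
  n2 := s.n1
  pr := fun u hu => by
    obtain ⟨x, h1, h2, h3⟩ := s.pr u hu
    exact ⟨u - x, sub_mem (subset_span hu) h1, fun a ha => by simp [h3 a ha],
      fun a ha => by simp [h2 a ha]⟩

lemma Sys.spl (h : Sys V A) {v₀ : Fin N → ℝ} (h₀ : v₀ ∈ V) {Z : Set {a // a ∈ A ∧ a ⬝ᵥ v₀ = 1}}
    (n1 : Z.Nonempty) (n2 : Zᶜ.Nonempty)
    (hZ : ∀ S, Atom (sg A v₀ '' V) S → S ⊆ Z ∨ S ⊆ Zᶜ) : ∃ A₁ A₂, Spl V A A₁ A₂ := by
  haveI : Finite {a // a ∈ A ∧ a ⬝ᵥ v₀ = 1} := (h.2.fin.subset fun _ h => h.1 :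
    Set.Finite {a | a ∈ A ∧ a ⬝ᵥ v₀ = 1})
  have hi := (h.dyn h₀).inter_mem hZ
  obtain ⟨z, hz, ez⟩ := hi _ ((h.dyn h₀).cpl _ (h.dyn h₀).emp)
  rw [compl_empty, univ_inter] at ez
  subst ez
  refine ⟨{a | a ∈ A ∧ a ⬝ᵥ z = -(a ⬝ᵥ v₀)}, {a | a ∈ A ∧ a ⬝ᵥ z = a ⬝ᵥ v₀}, fun a => ⟨fun ha => ?_,
    fun ha => ha.elim (·.1) (·.1)⟩, fun a ha => ⟨h.2.symm a ha.1, by simp [ha.2]⟩,
    fun a ha => ⟨h.2.symm a ha.1, by simp [ha.2]⟩, ?_, ?_, fun u hu => ?_⟩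
  · rcases h.1.pm a ha z hz with e | e <;> rcases h.1.pm a ha v₀ h₀ with e' | e' <;>
      simp [ha, e, e']
  · obtain ⟨a, ha⟩ := n1
    exact ⟨a, a.2.1, by rw [a.2.2]; exact ha⟩
  · obtain ⟨a, ha⟩ := n2
    exact ⟨a, a.2.1, by rw [a.2.2]; exact (h.not_mem hz).mp ha⟩
  · obtain ⟨u', hu', e⟩ := hi _ ⟨u, hu, rfl⟩
    have key : ∀ a ∈ A, (a ⬝ᵥ z = -(a ⬝ᵥ v₀) → a ⬝ᵥ u' = a ⬝ᵥ u) ∧
        (a ⬝ᵥ z = a ⬝ᵥ v₀ → a ⬝ᵥ u' = a ⬝ᵥ v₀) := by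
      refine h.base h₀ (fun a _ h => ?_) fun a ha h1 => ?_
      · simpa only [neg_dotProduct, neg_inj] using h
      · have : a ⬝ᵥ u' = -1 ↔ a ⬝ᵥ u = -1 ∧ a ⬝ᵥ z = -1 := Set.ext_iff.mp e ⟨a, ha, h1⟩
        rw [h1]
        rcases h.1.pm a ha u hu with e1 | e1 <;> rcases h.1.pm a ha u' hu' with e2 | e2 <;>
          rcases h.1.pm a ha z hz with e3 | e3 <;> rw [e1, e2, e3] at this ⊢ <;>
          first | (norm_num; done) | norm_num at this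
    refine ⟨u' - (1 / 2 : ℝ) • (v₀ + z), sub_mem (subset_span hu')
      (smul_mem _ _ (add_mem (subset_span h₀) (subset_span hz))), fun a ha => ?_, fun a ha => ?_⟩
    · rw [dotProduct_sub, dotProduct_smul, dotProduct_add, ha.2, (key a ha.1).1 ha.2]; simp
    · rw [dotProduct_sub, dotProduct_smul, dotProduct_add, ha.2, (key a ha.1).2 ha.2, smul_eq_mul]
      ring

def Vp (V A₁ A₂ : Set (Fin N → ℝ)) : Set (Fin N → ℝ) :=
  {x | x ∈ span ℝ V ∧ (∀ a ∈ A₁, a ⬝ᵥ x = 1 ∨ a ⬝ᵥ x = -1) ∧ ∀ a ∈ A₂, a ⬝ᵥ x = 0}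

lemma span_dot {S : Set (Fin N → ℝ)} {a x : Fin N → ℝ} (h : ∀ y ∈ S, a ⬝ᵥ y = 0)
    (hx : x ∈ span ℝ S) : a ⬝ᵥ x = 0 := by
  induction hx using span_induction with
  | mem y hy => exact h y hy
  | zero => simp
  | add y z _ _ h1 h2 => simp [h1, h2]
  | smul c y _ h1 => simp [h1]

lemma Spl.dec (h : Sys V A) (s : Spl V A A₁ A₂) {u : Fin N → ℝ} (hu : u ∈ V) :
    ∃ x ∈ Vp V A₁ A₂, ∃ y ∈ Vp V A₂ A₁, u = x + y := by
  obtain ⟨x, h1, h2, h3⟩ := s.pr u hu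
  refine ⟨x, ⟨h1, fun a ha => ?_, h3⟩, u - x, ⟨sub_mem (subset_span hu) h1, fun a ha => ?_,
    fun a ha => by simp [h2 a ha]⟩, by simp⟩
  · rw [h2 a ha]; exact h.1.pm a ((s.un a).mpr (Or.inl ha)) u hu
  · rw [dotProduct_sub, h3 a ha, sub_zero]; exact h.1.pm a ((s.un a).mpr (Or.inr ha)) u hu

lemma Spl.add (h : Sys V A) (s : Spl V A A₁ A₂) {x y : Fin N → ℝ} (hx : x ∈ Vp V A₁ A₂)
    (hy : y ∈ Vp V A₂ A₁) : x + y ∈ V := by
  refine h.1.cl _ (add_mem hx.1 hy.1) fun a ha => ?_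
  rw [dotProduct_add]
  rcases (s.un a).mp ha with e | e
  · rw [hy.2.2 a e, add_zero]; exact hx.2.1 a e
  · rw [hx.2.2 a e, zero_add]; exact hy.2.1 a e

lemma Vp_neg {x : Fin N → ℝ} (hx : x ∈ Vp V A₁ A₂) : -x ∈ Vp V A₁ A₂ :=
  ⟨neg_mem hx.1, fun a ha => by
    rcases hx.2.1 a ha with e | e <;> simp [e], fun a ha => by simp [hx.2.2 a ha]⟩

lemma Vp_span {x : Fin N → ℝ} (hx : x ∈ span ℝ (Vp V A₁ A₂)) :
    x ∈ span ℝ V ∧ ∀ a ∈ A₂, a ⬝ᵥ x = 0 :=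
  ⟨span_le.mpr (fun _ h => h.1) hx, fun a ha => span_dot (fun _ h => h.2.2 a ha) hx⟩

lemma Spl.dot_eq (h : Sys V A) (s : Spl V A A₁ A₂) {b u : Fin N → ℝ} (hb : b ∈ span ℝ A₁)
    (hu : u ∈ V) : ∃ x ∈ Vp V A₁ A₂, u ⬝ᵥ b = x ⬝ᵥ b := by
  obtain ⟨x, hx, y, hy, rfl⟩ := s.dec h hu
  refine ⟨x, hx, ?_⟩
  rw [add_dotProduct, span_dot (a := y)
    (fun a ha => by rw [dotProduct_comm]; exact hy.2.2 a ha) hb, add_zero]

lemma Spl.sys (h : Sys V A) (s : Spl V A A₁ A₂) : Sys (Vp V A₁ A₂) A₁ ∧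
    (Vp V A₁ A₂).ncard + A₁.ncard < V.ncard + A.ncard := by
  obtain ⟨u₀, hu₀⟩ := h.1.ne
  obtain ⟨x₀, hx₀, y₀, hy₀, -⟩ := s.dec h hu₀
  have hA1 : A₁ ⊆ A := fun a ha => (s.un a).mpr (Or.inl ha)
  have hdis : ∀ a ∈ A₁, a ∉ A₂ := fun a h1 h2 => by
    have := hx₀.2.1 a h1
    rw [hx₀.2.2 a h2] at this
    norm_num at this
  have hinj : InjOn (· + y₀) (Vp V A₁ A₂) := fun _ _ _ _ e => add_right_cancel e
  have hmap : MapsTo (· + y₀) (Vp V A₁ A₂) V := fun x hx => s.add h hx hy₀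
  have lift : ∀ a ∈ A₁, ∀ x, a ⬝ᵥ (x + y₀) = a ⬝ᵥ x := fun a ha x => by
    rw [dotProduct_add, hy₀.2.2 a ha, add_zero]
  refine ⟨⟨⟨h.1.fin.of_injOn hmap hinj, ⟨x₀, hx₀⟩, fun x hx => Vp_neg hx,
    fun a ha x hx => hx.2.1 a ha, fun x hx h1 => ?_, fun x hx h1 => ⟨(Vp_span hx).1, h1,
    (Vp_span hx).2⟩, ?_⟩, ⟨h.2.fin.subset hA1, s.n1, s.s1, fun x hx a ha => ?_, fun b hb h1 => ?_,
    fun b hb h1 => ?_, ?_⟩⟩, ?_⟩
  · exact h.1.nd x (Vp_span hx).1 fun a ha => ((s.un a).mp ha).elim (h1 a) ((Vp_span hx).2 a)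
  · intro v hv w hw U hU hne hyp
    obtain ⟨q, hq, h1, h2⟩ := h.1.mid _ (hmap hv) _ (hmap hw) ((· + y₀) '' U)
      (image_subset_iff.mpr fun u hu => hmap (hU hu)) (hne.image _) (by
        intro a ha h1
        rcases (s.un a).mp ha with e | e
        · rw [lift a e, lift a e]
          exact hyp a e fun u hu => by rw [← lift a e]; exact h1 _ ⟨u, hu, rfl⟩
        · obtain ⟨u, hu⟩ := hne
          have := h1 _ ⟨u, hu, rfl⟩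
          simp only [dotProduct_add, (hU hu).2.2 a e] at this
          left
          simp only [dotProduct_add, hv.2.2 a e, this])
    obtain ⟨x, hx, y, hy, rfl⟩ := s.dec h hq
    have e : ∀ a ∈ A₁, a ⬝ᵥ (x + y) = a ⬝ᵥ x := fun a ha => by
      rw [dotProduct_add, hy.2.2 a ha, add_zero]
    refine ⟨x, hx, fun a ha e1 e2 => ?_, fun a ha e1 => ?_⟩
    · rw [← e a ha]; exact h1 a (hA1 ha) (by rw [lift a ha, e1]) (by rw [lift a ha, e2])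
    · rw [← e a ha]
      refine h2 a (hA1 ha) ?_
      rintro _ ⟨u, hu, rfl⟩
      rw [lift a ha, e1 u hu]
  · rw [dotProduct_comm]; exact hx.2.1 a ha
  · refine h.2.nd b (span_mono hA1 hb) fun u hu => ?_
    obtain ⟨x, hx, e⟩ := s.dot_eq h hb hu
    rw [e, h1 x hx]
  · have hbA := h.2.cl b (span_mono hA1 hb) fun u hu => by
      obtain ⟨x, hx, e⟩ := s.dot_eq h hb hu
      rw [e]; exact h1 x hx
    refine ((s.un b).mp hbA).resolve_right fun h2 => ?_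
    have := h1 x₀ hx₀
    rw [dotProduct_comm, hx₀.2.2 b h2] at this
    norm_num at this
  · intro a ha b hb U hU hne hyp
    have e : ∀ x, ∀ y ∈ Vp V A₂ A₁, ∀ c ∈ A₁, (x + y) ⬝ᵥ c = x ⬝ᵥ c := fun x y hy c hc => by
      rw [add_dotProduct, dotProduct_comm y, hy.2.2 c hc, add_zero]
    obtain ⟨c, hc, h1, h2⟩ := h.2.mid a (hA1 ha) b (hA1 hb) U (hU.trans hA1) hne (by
      intro u hu h1
      obtain ⟨x, hx, y, hy, rfl⟩ := s.dec h hu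
      rw [e x y hy a ha, e x y hy b hb]
      exact hyp x hx fun c hc => by rw [← e x y hy c (hU hc)]; exact h1 c hc)
    rcases (s.un c).mp hc with f | f
    · refine ⟨c, f, fun x hx e1 e2 => ?_, fun x hx e1 => ?_⟩
      · rw [← e x y₀ hy₀ c f]
        exact h1 _ (hmap hx) (by rw [e x y₀ hy₀ a ha, e1]) (by rw [e x y₀ hy₀ b hb, e2])
      · rw [← e x y₀ hy₀ c f]
        exact h2 _ (hmap hx) fun d hd => by rw [e x y₀ hy₀ d (hU hd), e1 d hd]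
    · refine ⟨a, ha, fun x _ e1 _ => e1, fun x hx e1 => ?_⟩
      have f1 := h2 _ (hmap hx) fun d hd => by rw [e x y₀ hy₀ d (hU hd), e1 d hd]
      have f2 := h2 _ (s.add h hx (Vp_neg hy₀)) fun d hd => by
        rw [e x _ (Vp_neg hy₀) d (hU hd), e1 d hd]
      rw [add_dotProduct, dotProduct_comm x, hx.2.2 c f] at f1 f2
      rw [neg_dotProduct] at f2
      linarith
  · obtain ⟨a, ha⟩ := s.n2
    have h1 := ncard_le_ncard_of_injOn _ hmap hinj h.1.fin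
    have h2 : A₁.ncard < A.ncard := ncard_lt_ncard
      ⟨hA1, fun hs => hdis a (hs ((s.un a).mpr (Or.inr ha))) ha⟩ h.2.fin
    omega

def Han (V : Set (Fin N → ℝ)) : Prop :=
  ∃ (m : ℕ) (H : Set (Fin m → ℝ)) (T : (Fin m → ℝ) →ₗ[ℝ] (Fin N → ℝ)),
    IsHanner m H ∧ Function.Injective T ∧ convexHull ℝ V = T '' H ∧ ∀ x, T x ∈ span ℝ V

lemma glue {k l : ℕ} (T₁ : (Fin k → ℝ) →ₗ[ℝ] (Fin N → ℝ)) (T₂ : (Fin l → ℝ) →ₗ[ℝ] (Fin N → ℝ))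
    (i1 : Function.Injective T₁) (i2 : Function.Injective T₂)
    (hd : ∀ u v, T₁ u = T₂ v → T₁ u = 0) :
    ∃ T : (Fin (k + l) → ℝ) →ₗ[ℝ] (Fin N → ℝ), Function.Injective T ∧
      (∀ u v, T (Fin.append u v) = T₁ u + T₂ v) ∧ ∀ x, ∃ u v, T x = T₁ u + T₂ v := by
  refine ⟨T₁ ∘ₗ LinearMap.funLeft ℝ ℝ (Fin.castAdd l) + T₂ ∘ₗ LinearMap.funLeft ℝ ℝ (Fin.natAdd k),
    ?_, fun u v => ?_, fun x => ⟨_, _, rfl⟩⟩
  · rw [injective_iff_map_eq_zero]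
    intro x hx
    have h1 : T₁ (x ∘ Fin.castAdd l) + T₂ (x ∘ Fin.natAdd k) = 0 := hx
    have h2 := hd (x ∘ Fin.castAdd l) (-(x ∘ Fin.natAdd k))
      (by rw [map_neg]; exact eq_neg_of_add_eq_zero_left h1)
    rw [h2, zero_add] at h1
    have e1 := (injective_iff_map_eq_zero _).mp i1 _ h2
    have e2 := (injective_iff_map_eq_zero _).mp i2 _ h1
    funext i
    refine Fin.addCases (fun j => congrFun e1 j) (fun j => congrFun e2 j) i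
  · change T₁ (Fin.append u v ∘ Fin.castAdd l) + T₂ (Fin.append u v ∘ Fin.natAdd k) = _
    congr 2
    · funext i; simp
    · funext i; simp

lemma Spl.han (h : Sys V A) (s : Spl V A A₁ A₂) (v1 : Han (Vp V A₁ A₂)) (v2 : Han (Vp V A₂ A₁))
    (a1 : Han A₁) (a2 : Han A₂) : Han V ∧ Han A := by
  constructor
  · obtain ⟨k, H₁, T₁, p1, p2, p3, p4⟩ := v1
    obtain ⟨l, H₂, T₂, q1, q2, q3, q4⟩ := v2
    obtain ⟨T, t1, t2, t3⟩ := glue T₁ T₂ p2 q2 fun u v e =>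
      h.1.nd _ (Vp_span (p4 u)).1 fun a ha => ((s.un a).mp ha).elim
        (fun h => by rw [e]; exact (Vp_span (q4 v)).2 a h) ((Vp_span (p4 u)).2 a)
    refine ⟨k + l, _, T, p1.prod q1, t1, ?_, fun x => ?_⟩
    · have : V = Vp V A₁ A₂ + Vp V A₂ A₁ := by
        refine Subset.antisymm (fun u hu => ?_) ?_
        · obtain ⟨x, hx, y, hy, rfl⟩ := s.dec h hu
          exact add_mem_add hx hy
        · rintro _ ⟨x, hx, y, hy, rfl⟩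
          exact s.add h hx hy
      rw [this, convexHull_add, p3, q3]
      ext z
      constructor
      · rintro ⟨_, ⟨u, hu, rfl⟩, _, ⟨v, hv, rfl⟩, rfl⟩
        exact ⟨_, ⟨u, hu, v, hv, rfl⟩, t2 u v⟩
      · rintro ⟨_, ⟨u, hu, v, hv, rfl⟩, rfl⟩
        exact ⟨_, ⟨u, hu, rfl⟩, _, ⟨v, hv, rfl⟩, (t2 u v).symm⟩
    · obtain ⟨u, v, e⟩ := t3 x
      rw [e]; exact add_mem (Vp_span (p4 u)).1 (Vp_span (q4 v)).1
  · obtain ⟨k, H₁, T₁, p1, p2, p3, p4⟩ := a1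
    obtain ⟨l, H₂, T₂, q1, q2, q3, q4⟩ := a2
    have hA1 : A₁ ⊆ A := fun a ha => (s.un a).mpr (Or.inl ha)
    have hA2 : A₂ ⊆ A := fun a ha => (s.un a).mpr (Or.inr ha)
    obtain ⟨T, t1, t2, t3⟩ := glue T₁ T₂ p2 q2 fun u v e =>
      h.2.nd _ (span_mono hA1 (p4 u)) fun w hw => by
        obtain ⟨x, hx, f⟩ := s.dot_eq h (p4 u) hw
        rw [f, e]
        exact span_dot (fun a ha => by rw [dotProduct_comm]; exact hx.2.2 a ha) (q4 v)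
    refine ⟨k + l, _, T, p1.freeSum q1, t1, ?_, fun x => ?_⟩
    · have : A = A₁ ∪ A₂ := Set.ext s.un
      rw [this, ← convexHull_convexHull_union_left, ← convexHull_convexHull_union_right, p3, q3,
        T.image_convexHull, image_union]
      congr 2
      · ext z
        constructor
        · rintro ⟨u, hu, rfl⟩
          exact ⟨_, ⟨u, hu, rfl⟩, by simp [t2]⟩
        · rintro ⟨_, ⟨u, hu, rfl⟩, rfl⟩
          exact ⟨u, hu, by simp [t2]⟩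
      · ext z
        constructor
        · rintro ⟨u, hu, rfl⟩
          exact ⟨_, ⟨u, hu, rfl⟩, by simp [t2]⟩
        · rintro ⟨_, ⟨u, hu, rfl⟩, rfl⟩
          exact ⟨u, hu, by simp [t2]⟩
    · obtain ⟨u, v, e⟩ := t3 x
      rw [e]; exact add_mem (span_mono hA1 (p4 u)) (span_mono hA2 (q4 v))

lemma han_pair {v : Fin N → ℝ} (hv : v ≠ 0) (h : ∀ u, u ∈ V ↔ u = v ∨ u = -v) : Han V := by
  have e : V = {-v, v} := by ext u; simp [h, or_comm]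
  refine ⟨1, _, LinearMap.toSpanSingleton ℝ _ v ∘ₗ LinearMap.proj 0, IsHanner.segment 1 one_pos,
    ?_, ?_, fun x => smul_mem _ _ (subset_span ((h v).mpr (Or.inl rfl)))⟩
  · intro x y hxy
    have : x 0 • v = y 0 • v := hxy
    funext i
    rw [Subsingleton.elim i 0]
    exact smul_left_injective ℝ hv this
  · rw [e, convexHull_pair, segment_eq_image]
    ext z
    constructor
    · rintro ⟨t, ht, rfl⟩
      refine ⟨fun _ => 2 * t - 1, ⟨by linarith [ht.1], by linarith [ht.2]⟩, ?_⟩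
      change (2 * t - 1) • v = (1 - t) • -v + t • v
      module
    · rintro ⟨x, hx, rfl⟩
      refine ⟨(x 0 + 1) / 2, ⟨by linarith [hx.1], by linarith [hx.2]⟩, ?_⟩
      change (1 - (x 0 + 1) / 2) • -v + ((x 0 + 1) / 2) • v = x 0 • v
      module

lemma Sys.pair (h : Sys V A) {v₀ : Fin N → ℝ} (h₀ : v₀ ∈ V) (ha : Atom (sg A v₀ '' V) univ)
    {u : Fin N → ℝ} (hu : u ∈ V) : u = v₀ ∨ u = -v₀ := by
  rcases (sg A v₀ u).eq_empty_or_nonempty with e | e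
  · exact Or.inl (h.inj h₀ hu h₀ (by rw [e, Sys.sg_self]))
  · exact Or.inr (h.inj h₀ hu (h.1.symm _ h₀) (by
      rw [h.sg_neg v₀ h₀, Sys.sg_self, compl_empty]; exact ha.2.2 _ ⟨u, hu, rfl⟩ e (subset_univ _)))

lemma Sys.pair' (h : Sys V A) {v₀ a b : Fin N → ℝ} (hV : ∀ u ∈ V, u = v₀ ∨ u = -v₀) (ha : a ∈ A)
    (hb : b ∈ A) (e : a ⬝ᵥ v₀ = b ⬝ᵥ v₀) : a = b := by
  rw [← sub_eq_zero]
  refine h.2.nd _ (sub_mem (subset_span ha) (subset_span hb)) fun u hu => ?_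
  rcases hV u hu with rfl | rfl <;> simp [dotProduct_comm _ a, dotProduct_comm _ b, e]

theorem Sys.han : ∀ (k : ℕ) {V A : Set (Fin N → ℝ)}, V.ncard + A.ncard = k → Sys V A →
    Han V ∧ Han A := by
  intro k
  induction k using Nat.strong_induction_on with
  | _ k ih =>
  have step : ∀ {V A : Set (Fin N → ℝ)}, V.ncard + A.ncard = k → Sys V A →
      (∃ A₁ A₂, Spl V A A₁ A₂) → Han V ∧ Han A := by
    rintro V A hk h ⟨A₁, A₂, s⟩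
    have h1 := ih _ (hk ▸ (s.sys h).2) rfl (s.sys h).1
    have h2 := ih _ (hk ▸ (s.swap.sys h).2) rfl (s.swap.sys h).1
    exact s.han h h1.1 h2.1 h1.2 h2.2
  intro V A hk h
  have h' : Sys A V := ⟨h.2, h.1⟩
  obtain ⟨v₀, h₀⟩ := h.1.ne
  obtain ⟨a₀, k₀, e₀⟩ : ∃ a ∈ A, a ⬝ᵥ v₀ = 1 := by
    obtain ⟨a, ha⟩ := h.2.ne
    rcases h.1.pm a ha v₀ h₀ with e | e
    exacts [⟨a, ha, e⟩, ⟨-a, h.2.symm a ha, by rw [neg_dotProduct, e, neg_neg]⟩]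
  haveI : Finite {a // a ∈ A ∧ a ⬝ᵥ v₀ = 1} := (h.2.fin.subset fun _ h => h.1 :
    Set.Finite {a | a ∈ A ∧ a ⬝ᵥ v₀ = 1})
  haveI : Nonempty {a // a ∈ A ∧ a ⬝ᵥ v₀ = 1} := ⟨⟨a₀, k₀, e₀⟩⟩
  rcases (h.dyn h₀).tri with ht | ⟨Z, n1, n2, hZ⟩ | ⟨S, hS, hR⟩
  · have hV : ∀ u ∈ V, u = v₀ ∨ u = -v₀ := fun u hu => h.pair h₀ ht hu
    refine ⟨han_pair (v := v₀) (by rintro rfl; simp at e₀) fun u => ⟨hV u, ?_⟩,
      han_pair (v := a₀) (by rintro rfl; simp at e₀) fun a => ⟨fun ha => ?_, ?_⟩⟩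
    · rintro (rfl | rfl)
      exacts [h₀, h.1.symm _ h₀]
    · rcases h.1.pm a ha v₀ h₀ with e | e
      · exact Or.inl (h.pair' hV ha k₀ (by rw [e, e₀]))
      · exact Or.inr (h.pair' hV ha (h.2.symm _ k₀) (by rw [neg_dotProduct, e, e₀]))
    · rintro (rfl | rfl)
      exacts [k₀, h.2.symm _ k₀]
  · exact step hk h (h.spl h₀ n1 n2 hZ)
  · refine (step (by rw [add_comm, hk]) h' (h'.spl k₀
      (Z := {u | Atom (sg A v₀ '' V) (sg A v₀ u.1) ∧ Atom (sg A v₀ '' V) (sg A v₀ u.1)ᶜ})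
      ?_ ?_ ?_)).symm
    · obtain ⟨w, hw, rfl⟩ := hS.1
      rcases h.2.pm w hw a₀ k₀ with e | e
      · exact ⟨⟨w, hw, e⟩, hS, hR⟩
      · refine ⟨⟨-w, h.1.symm w hw, by rw [neg_dotProduct, e, neg_neg]⟩, ?_⟩
        simp only [mem_setOf_eq, h.sg_neg v₀ hw, compl_compl]
        exact ⟨hR, hS⟩
    · refine ⟨⟨v₀, h₀, by rw [dotProduct_comm, e₀]⟩, fun hc => ?_⟩
      simpa [Sys.sg_self] using hc.1.2.1
    · intro S' hS'
      obtain ⟨b, hb, rfl⟩ := hS'.1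
      by_contra hc
      rw [not_or, not_subset, not_subset] at hc
      obtain ⟨⟨u, u1, u2⟩, w, w1, w2⟩ := hc
      have w3 := not_not.mp w2
      have huw : u.1 ≠ w.1 := fun e => u2 (by rw [mem_setOf_eq, e]; exact w3)
      have hnw := h.1.symm _ w.2.1
      have hne : ∃ x ∈ V, a₀ ⬝ᵥ x = 1 ∧ b ⬝ᵥ x = 1 := by
        by_contra hn
        have : sg V a₀ b = univ := eq_univ_of_forall fun x => by
          by_contra hx
          exact hn ⟨x, x.2.1, by rw [dotProduct_comm, x.2.2], by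
            rw [dotProduct_comm]; exact (h'.not_mem hb).mp hx⟩
        rw [this] at hS'
        exact huw (h'.pair' (fun a ha => h'.pair k₀ hS' ha) u.2.1 w.2.1 (by rw [u.2.2, w.2.2]))
      obtain ⟨x, hx, h1, h2⟩ := h.1.mid _ u.2.1 _ hnw {x | x ∈ V ∧ a₀ ⬝ᵥ x = 1 ∧ b ⬝ᵥ x = 1}
        (fun _ h => h.1) hne (by
          intro c hc h1
          have hs := (h'.between (v₀ := a₀) k₀ hb hc fun x hx e1 e2 => by
            rw [dotProduct_comm]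
            exact h1 x ⟨hx, by rw [dotProduct_comm, e1], by rw [dotProduct_comm, e2]⟩).2
          rw [Sys.sg_self, empty_union] at hs
          rcases (sg V a₀ c).eq_empty_or_nonempty with e | e
          · left
            rw [dotProduct_comm, ← h'.not_mem hc, e]; simp
          · right
            have := hS'.2.2 _ ⟨c, hc, rfl⟩ e hs
            rw [← this] at w1
            have w4 : w.1 ⬝ᵥ c = -1 := w1
            rw [dotProduct_neg, dotProduct_comm, w4, neg_neg])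
      have b1 := h.between (v₀ := v₀) u.2.1 hnw hx h1
      rw [h.sg_neg v₀ w.2.1] at b1
      rcases (h.dyn h₀).edge w3.2 (by rw [compl_compl]; exact w3.1) ⟨_, u.2.1, rfl⟩ u2
        ⟨x, hx, rfl⟩ b1.1 b1.2 with e | e
      · have e1 := h2 b hb fun _ h => h.2.2
        have u3 : u.1 ⬝ᵥ b = -1 := u1
        rw [h.inj h₀ hx u.2.1 e, dotProduct_comm, u3] at e1
        norm_num at e1
      · have e1 := h2 a₀ k₀ fun _ h => h.2.1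
        rw [← h.sg_neg v₀ w.2.1] at e
        rw [h.inj h₀ hx hnw e, dotProduct_neg, dotProduct_comm, w.2.2] at e1
        norm_num at e1

end Vale.Agent.P248
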