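import Vale.Agent.P248.Dense
import Vale.Agent.P248.Bdry
import Vale.Agent.P248.Split

/-! From the equality case to the combinatorial structure. -/

namespace Vale.Agent.P248

open MeasureTheory Filter Topology Complex Set Metric
open scoped Matrix Real Pointwise

variable {n : ℕ}

def Far (K : Set (Fin n → ℝ)) : Set (Fin n → ℝ) :=
  {v | v ∈ K ∧ ∃ g, ∀ z ∈ K, (z - v) ⬝ᵥ (z - v) + 2 * ((z - v) ⬝ᵥ g) ≤ 0}

lemma dot_nonneg (x : Fin n → ℝ) : 0 ≤ x ⬝ᵥ x := Finset.sum_nonneg fun _ _ => mul_self_nonneg _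

lemma far_pos {k : ℕ} {K : Set (Fin (k + 1) → ℝ)} (h : SB K) {v g : Fin (k + 1) → ℝ} (hv : v ∈ K)
    (hg : ∀ z ∈ K, (z - v) ⬝ᵥ (z - v) + 2 * ((z - v) ⬝ᵥ g) ≤ 0) : 0 < v ⬝ᵥ g := by
  have h1 := hg _ (h.symm v hv)
  simp only [sub_dotProduct, dotProduct_sub, neg_dotProduct, dotProduct_neg] at h1
  rcases (dot_nonneg v).eq_or_lt with e | e
  · exfalso
    have h0 := dotProduct_self_eq_zero.mp e.symm
    subst h0
    obtain ⟨ρ, hρ, hb⟩ := Metric.nhds_basis_closedBall.mem_iff.mp h.nhds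
    have hz := hb (mem_closedBall_zero_iff.mpr (show ‖(Pi.single 0 ρ : Fin (k + 1) → ℝ)‖ ≤ ρ by
      rw [Pi.norm_single, Real.norm_of_nonneg hρ.le]))
    have h2 := hg _ hz
    have h3 := hg _ (h.symm _ hz)
    simp at h2 h3
    nlinarith
  · linarith

lemma far_x {k : ℕ} {K : Set (Fin (k + 1) → ℝ)} (h : SB K) {v x : Fin (k + 1) → ℝ} (hv : v ∈ Far K)
    (hx : ∀ a ∈ polar K, ∃ w, ‖w‖ ≤ 1 ∧ psi w = zt a (x, v)) : x = 0 := by
  obtain ⟨hvK, g, hg⟩ := hv
  have hκ := far_pos h hvK hg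
  set κ := v ⬝ᵥ g with hκd
  set b := κ⁻¹ • g with hb
  have hbv : b ⬝ᵥ v = 1 := by
    rw [hb, smul_dotProduct, dotProduct_comm, ← hκd, smul_eq_mul, inv_mul_cancel₀ hκ.ne']
  have mem : ∀ (e : Fin (k + 1) → ℝ), e ⬝ᵥ v = 0 → (1 + κ * (e ⬝ᵥ e) / 2)⁻¹ • (b + e) ∈ polar K := by
    intro e he z hz
    have h0 := dot_nonneg e
    rw [smul_dotProduct, smul_eq_mul, inv_mul_le_iff₀ (by positivity), mul_one, add_dotProduct]
    have h1 := hg z hz
    have h2 := dot_nonneg (z - v - κ • e)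
    have h3 : κ * (b ⬝ᵥ z) = z ⬝ᵥ g := by
      rw [hb, smul_dotProduct, smul_eq_mul, ← mul_assoc, mul_inv_cancel₀ hκ.ne', one_mul,
        dotProduct_comm]
    rw [sub_dotProduct z v g, ← hκd, ← h3] at h1
    rw [sub_dotProduct, dotProduct_sub _ _ (κ • e), dotProduct_sub (κ • e), dotProduct_smul,
      smul_dotProduct, smul_dotProduct, dotProduct_smul, dotProduct_comm (z - v) e,
      dotProduct_sub e, he] at h2
    simp only [smul_eq_mul] at h2
    refine le_of_mul_le_mul_left ?_ hκ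
    nlinarith
  have hbx : b ⬝ᵥ x = 0 := by
    obtain ⟨w, h1, h2⟩ := hx _ (mem 0 (by simp))
    have := re_zero_of_im h1 (Or.inl (by rw [h2, zt_im]; simpa using hbv))
    rw [h2, zt_re] at this
    simpa using this
  set e := x - (x ⬝ᵥ v) • b with he
  have hev : e ⬝ᵥ v = 0 := by rw [he, sub_dotProduct, smul_dotProduct, hbv]; simp
  have hex : e ⬝ᵥ x = x ⬝ᵥ x := by rw [he, sub_dotProduct, smul_dotProduct, hbx]; simp
  set M := κ * (e ⬝ᵥ e) / 2 with hM
  have hM0 : 0 ≤ M := by have := dot_nonneg e; positivity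
  by_contra hne
  have hq : 0 < x ⬝ᵥ x := (dot_nonneg x).lt_of_ne fun h => hne (dotProduct_self_eq_zero.mp h.symm)
  obtain ⟨δ, hδ, hsm⟩ := re_small (ε := (x ⬝ᵥ x) ^ 2 / (2 * M + 1)) (by positivity)
  set t := min 1 (min 1 δ / (M + 1)) with ht
  have ht0 : 0 < t := lt_min one_pos (by positivity)
  have ht1 : M * t ^ 2 ≤ min 1 δ := by
    have e1 : t ≤ 1 := min_le_left _ _
    have e2 : t ≤ min 1 δ / (M + 1) := min_le_right _ _
    rw [le_div_iff₀ (by positivity)] at e2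
    nlinarith [mul_nonneg hM0 ht0.le]
  obtain ⟨w, h1, h2⟩ := hx _ (mem (t • e) (by rw [smul_dotProduct, hev, smul_zero]))
  have e0 : κ * ((t • e) ⬝ᵥ (t • e)) / 2 = M * t ^ 2 := by
    rw [smul_dotProduct, dotProduct_smul, hM, smul_eq_mul, smul_eq_mul]; ring
  rw [e0] at h2
  set s := M * t ^ 2 with hs
  have hs0 : 0 ≤ s := by positivity
  have i1 : (psi w).im = (1 + s)⁻¹ := by
    rw [h2, zt_im]
    simp only [smul_dotProduct _ (b + t • e), add_dotProduct, smul_dotProduct t, hev, hbv]; simp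
  have i2 : (psi w).re = (1 + s)⁻¹ * (t * (x ⬝ᵥ x)) := by
    rw [h2, zt_re]
    simp only [smul_dotProduct _ (b + t • e), add_dotProduct, smul_dotProduct t, hex, hbx]; simp
  have i3 : 1 - (1 + s)⁻¹ = (1 + s)⁻¹ * s := by field_simp; ring
  have i4 : (1 + s)⁻¹ ≤ 1 := inv_le_one_of_one_le₀ (by linarith)
  have h3 := hsm w h1 (by
    rw [i1, i3]; exact (mul_le_of_le_one_left hs0 i4).trans (ht1.trans (min_le_right _ _)))
  rw [i1, i2, i3] at h3
  have h4 : s ≤ 1 := ht1.trans (min_le_left _ _)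
  field_simp at h3
  rw [hs] at h3 h4
  have h5 : t ^ 2 * (M * (M * t ^ 2)) ≤ t ^ 2 * (M * 1) := by gcongr
  nlinarith [pow_pos ht0 2]

lemma far_pm {k : ℕ} {K : Set (Fin (k + 1) → ℝ)} (h : SB K)
    (heq : volume K * volume (polar K) ≤ ENNReal.ofReal (4 ^ (k + 1) / ((k + 1).factorial : ℝ)))
    {a v : Fin (k + 1) → ℝ} (ha : a ∈ Far (polar K)) (hv : v ∈ Far K) :
    a ⬝ᵥ v = 1 ∨ a ⬝ᵥ v = -1 := by
  obtain ⟨x, h1, h2⟩ := limP h subset_rfl h.bipolar h.pol.symm h.pol.cpt heq v hv.1 a ha.1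
  obtain rfl := far_x h hv h1
  obtain ⟨haK, g, hg⟩ := ha
  obtain ⟨b, hb, h3, w, h4, -, h5⟩ := h2 g (far_pos h.pol haK hg)
  have h6 := hg b hb
  rw [sub_dotProduct b a g] at h6
  have h7 := dotProduct_self_eq_zero.mp (le_antisymm (by linarith) (dot_nonneg (b - a)))
  rw [sub_eq_zero.mp h7] at h5
  have := im_of_re_zero h4 (by rw [h5, zt_re]; simp)
  rwa [h5, zt_im] at this

lemma polar_far {K : Set (Fin n → ℝ)} (h : SB K) : polar (Far K) = polar K := by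
  refine Subset.antisymm (fun a ha z hz => ?_) fun a ha v hv => ha v hv.1
  obtain ⟨R, hR⟩ := h.cpt.bddAbove_image (f := fun x => x ⬝ᵥ x) (by fun_prop)
  have hR0 : 0 ≤ R := (dot_nonneg z).trans (hR ⟨z, hz, rfl⟩)
  refine le_of_forall_pos_le_add fun ε hε => ?_
  set t := ε / (R + 1) with ht
  have ht0 : 0 < t := by positivity
  obtain ⟨v, hv, hm⟩ := h.cpt.exists_isMaxOn ⟨z, hz⟩
    (f := fun x => a ⬝ᵥ x + t * (x ⬝ᵥ x)) (by fun_prop)
  have h1 := ha v ⟨hv, v + (2 * t)⁻¹ • a, fun y hy => by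
    have h2 : a ⬝ᵥ y + t * (y ⬝ᵥ y) ≤ a ⬝ᵥ v + t * (v ⬝ᵥ v) := hm hy
    simp only [sub_dotProduct, dotProduct_sub, dotProduct_add, dotProduct_smul, smul_eq_mul,
      dotProduct_comm y a, dotProduct_comm v a, dotProduct_comm y v]
    refine le_of_mul_le_mul_left ?_ ht0
    field_simp
    linarith⟩
  have h2 : a ⬝ᵥ z + t * (z ⬝ᵥ z) ≤ a ⬝ᵥ v + t * (v ⬝ᵥ v) := hm hz
  have h3 : v ⬝ᵥ v ≤ R := hR ⟨v, hv, rfl⟩
  have h4 : t * (R + 1) = ε := by rw [ht]; field_simp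
  nlinarith [mul_nonneg ht0.le (dot_nonneg z), mul_le_mul_of_nonneg_left h3 ht0.le]

lemma far_neg {K : Set (Fin n → ℝ)} (h : SB K) {v : Fin n → ℝ} (hv : v ∈ Far K) : -v ∈ Far K := by
  obtain ⟨h1, g, hg⟩ := hv
  refine ⟨h.symm v h1, -g, fun z hz => ?_⟩
  have := hg _ (h.symm z hz)
  rwa [show -z - v = -(z - -v) by abel, neg_dotProduct, dotProduct_neg, neg_neg, neg_dotProduct,
    ← dotProduct_neg] at this

lemma far_nd {K : Set (Fin n → ℝ)} (h : SB K) {x : Fin n → ℝ}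
    (hx : ∀ a ∈ Far (polar K), a ⬝ᵥ x = 0) : x = 0 := by
  obtain ⟨R, hR0, hR⟩ := h.cpt.isBounded.exists_pos_norm_le
  by_contra hne
  have hp := norm_pos_iff.mpr hne
  have : ((R + 1) / ‖x‖) • x ∈ K := by
    rw [← h.bipolar, ← polar_far h.pol]
    intro a ha
    rw [smul_dotProduct, dotProduct_comm, hx a ha]; simp
  have h1 := hR _ this
  rw [norm_smul, Real.norm_of_nonneg (by positivity), div_mul_cancel₀ _ hp.ne'] at h1
  linarith

lemma far_fin {k : ℕ} {K : Set (Fin (k + 1) → ℝ)} (h : SB K)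
    (heq : volume K * volume (polar K) ≤ ENNReal.ofReal (4 ^ (k + 1) / ((k + 1).factorial : ℝ))) :
    (Far K).Finite := by
  obtain ⟨s, hs1, hs2⟩ := (Submodule.fg_span_iff_fg_span_finset_subset (R := ℝ)
    (Far (polar K))).mp (IsNoetherian.noetherian _)
  refine Finite.of_injOn (f := fun v (b : s) => decide (b.1 ⬝ᵥ v = 1)) (mapsTo_univ _ _) ?_
    finite_univ
  intro v hv v' hv' e
  rw [← sub_eq_zero]
  refine far_nd h fun a ha => ?_
  rw [dotProduct_comm]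
  refine span_dot (S := s) (fun b hb => ?_) (hs2 ▸ Submodule.subset_span ha)
  have h1 : b ⬝ᵥ v = 1 ↔ b ⬝ᵥ v' = 1 := by simpa using congrFun e ⟨b, hb⟩
  rw [dotProduct_comm, dotProduct_sub]
  rcases far_pm h heq (hs1 hb) hv with e1 | e1 <;> rcases far_pm h heq (hs1 hb) hv' with e2 | e2 <;>
    rw [e1, e2] at h1 ⊢ <;> first | (norm_num; done) | norm_num at h1

lemma far_hull {K : Set (Fin n → ℝ)} (h : SB K) (hf : (Far K).Finite) :
    convexHull ℝ (Far K) = K := by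
  refine Subset.antisymm (convexHull_min (fun _ h => h.1) h.cvx) fun y hy => ?_
  by_contra hn
  obtain ⟨f, u, h1, h2⟩ := geometric_hahn_banach_closed_point (convex_convexHull ℝ (Far K))
    (hf.isCompact_convexHull ℝ).isClosed hn
  obtain ⟨a, ha⟩ := exists_dot f
  have h3 : ∀ c > 0, u ≤ c → a ⬝ᵥ y ≤ c := by
    intro c hc hu
    have := mem_smul_polar hc (K := Far K) (a := a) fun x hx => by
      rw [← ha]; exact (h1 x (subset_convexHull _ _ hx)).le.trans hu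
    rw [polar_far h, mem_smul_set_iff_inv_smul_mem₀ hc.ne'] at this
    have := this y hy
    rwa [smul_dotProduct, smul_eq_mul, inv_mul_le_iff₀ hc, mul_one] at this
  rw [ha] at h2
  rcases (Far K).eq_empty_or_nonempty with e | ⟨v, hv⟩
  · have h4 := polar_far h
    rw [e] at h4
    have h5 : ∀ b, b ⬝ᵥ y ≤ 1 := fun b => (h4 ▸ (show b ∈ polar ∅ from fun _ h => h.elim)) y hy
    have h6 : y = 0 := by
      by_contra h0
      have hq : 0 < y ⬝ᵥ y :=
        (dot_nonneg y).lt_of_ne fun h => h0 (dotProduct_self_eq_zero.mp h.symm)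
      have := h5 ((2 / (y ⬝ᵥ y)) • y)
      rw [smul_dotProduct, smul_eq_mul, div_mul_cancel₀ _ hq.ne'] at this
      linarith
    obtain ⟨v, hv, hm⟩ := h.cpt.exists_isMaxOn ⟨y, hy⟩ (f := fun x => x ⬝ᵥ x) (by fun_prop)
    have : v ∈ Far K := ⟨hv, v, fun z hz => by
      have h2 : z ⬝ᵥ z ≤ v ⬝ᵥ v := hm hz
      simp only [sub_dotProduct, dotProduct_sub, dotProduct_comm z v]
      linarith⟩
    rw [e] at this
    exact this
  · have e1 := h1 v (subset_convexHull _ _ hv)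
    have e2 := h1 _ (subset_convexHull _ _ (far_neg h hv))
    rw [map_neg] at e2
    linarith [h3 u (by linarith) le_rfl]

lemma face_lemma {V Y : Set (Fin n → ℝ)} (hY : Y.Finite) (hV : ∀ a ∈ Y, ∀ v ∈ V, a ⬝ᵥ v ≤ 1)
    {q : Fin n → ℝ} (hq : q ∈ convexHull ℝ V) (h1 : ∀ a ∈ Y, a ⬝ᵥ q = 1) :
    ∃ v ∈ V, ∀ a ∈ Y, a ⬝ᵥ v = 1 := by
  lift Y to Finset (Fin n → ℝ) using hY
  by_contra hn
  push Not at hn
  have := convexHull_min (s := V) (t := {x | (∑ a ∈ Y, a) ⬝ᵥ x < ∑ _a ∈ Y, (1 : ℝ)}) (by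
    intro v hv
    obtain ⟨a, ha, ha'⟩ := hn v hv
    rw [mem_setOf_eq, sum_dotProduct]
    exact Finset.sum_lt_sum (fun a ha => hV a ha v hv) ⟨a, ha, (hV a ha v hv).lt_of_ne ha'⟩)
    (convex_halfSpace_lt (dotL _).toLinearMap.isLinear _) hq
  rw [mem_setOf_eq, sum_dotProduct, Finset.sum_congr rfl fun a ha => h1 a ha] at this
  exact lt_irrefl _ this

theorem far_half {k : ℕ} {K : Set (Fin (k + 1) → ℝ)} (h : SB K)
    (heq : volume K * volume (polar K) ≤ ENNReal.ofReal (4 ^ (k + 1) / ((k + 1).factorial : ℝ))) :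
    Half (Far K) (Far (polar K)) := by
  have hV := far_fin h heq
  have hA := far_fin h.pol (by rwa [h.bipolar, mul_comm])
  have hull := far_hull h hV
  have hpA : polar (Far (polar K)) = K := by rw [polar_far h.pol, h.bipolar]
  have pm : ∀ a ∈ Far (polar K), ∀ v ∈ Far K, a ⬝ᵥ v = 1 ∨ a ⬝ᵥ v = -1 :=
    fun a ha v hv => far_pm h heq ha hv
  refine ⟨hV, ?_, fun v hv => far_neg h hv, pm, fun x _ hx => far_nd h hx, fun x _ hx => ?_, ?_⟩
  · rw [← convexHull_nonempty_iff (𝕜 := ℝ), hull]; exact ⟨0, mem_of_mem_nhds h.nhds⟩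
  · obtain ⟨v, hv, h1⟩ := face_lemma (Y := {a | a ∈ Far (polar K) ∧ a ⬝ᵥ x = 1})
      (hA.subset fun _ h => h.1) (fun a ha v hv => ha.1.1 v hv.1) (q := x) (V := Far K) (by
        rw [hull, ← hpA]
        intro a ha
        rw [dotProduct_comm]
        rcases hx a ha with e | e <;> rw [e] <;> norm_num) fun _ h => h.2
    have : x - v = 0 := far_nd h fun a ha => by
      rw [dotProduct_sub]
      rcases hx a ha with e | e
      · rw [e, h1 a ⟨ha, e⟩, sub_self]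
      · have := h1 _ ⟨far_neg h.pol ha, by rw [neg_dotProduct, e, neg_neg]⟩
        rw [neg_dotProduct] at this
        linarith
    rwa [sub_eq_zero.mp this]
  · intro v hv w hw U hU hne hyp
    obtain ⟨Y, hY⟩ := (hA.subset fun _ h => h.1 :
      Set.Finite {a | a ∈ Far (polar K) ∧ ∀ u ∈ U, a ⬝ᵥ u = 1}).exists_finset
    rcases Y.eq_empty_or_nonempty with rfl | hYne
    · exact ⟨v, hv, fun _ _ h _ => h, fun a ha h => by simpa using (hY a).mpr ⟨ha, h⟩⟩
    lift U to Finset (Fin (k + 1) → ℝ) using hV.subset hU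
    have hc : (0 : ℝ) < Y.card := by exact_mod_cast hYne.card_pos
    have hd : (1 : ℝ) ≤ U.card := by exact_mod_cast (Finset.coe_nonempty.mp hne).card_pos
    have hP : ∀ z, (Y.card : ℝ) * (((Y.card : ℝ)⁻¹ • ∑ a ∈ Y, a) ⬝ᵥ z) = ∑ a ∈ Y, a ⬝ᵥ z := by
      intro z
      rw [smul_dotProduct, sum_dotProduct, smul_eq_mul, ← mul_assoc, mul_inv_cancel₀ hc.ne',
        one_mul]
    set P := (Y.card : ℝ)⁻¹ • ∑ a ∈ Y, a
    have hPK : P ∈ polar K := fun z hz => by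
      refine le_of_mul_le_mul_left ?_ hc
      rw [hP]
      simpa using Finset.sum_le_sum fun a (ha : a ∈ Y) => ((hY a).mp ha).1.1 z hz
    obtain ⟨x, h1, h2⟩ := limP h (fun _ h => h.1) hpA (fun a ha => far_neg h.pol ha) hA.isCompact
      heq ((1 / 2 : ℝ) • v + (1 / 2 : ℝ) • w) (h.cvx hv.1 hw.1 (by norm_num) (by norm_num)
        (by norm_num)) P hPK
    set c := (1 / 2 : ℝ) • v + (1 / 2 : ℝ) • w with hcd
    have hb := psi_one_pos
    set q := c + (psi 1).re⁻¹ • x with hq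
    have ec : ∀ a : Fin (k + 1) → ℝ, a ⬝ᵥ c = (a ⬝ᵥ v + a ⬝ᵥ w) / 2 := fun a => by
      rw [hcd, dotProduct_add, dotProduct_smul, dotProduct_smul, smul_eq_mul, smul_eq_mul]; ring
    have eq : ∀ a : Fin (k + 1) → ℝ, a ⬝ᵥ q = a ⬝ᵥ c + (psi 1).re⁻¹ * (a ⬝ᵥ x) := fun a => by
      rw [hq, dotProduct_add, dotProduct_smul, smul_eq_mul]
    have k1 : ∀ a ∈ Far (polar K), (a ⬝ᵥ c = 1 ∨ a ⬝ᵥ c = -1) → a ⬝ᵥ q = a ⬝ᵥ c := by
      intro a ha e
      obtain ⟨ω, o1, o2⟩ := h1 a ha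
      have := re_zero_of_im o1 (by rwa [o2, zt_im])
      rw [o2, zt_re] at this
      rw [eq, this, mul_zero, add_zero]
    have k0 : ∀ a ∈ Far (polar K), a ⬝ᵥ c = 1 ∨ a ⬝ᵥ c = -1 ∨ a ⬝ᵥ c = 0 := by
      intro a ha
      rw [ec]
      rcases pm a ha v hv with e | e <;> rcases pm a ha w hw with e' | e' <;> rw [e, e'] <;>
        norm_num
    have k2 : ∀ a ∈ Far (polar K), a ⬝ᵥ q ≤ 1 := by
      intro a ha
      rcases k0 a ha with e | e | e
      · rw [k1 a ha (Or.inl e), e]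
      · rw [k1 a ha (Or.inr e), e]; norm_num
      · obtain ⟨ω, o1, o2⟩ := h1 a ha
        have := re_le_psi_one o1 (by rwa [o2, zt_im])
        rw [o2, zt_re] at this
        rw [eq, e, zero_add, inv_mul_le_iff₀ hb, mul_one]; exact this
    have hqK : q ∈ K := by
      rw [← hpA]; intro a ha; rw [dotProduct_comm]; exact k2 a ha
    have e1 : P ⬝ᵥ ∑ u ∈ U, u = U.card := by
      refine mul_left_cancel₀ hc.ne' ?_
      rw [hP, Finset.sum_congr rfl fun a ha => (dotProduct_sum a U _).trans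
        (Finset.sum_congr rfl ((hY a).mp ha).2)]
      simp
    have e2 := hPK q hqK
    obtain ⟨a, ha, h3, ω, o1, o2, o3⟩ := h2 ((3 : ℝ) • ∑ u ∈ U, u - q) (by
      rw [dotProduct_sub, dotProduct_smul, e1, smul_eq_mul]; linarith)
    rw [dotProduct_sub, dotProduct_smul, e1, dotProduct_sub, dotProduct_smul, dotProduct_sum,
      smul_eq_mul, smul_eq_mul] at h3
    have e3 := k2 _ (far_neg h.pol ha)
    rw [neg_dotProduct] at e3
    have haY : ∀ u ∈ U, a ⬝ᵥ u = 1 := by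
      intro u hu
      by_contra hn
      have e4 := (pm a ha u (hU hu)).resolve_left hn
      have e5 := Finset.single_le_sum (f := fun u => 1 - a ⬝ᵥ u)
        (fun u (hu : u ∈ U) => sub_nonneg.mpr (ha.1 u (hU hu).1)) hu
      simp only [Finset.sum_sub_distrib, Finset.sum_const, nsmul_eq_mul, mul_one] at e5
      linarith
    have e4 : a ⬝ᵥ q = 1 := by
      rcases k0 a ha with e | e | e
      · rw [k1 a ha (Or.inl e), e]
      · rw [ec] at e
        have := h.abs_le ha.1 hv.1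
        have := h.abs_le ha.1 hw.1
        rcases hyp a ha haY with f | f <;> rw [abs_le] at * <;> linarith
      · have := re_eq_psi_one o1 o2 (by rwa [o3, zt_im])
        rw [o3, zt_re] at this
        rw [eq, e, zero_add, this, inv_mul_cancel₀ hb.ne']
    rw [Finset.sum_congr rfl haY] at h3
    simp only [Finset.sum_const, nsmul_eq_mul, mul_one] at h3
    have e5 : ∀ b ∈ Y, b ⬝ᵥ q = 1 := by
      refine (Finset.sum_eq_sum_iff_of_le fun b hb => k2 b ((hY b).mp hb).1).mp ?_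
      rw [← hP, show P ⬝ᵥ q = 1 by linarith]; simp
    obtain ⟨z, hz, h4⟩ := face_lemma (V := Far K) (Y := {a | a ∈ Far (polar K) ∧ a ⬝ᵥ q = 1})
      (hA.subset fun _ h => h.1) (fun a ha v hv => ha.1.1 v hv.1) (hull.symm ▸ hqK) fun _ h => h.2
    refine ⟨z, hz, fun b hb f1 f2 => h4 b ⟨hb, ?_⟩, fun b hb f => h4 b ⟨hb, e5 b ((hY b).mpr
      ⟨hb, f⟩)⟩⟩
    have : b ⬝ᵥ c = 1 := by rw [ec, f1, f2]; norm_num
    rw [k1 b hb (Or.inl this), this]

theorem SB.hanner {k : ℕ} {K : Set (Fin (k + 1) → ℝ)} (h : SB K)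
    (heq : volume K * volume (polar K) ≤ ENNReal.ofReal (4 ^ (k + 1) / ((k + 1).factorial : ℝ))) :
    ∃ (H : Set (Fin (k + 1) → ℝ)) (T : (Fin (k + 1) → ℝ) ≃ₗ[ℝ] (Fin (k + 1) → ℝ)),
      IsHanner (k + 1) H ∧ K = T '' H := by
  have h2 := far_half h.pol (by rwa [h.bipolar, mul_comm])
  rw [h.bipolar] at h2
  obtain ⟨m, H, T, p1, p2, p3, -⟩ := (Sys.han _ rfl ⟨far_half h heq, h2⟩).1
  rw [far_hull h (far_fin h heq)] at p3
  have hs : Function.Surjective T := by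
    rw [← LinearMap.range_eq_top]
    refine Submodule.eq_top_of_nonempty_interior' _ ⟨0, mem_interior_iff_mem_nhds.mpr
      (mem_of_superset h.nhds ?_)⟩
    rw [p3]; rintro _ ⟨x, -, rfl⟩; exact ⟨x, rfl⟩
  have hm := (LinearEquiv.ofBijective T ⟨p2, hs⟩).finrank_eq
  rw [Module.finrank_fin_fun, Module.finrank_fin_fun] at hm
  subst hm
  exact ⟨H, LinearEquiv.ofBijective T ⟨p2, hs⟩, p1, p3⟩

end Vale.Agent.P248
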