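import Vale.Agent.P248.Limit
import Vale.Agent.P248.HannerDef

/-! The volume product of Hanner polytopes. -/

namespace Vale.Agent.P248

open MeasureTheory Filter Topology Set Metric
open scoped Matrix Real Pointwise

variable {n k l : ℕ}

lemma SB.dot_le {K : Set (Fin n → ℝ)} (h : SB K) {a : Fin n → ℝ} (ha : a ∈ polar K)
    (x : Fin n → ℝ) : a ⬝ᵥ x ≤ gauge K x := by
  refine le_of_forall_gt_imp_ge_of_dense fun r hr => ?_
  obtain ⟨b, h1, h2, y, hy, rfl⟩ := exists_lt_of_gauge_lt (absorbent_nhds_zero h.nhds) hr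
  simp only [dotProduct_smul, smul_eq_mul]
  nlinarith [ha y hy]

lemma SB.gauge_le {K : Set (Fin n → ℝ)} (h : SB K) {x : Fin n → ℝ} {r : ℝ} (hr : 0 ≤ r)
    (hx : ∀ a ∈ polar K, a ⬝ᵥ x ≤ r) : gauge K x ≤ r := by
  refine le_of_forall_gt_imp_ge_of_dense fun s hs => gauge_le_of_mem (hr.trans hs.le) ?_
  have := mem_smul_polar (hr.trans_lt hs) (K := polar K) (a := x) fun a ha => by
    rw [dotProduct_comm]; exact (hx a ha).trans hs.le
  rwa [h.bipolar] at this

lemma SB.gauge_max {K : Set (Fin n → ℝ)} (h : SB K) (x : Fin n → ℝ) :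
    ∃ a ∈ polar K, gauge K x ≤ a ⬝ᵥ x := by
  have h0 := mem_of_mem_nhds h.pol.nhds
  obtain ⟨a, ha, hm⟩ := h.pol.cpt.exists_isMaxOn ⟨0, h0⟩ (f := fun a => a ⬝ᵥ x) (by fun_prop)
  exact ⟨a, ha, h.gauge_le (by simpa using hm h0) fun b hb => hm hb⟩

lemma SB.gauge_zero {K : Set (Fin n → ℝ)} (h : SB K) {x : Fin n → ℝ} (hx : gauge K x = 0) :
    x = 0 :=
  (gauge_eq_zero (absorbent_nhds_zero h.nhds) (h.cpt.isVonNBounded ℝ)).mp hx

lemma SB.polar_coord {K : Set (Fin n → ℝ)} (h : SB K) (x : Fin n → ℝ) :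
    ∃ y ∈ K, x = gauge K x • y := by
  rcases (gauge_nonneg (s := K) x).eq_or_lt with e | e
  · exact ⟨0, mem_of_mem_nhds h.nhds, by rw [smul_zero]; exact h.gauge_zero e.symm⟩
  · refine ⟨(gauge K x)⁻¹ • x, ?_, by rw [smul_inv_smul₀ e.ne']⟩
    refine h.cpt.isClosed.closure_subset ((gauge_le_one_iff_mem_closure h.cvx h.nhds).mp ?_)
    rw [gauge_smul_of_nonneg (inv_nonneg.mpr e.le), smul_eq_mul, inv_mul_cancel₀ e.ne']

lemma SB.vol {K : Set (Fin n → ℝ)} (h : SB K) :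
    (n.factorial : ℝ) * (volume K).toReal = ∫ x, Real.exp (-gauge K x) := by
  have h1 := measure_lt_one_eq_integral_div_gamma (volume : Measure (Fin n → ℝ)) (g := gauge K)
    _root_.gauge_zero (gauge_neg h.symm) (gauge_add_le h.cvx (absorbent_nhds_zero h.nhds))
    h.gauge_zero (fun r x => by
      rcases le_total 0 r with e | e
      · rw [gauge_smul_of_nonneg e, abs_of_nonneg e, smul_eq_mul]
      · rw [← gauge_neg h.symm, ← neg_smul, gauge_smul_of_nonneg (neg_nonneg.mpr e),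
          abs_of_nonpos e, smul_eq_mul]) one_pos
  have h2 : {x | gauge K x < 1} = interior K :=
    Set.ext fun _ => gauge_lt_one_iff_mem_interior h.cvx h.nhds
  rw [h2, measure_interior_of_null_frontier (h.cvx.addHaar_frontier volume), div_one,
    Module.finrank_fin_fun, Real.Gamma_nat_eq_factorial] at h1
  simp only [Real.rpow_one] at h1
  rw [h1, ENNReal.toReal_ofReal (div_nonneg (integral_nonneg fun _ => (Real.exp_pos _).le)
    (Nat.cast_nonneg _)), mul_div_cancel₀ _ (by exact_mod_cast n.factorial_ne_zero)]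

def PR (K₁ : Set (Fin k → ℝ)) (K₂ : Set (Fin l → ℝ)) : Set (Fin (k + l) → ℝ) :=
  {x | ∃ u ∈ K₁, ∃ v ∈ K₂, x = Fin.append u v}

lemma dot_append (a u : Fin k → ℝ) (b v : Fin l → ℝ) :
    Fin.append a b ⬝ᵥ Fin.append u v = a ⬝ᵥ u + b ⬝ᵥ v := by
  simp [dotProduct, Fin.sum_univ_add]

lemma append_comb (s t : ℝ) (u u' : Fin k → ℝ) (v v' : Fin l → ℝ) :
    s • Fin.append u v + t • Fin.append u' v' = Fin.append (s • u + t • u') (s • v + t • v') := by
  funext i
  refine Fin.addCases (fun j => ?_) (fun j => ?_) i <;> simp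

lemma append_zero : Fin.append (0 : Fin k → ℝ) (0 : Fin l → ℝ) = 0 := by
  funext i
  refine Fin.addCases (fun j => ?_) (fun j => ?_) i <;> simp

lemma PR_eq (K₁ : Set (Fin k → ℝ)) (K₂ : Set (Fin l → ℝ)) :
    PR K₁ K₂ = Fin.appendHomeomorph k l '' (K₁ ×ˢ K₂) := by
  ext x
  constructor
  · rintro ⟨u, hu, v, hv, rfl⟩
    exact ⟨(u, v), ⟨hu, hv⟩, rfl⟩
  · rintro ⟨⟨u, v⟩, ⟨hu, hv⟩, rfl⟩
    exact ⟨u, hu, v, hv, rfl⟩

lemma SB.pr {K₁ : Set (Fin k → ℝ)} {K₂ : Set (Fin l → ℝ)} (h₁ : SB K₁) (h₂ : SB K₂) :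
    SB (PR K₁ K₂) := by
  refine ⟨?_, ?_, ?_, ?_⟩
  · rw [PR_eq]; exact (h₁.cpt.prod h₂.cpt).image (Homeomorph.continuous _)
  · rintro _ ⟨u, hu, v, hv, rfl⟩ _ ⟨u', hu', v', hv', rfl⟩ s t hs ht hst
    exact ⟨_, h₁.cvx hu hu' hs ht hst, _, h₂.cvx hv hv' hs ht hst, append_comb ..⟩
  · rintro _ ⟨u, hu, v, hv, rfl⟩
    refine ⟨_, h₁.symm u hu, _, h₂.symm v hv, ?_⟩
    simpa using append_comb (-1) 0 u u v v
  · rw [PR_eq, ← append_zero]
    exact (Fin.appendHomeomorph k l).isOpenMap.image_mem_nhds (x := (0, 0))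
      (prod_mem_nhds h₁.nhds h₂.nhds)

lemma exists_app (k l : ℕ) : ∃ e : (Fin k → ℝ) × (Fin l → ℝ) ≃ᵐ (Fin (k + l) → ℝ),
    MeasurePreserving e volume volume ∧ ∀ p, e p = Fin.append p.1 p.2 := by
  refine ⟨(MeasurableEquiv.sumPiEquivProdPi fun _ => ℝ).symm.trans
    (MeasurableEquiv.piCongrLeft (fun _ => ℝ) finSumFinEquiv),
    (volume_measurePreserving_piCongrLeft (fun _ => ℝ) finSumFinEquiv).comp
      (volume_measurePreserving_sumPiEquivProdPi_symm fun _ => ℝ), fun p => ?_⟩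
  funext i
  obtain ⟨j, rfl⟩ := finSumFinEquiv.surjective i
  rw [MeasurableEquiv.trans_apply, MeasurableEquiv.coe_piCongrLeft, Equiv.piCongrLeft_apply_apply]
  rcases j with j | j <;> simp [MeasurableEquiv.coe_sumPiEquivProdPi_symm]

lemma vol_PR (K₁ : Set (Fin k → ℝ)) (K₂ : Set (Fin l → ℝ)) :
    volume (PR K₁ K₂) = volume K₁ * volume K₂ := by
  obtain ⟨e, h1, h2⟩ := exists_app k l
  rw [← h1.measure_preimage_equiv, ← Measure.prod_prod]
  congr 1
  ext ⟨u, v⟩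
  rw [mem_preimage, h2, PR_eq]
  exact (Fin.appendHomeomorph k l).injective.mem_set_image (a := (u, v))

lemma gauge_FS {K₁ : Set (Fin k → ℝ)} {K₂ : Set (Fin l → ℝ)} (h₁ : SB K₁) (h₂ : SB K₂)
    (u : Fin k → ℝ) (v : Fin l → ℝ) :
    gauge (polar (PR (polar K₁) (polar K₂))) (Fin.append u v) = gauge K₁ u + gauge K₂ v := by
  have h := h₁.pol.pr h₂.pol
  refine le_antisymm (h.pol.gauge_le (add_nonneg (gauge_nonneg _) (gauge_nonneg _)) ?_) ?_
  · rw [h.bipolar]
    rintro _ ⟨a, ha, b, hb, rfl⟩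
    rw [dot_append]
    exact add_le_add (h₁.dot_le ha u) (h₂.dot_le hb v)
  · obtain ⟨a, ha, e1⟩ := h₁.gauge_max u
    obtain ⟨b, hb, e2⟩ := h₂.gauge_max v
    refine (add_le_add e1 e2).trans ?_
    rw [← dot_append]
    exact h.pol.dot_le (by rw [h.bipolar]; exact ⟨a, ha, b, hb, rfl⟩) _

lemma vol_FS {K₁ : Set (Fin k → ℝ)} {K₂ : Set (Fin l → ℝ)} (h₁ : SB K₁) (h₂ : SB K₂) :
    ((k + l).factorial : ℝ) * (volume (polar (PR (polar K₁) (polar K₂)))).toReal =
      (k.factorial * (volume K₁).toReal) * (l.factorial * (volume K₂).toReal) := by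
  obtain ⟨e, h1, h2⟩ := exists_app k l
  rw [(h₁.pol.pr h₂.pol).pol.vol, h₁.vol, h₂.vol, ← h1.integral_comp', ← integral_prod_mul]
  refine integral_congr_ae (Eventually.of_forall fun p => ?_)
  simp only [h2, gauge_FS h₁ h₂, neg_add, Real.exp_add]

lemma hull_eq {K₁ : Set (Fin k → ℝ)} {K₂ : Set (Fin l → ℝ)} (h₁ : SB K₁) (h₂ : SB K₂) :
    convexHull ℝ ({x | ∃ u ∈ K₁, x = Fin.append u (0 : Fin l → ℝ)} ∪
      {x | ∃ v ∈ K₂, x = Fin.append (0 : Fin k → ℝ) v}) = polar (PR (polar K₁) (polar K₂)) := by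
  refine Subset.antisymm (convexHull_min ?_ (convex_polar _)) fun x hx => ?_
  · rintro _ (⟨u, hu, rfl⟩ | ⟨v, hv, rfl⟩) _ ⟨a, ha, b, hb, rfl⟩
    · simpa [dot_append, dotProduct_comm u] using ha u hu
    · simpa [dot_append, dotProduct_comm v] using hb v hv
  · obtain ⟨⟨u, v⟩, rfl⟩ := (Fin.appendEquiv k l).surjective x
    have h3 : gauge (polar (PR (polar K₁) (polar K₂))) (Fin.append u v) ≤ 1 :=
      gauge_le_one_of_mem hx
    rw [gauge_FS h₁ h₂] at h3
    obtain ⟨u', hu, e1⟩ := h₁.polar_coord u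
    obtain ⟨v', hv, e2⟩ := h₂.polar_coord v
    have := (convex_convexHull ℝ ({x | ∃ u ∈ K₁, x = Fin.append u (0 : Fin l → ℝ)} ∪
      {x | ∃ v ∈ K₂, x = Fin.append (0 : Fin k → ℝ) v})).sum_mem (t := Finset.univ)
      (w := ![gauge K₁ u, gauge K₂ v, 1 - (gauge K₁ u + gauge K₂ v)])
      (z := ![Fin.append u' 0, Fin.append 0 v', 0]) (by
        intro i _
        fin_cases i
        exacts [gauge_nonneg _, gauge_nonneg _, sub_nonneg.mpr h3]) (by simp [Fin.sum_univ_three])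
      (by
        intro i _
        refine subset_convexHull _ _ ?_
        fin_cases i
        exacts [Or.inl ⟨u', hu, rfl⟩, Or.inr ⟨v', hv, rfl⟩,
          Or.inl ⟨0, mem_of_mem_nhds h₁.nhds, append_zero.symm⟩])
    simp only [Fin.sum_univ_three, Matrix.cons_val, smul_zero, add_zero, append_comb, zero_add,
      ← e1, ← e2] at this
    exact this

lemma seg_eq {a : ℝ} (ha : 0 < a) : {x : Fin 1 → ℝ | x 0 ∈ Icc (-a) a} = closedBall 0 a := by
  ext x
  simp [pi_norm_le_iff_of_nonneg ha.le, abs_le]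

theorem IsHanner.eq {n : ℕ} {H : Set (Fin n → ℝ)} (h : IsHanner n H) : SB H ∧
    (n.factorial : ℝ) * ((volume H).toReal * (volume (polar H)).toReal) = 4 ^ n := by
  induction h with
  | segment a ha =>
    have e : polar {x : Fin 1 → ℝ | x 0 ∈ Icc (-a) a} =
        {x : Fin 1 → ℝ | x 0 ∈ Icc (-a⁻¹) a⁻¹} := by
      ext y
      simp only [polar, mem_setOf_eq, mem_Icc, dotProduct, Fin.sum_univ_one, ← abs_le]
      constructor
      · intro h
        have h1 := h (fun _ => a) (abs_of_pos ha).le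
        have h2 := h (fun _ => -a) (by rw [abs_neg]; exact (abs_of_pos ha).le)
        rw [← one_div, le_div_iff₀ ha, ← abs_of_pos ha, ← abs_mul, abs_le]
        constructor <;> linarith
      · intro h x hx
        refine (le_abs_self _).trans ?_
        rw [abs_mul, ← inv_mul_cancel₀ ha.ne']
        exact mul_le_mul h hx (abs_nonneg _) (by positivity)
    rw [e, seg_eq ha, seg_eq (inv_pos.mpr ha), Real.volume_pi_closedBall _ ha.le,
      Real.volume_pi_closedBall _ (inv_pos.mpr ha).le, ENNReal.toReal_ofReal (by positivity),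
      ENNReal.toReal_ofReal (by positivity)]
    refine ⟨⟨isCompact_closedBall _ _, convex_closedBall _ _, by simp, closedBall_mem_nhds _ ha⟩, ?_⟩
    simp; field_simp; norm_num
  | @prod k l H₁ H₂ _ _ i1 i2 =>
    refine ⟨i1.1.pr i2.1, ?_⟩
    have h1 := vol_FS i1.1.pol i2.1.pol
    rw [i1.1.bipolar, i2.1.bipolar] at h1
    change _ * ((volume (PR H₁ H₂)).toReal * (volume (polar (PR H₁ H₂))).toReal) = _
    rw [vol_PR, ENNReal.toReal_mul, mul_left_comm, h1, pow_add, ← i1.2, ← i2.2]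
    ring
  | @freeSum k l H₁ H₂ _ _ i1 i2 =>
    rw [hull_eq i1.1 i2.1]
    refine ⟨(i1.1.pol.pr i2.1.pol).pol, ?_⟩
    rw [(i1.1.pol.pr i2.1.pol).bipolar, vol_PR, ENNReal.toReal_mul, ← mul_assoc, vol_FS i1.1 i2.1,
      pow_add, ← i1.2, ← i2.2]
    ring

theorem vol_image (H : Set (Fin n → ℝ)) (T : (Fin n → ℝ) ≃ₗ[ℝ] (Fin n → ℝ)) :
    (volume (T '' H)).toReal * (volume (polar (T '' H))).toReal =
      (volume H).toReal * (volume (polar H)).toReal := by
  set M := LinearMap.toMatrix' (T : (Fin n → ℝ) →ₗ[ℝ] (Fin n → ℝ)) with hM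
  have hT : ∀ x, T x = M *ᵥ x := fun x => by rw [hM, LinearMap.toMatrix'_mulVec]; rfl
  have hd : LinearMap.det (T : (Fin n → ℝ) →ₗ[ℝ] (Fin n → ℝ)) = M.det :=
    (LinearMap.det_toMatrix' _).symm
  have hne : M.det ≠ 0 := hd ▸ T.isUnit_det'.ne_zero
  have e : polar (T '' H) = Matrix.toLin' Mᵀ ⁻¹' polar H := by
    ext a
    simp only [polar, mem_setOf_eq, forall_mem_image, mem_preimage, Matrix.toLin'_apply, hT,
      Matrix.dotProduct_mulVec, Matrix.mulVec_transpose]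
  have h1 := Measure.addHaar_image_linearMap volume (T : (Fin n → ℝ) →ₗ[ℝ] (Fin n → ℝ)) H
  have h2 := Measure.addHaar_preimage_linearMap volume (f := Matrix.toLin' Mᵀ)
    (by rwa [LinearMap.det_toLin', Matrix.det_transpose]) (polar H)
  rw [LinearMap.det_toLin', Matrix.det_transpose] at h2
  rw [LinearEquiv.coe_coe, hd] at h1
  rw [e, h1, h2, ENNReal.toReal_mul, ENNReal.toReal_mul, ENNReal.toReal_ofReal (abs_nonneg _),
    ENNReal.toReal_ofReal (abs_nonneg _), abs_inv]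
  have := abs_pos.mpr hne
  field_simp

end Vale.Agent.P248
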