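import Vale.Agent.P248.Psi

/-! The inverse map and the momentum estimate. -/

namespace Vale.Agent.P248

open MeasureTheory Filter Topology Complex Set Metric
open scoped Real ComplexConjugate

def DD : Set ℂ := psi '' ball 0 1

noncomputable def FF : ℂ → ℂ := Function.invFunOn psi (ball 0 1)

lemma FF_psi {w : ℂ} (hw : ‖w‖ < 1) : FF (psi w) = w :=
  psi_inj.leftInvOn_invFunOn (by simpa using hw)

lemma norm_FF {ζ : ℂ} (h : ζ ∈ DD) : ‖FF ζ‖ < 1 := by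
  obtain ⟨w, hw, rfl⟩ := h
  have hw' : ‖w‖ < 1 := by simpa using hw
  rwa [FF_psi hw']

lemma psi_FF {ζ : ℂ} (h : ζ ∈ DD) : psi (FF ζ) = ζ := by
  obtain ⟨w, hw, rfl⟩ := h
  rw [FF_psi (by simpa using hw)]

lemma mem_DD {w : ℂ} (hw : ‖w‖ < 1) : psi w ∈ DD := ⟨w, by simpa using hw, rfl⟩

lemma isOpen_DD : IsOpen DD := by
  rw [isOpen_iff_mem_nhds]
  rintro _ ⟨w, hw, rfl⟩
  have hw' : ‖w‖ < 1 := by simpa using hw
  rw [← (hasStrict_psi hw').map_nhds_eq (dpsi_ne hw')]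
  exact image_mem_map (isOpen_ball.mem_nhds hw)

lemma hasDerivAt_FF {ζ : ℂ} (h : ζ ∈ DD) : HasDerivAt FF (dpsi (FF ζ))⁻¹ ζ := by
  obtain ⟨w, hw, rfl⟩ := h
  have hw' : ‖w‖ < 1 := by simpa using hw
  rw [FF_psi hw']
  refine ((hasStrict_psi hw').to_local_left_inverse (dpsi_ne hw') ?_).hasDerivAt
  filter_upwards [isOpen_ball.mem_nhds hw] with x hx using FF_psi (by simpa using hx)

lemma analytic_FF : AnalyticOnNhd ℂ FF DD :=
  DifferentiableOn.analyticOnNhd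
    (fun _ h => (hasDerivAt_FF h).differentiableAt.differentiableWithinAt) isOpen_DD

lemma neg_mem_DD {ζ : ℂ} (h : ζ ∈ DD) : -ζ ∈ DD := by
  rw [← psi_FF h, ← psi_neg]; exact mem_DD (by simpa using norm_FF h)

lemma FF_neg {ζ : ℂ} (h : ζ ∈ DD) : FF (-ζ) = -FF ζ := by
  conv_lhs => rw [← psi_FF h, ← psi_neg]
  exact FF_psi (by simpa using norm_FF h)

lemma dpsi_neg (w : ℂ) : dpsi (-w) = dpsi w := by
  have h : (fun w => psi (-w)) = fun w => -psi w := funext psi_neg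
  have h1 := deriv_comp_neg psi w
  rw [h, deriv.fun_neg] at h1
  exact (neg_inj.mp h1).symm

lemma norm_le_of_mem {ζ : ℂ} (h : ζ ∈ DD) : ‖ζ‖ ≤ 1 := by
  rw [← psi_FF h]; exact norm_psi_le (norm_FF h).le

lemma re_FF_nonneg {ζ : ℂ} (h : ζ ∈ DD) (hs : 0 ≤ ζ.re) : 0 ≤ (FF ζ).re := by
  have h1 := re_psi_mul (norm_FF h)
  rw [psi_FF h] at h1
  by_contra hc
  push Not at hc
  have := mul_pos (half_pos cc_pos) (pow_pos (neg_pos.mpr hc) 2)
  nlinarith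

lemma line_FF {s t : ℝ} (h : (s : ℂ) + t * I ∈ DD) :
    HasDerivAt (fun σ : ℝ => FF (σ + t * I)) (dpsi (FF (s + t * I)))⁻¹ s := by
  have h1 : HasDerivAt (fun u : ℂ => u + t * I) 1 (s : ℂ) := (hasDerivAt_id _).add_const _
  simpa using ((hasDerivAt_FF h).comp (s : ℂ) h1).comp_ofReal

lemma line_sq {s t : ℝ} (h : (s : ℂ) + t * I ∈ DD) :
    HasDerivAt (fun σ : ℝ => ‖FF (σ + t * I)‖ ^ 2)
      (2 * (FF (s + t * I) * dpsi (FF (s + t * I))).re / ‖dpsi (FF (s + t * I))‖ ^ 2) s := by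
  refine (line_FF h).norm_sq.congr_deriv ?_
  rw [Complex.inner, Complex.inv_def, Complex.sq_norm]
  simp only [mul_re, mul_im, conj_re, conj_im, ofReal_re, ofReal_im]
  ring

lemma line_re {s t : ℝ} (h : (s : ℂ) + t * I ∈ DD) :
    HasDerivAt (fun σ : ℝ => (FF (σ + t * I)).re)
      ((dpsi (FF (s + t * I))).re / ‖dpsi (FF (s + t * I))‖ ^ 2) s := by
  refine (Complex.reCLM.hasFDerivAt.comp_hasDerivAt s (line_FF h)).congr_deriv ?_
  rw [Complex.reCLM_apply, Complex.inv_re, Complex.sq_norm]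

lemma re_q_nonneg {w : ℂ} (hw : ‖w‖ < 1) (h : 0 ≤ w.re) : 0 ≤ (w * dpsi w).re := by
  have := re_mul_dpsi_ge hw (β := 0) (by simp; positivity) (by simpa using h)
  simpa using this

lemma sq_mono {t : ℝ} {S : Set ℝ} (hS : Convex ℝ S) (h0 : ∀ σ ∈ S, 0 ≤ σ)
    (hD : ∀ σ ∈ S, (σ : ℂ) + t * I ∈ DD) : MonotoneOn (fun σ : ℝ => ‖FF (σ + t * I)‖ ^ 2) S :=
  monotoneOn_of_deriv_nonneg hS (fun σ hσ => (line_sq (hD σ hσ)).continuousAt.continuousWithinAt)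
    (fun σ hσ => (line_sq (hD σ (interior_subset hσ))).differentiableAt.differentiableWithinAt)
    (fun σ hσ => by
      have h := hD σ (interior_subset hσ)
      rw [(line_sq h).deriv]
      exact div_nonneg (mul_nonneg zero_le_two (re_q_nonneg (norm_FF h) (re_FF_nonneg h
        (by simpa using h0 σ (interior_subset hσ))))) (sq_nonneg _))

lemma slice {s t : ℝ} (h : (s : ℂ) + t * I ∈ DD) {σ : ℝ} (hσ : σ ∈ Icc 0 s) :
    (σ : ℂ) + t * I ∈ DD ∧ ‖FF (σ + t * I)‖ ≤ ‖FF (s + t * I)‖ := by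
  have hall : ∀ σ ∈ Icc 0 s, (σ : ℂ) + t * I ∈ DD := by
    by_contra hc
    push Not at hc
    have hcont : Continuous (fun σ : ℝ => (σ : ℂ) + t * I) := by fun_prop
    set A := Icc 0 s ∩ (fun σ : ℝ => (σ : ℂ) + t * I) ⁻¹' DDᶜ with hA
    have hAc : IsCompact A := isCompact_Icc.inter_right (isOpen_DD.isClosed_compl.preimage hcont)
    obtain ⟨a, haA, hmax⟩ := hAc.exists_isGreatest (by
      obtain ⟨σ, h1, h2⟩ := hc; exact ⟨σ, h1, h2⟩)
    have has : a < s := lt_of_le_of_ne haA.1.2 fun e => haA.2 (by rw [e]; exact h)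
    have hD : ∀ σ ∈ Ioc a s, (σ : ℂ) + t * I ∈ DD := by
      intro σ hσ
      by_contra hn
      exact absurd (hmax ⟨⟨haA.1.1.trans hσ.1.le, hσ.2⟩, hn⟩) (not_le.mpr hσ.1)
    have hm := sq_mono (convex_Ioc a s) (fun σ hσ => haA.1.1.trans hσ.1.le) hD
    set r := ‖FF (s + t * I)‖ with hr
    have hr1 : r < 1 := norm_FF h
    have hK : IsClosed (psi '' closedBall 0 r) :=
      ((isCompact_closedBall 0 r).image_of_continuousOn
        (continuousOn_psi.mono (closedBall_subset_closedBall hr1.le))).isClosed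
    have hin : ∀ σ ∈ Ioc a s, (σ : ℂ) + t * I ∈ psi '' closedBall 0 r := by
      intro σ hσ
      refine ⟨FF (σ + t * I), ?_, psi_FF (hD σ hσ)⟩
      rw [mem_closedBall_zero_iff]
      exact le_of_sq_le_sq (hm hσ ⟨has, le_rfl⟩ hσ.2) (norm_nonneg _)
    have hcl : a ∈ closure (Ioc a s) := by rw [closure_Ioc has.ne]; exact ⟨le_rfl, has.le⟩
    have := closure_minimal (t := (fun σ : ℝ => (σ : ℂ) + t * I) ⁻¹' (psi '' closedBall 0 r))
      hin (hK.preimage hcont) hcl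
    exact haA.2 (image_mono (closedBall_subset_ball hr1) this)
  refine ⟨hall σ hσ, ?_⟩
  have hm := sq_mono (convex_Icc 0 s) (fun σ hσ => hσ.1) hall hσ ⟨hσ.1.trans hσ.2, le_rfl⟩ hσ.2
  exact le_of_sq_le_sq hm (norm_nonneg _)

noncomputable def gg (N : ℕ) (ζ : ℂ) : ℂ := 2 * FF ζ ^ (N + 1)

lemma analytic_gg (N : ℕ) : AnalyticOnNhd ℂ (gg N) DD := fun ζ h =>
  analyticAt_const.mul ((analytic_FF ζ h).pow _)

lemma norm_gg (N : ℕ) (ζ : ℂ) : ‖gg N ζ‖ = 2 * ‖FF ζ‖ ^ (N + 1) := by simp [gg]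

lemma norm_deriv_gg (N : ℕ) {ζ : ℂ} (h : ζ ∈ DD) : ‖deriv (gg N) ζ‖ ^ 2 =
    4 * ((N : ℝ) + 1) ^ 2 * (‖FF ζ‖ ^ 2) ^ N / ‖dpsi (FF ζ)‖ ^ 2 := by
  have h1 : HasDerivAt (gg N) (2 * (((N + 1 : ℕ) : ℂ) * FF ζ ^ (N + 1 - 1) * (dpsi (FF ζ))⁻¹)) ζ :=
    ((hasDerivAt_FF h).pow (N + 1)).const_mul 2
  rw [h1.deriv, norm_mul, norm_mul, norm_mul, norm_inv, norm_pow, Complex.norm_natCast,
    Nat.add_sub_cancel, ← pow_mul, mul_comm 2 N, pow_mul]
  simp; field_simp; ring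

def DD' (N : ℕ) : Set ℂ := {ζ | ζ ∈ DD ∧ ‖gg N ζ‖ < 1}

lemma isOpen_DD' (N : ℕ) : IsOpen (DD' N) :=
  (analytic_gg N).continuousOn.norm.isOpen_inter_preimage isOpen_DD isOpen_Iio

noncomputable def WW (N : ℕ) (ζ : ℂ) : ℝ := (DD' N).indicator (fun ζ => ‖deriv (gg N) ζ‖ ^ 2) ζ

lemma WW_nonneg (N : ℕ) (ζ : ℂ) : 0 ≤ WW N ζ := indicator_nonneg (fun _ _ => sq_nonneg _) _

lemma norm_dpsi_ge {w : ℂ} (hw : ‖w‖ < 1) : cc / 2 ≤ ‖dpsi w‖ :=
  (re_dpsi_ge hw).trans (Complex.re_le_norm _)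

lemma WW_le (N : ℕ) (ζ : ℂ) : WW N ζ ≤ 4 * ((N : ℝ) + 1) ^ 2 / (cc / 2) ^ 2 := by
  have := cc_pos
  by_cases h : ζ ∈ DD' N
  · rw [WW, indicator_of_mem h, norm_deriv_gg N h.1]
    have h1 := norm_FF h.1
    have h2 : (‖FF ζ‖ ^ 2) ^ N ≤ 1 :=
      pow_le_one₀ (sq_nonneg _) (pow_le_one₀ (norm_nonneg _) h1.le)
    exact div_le_div₀ (by positivity) (mul_le_of_le_one_right (by positivity) h2) (by positivity)
      (pow_le_pow_left₀ (by positivity) (norm_dpsi_ge h1) 2)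
  · rw [WW, indicator_of_notMem h]; positivity

lemma WW_neg (N : ℕ) (ζ : ℂ) : WW N (-ζ) = WW N ζ := by
  have key : ∀ ζ, ζ ∈ DD' N → -ζ ∈ DD' N := fun ζ h =>
    ⟨neg_mem_DD h.1, by rw [norm_gg, FF_neg h.1, norm_neg, ← norm_gg]; exact h.2⟩
  by_cases h : ζ ∈ DD' N
  · rw [WW, WW, indicator_of_mem h, indicator_of_mem (key ζ h), norm_deriv_gg N h.1,
      norm_deriv_gg N (neg_mem_DD h.1), FF_neg h.1, norm_neg, dpsi_neg]
  · rw [WW, WW, indicator_of_notMem h, indicator_of_notMem fun h' => h (by simpa using key _ h')]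

lemma contOn_W (N : ℕ) (t : ℝ) : ContinuousOn (fun σ : ℝ => ‖deriv (gg N) (σ + t * I)‖ ^ 2)
    ((fun σ : ℝ => (σ : ℂ) + t * I) ⁻¹' DD' N) :=
  (((analytic_gg N).deriv.continuousOn.comp (by fun_prop : Continuous
    fun σ : ℝ => (σ : ℂ) + t * I).continuousOn fun _ h => h.1).norm).pow 2

lemma meas_W (N : ℕ) (t : ℝ) : AEStronglyMeasurable (fun σ : ℝ => WW N (σ + t * I)) volume := by
  have hm : MeasurableSet ((fun σ : ℝ => (σ : ℂ) + t * I) ⁻¹' DD' N) :=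
    ((isOpen_DD' N).preimage (by fun_prop)).measurableSet
  exact (aestronglyMeasurable_indicator_iff hm).mpr ((contOn_W N t).aestronglyMeasurable hm)

lemma ii_W (N : ℕ) (t a b : ℝ) : IntervalIntegrable (fun σ : ℝ => WW N (σ + t * I)) volume a b := by
  rw [intervalIntegrable_iff]
  refine Measure.integrableOn_of_bounded (M := 4 * ((N : ℝ) + 1) ^ 2 / (cc / 2) ^ 2)
    (by simp [uIoc]) (meas_W N t) (Eventually.of_forall fun σ => ?_)
  rw [Real.norm_of_nonneg (WW_nonneg _ _)]; exact WW_le _ _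

noncomputable def pp (N : ℕ) (s t : ℝ) : ℝ := ∫ σ in (0 : ℝ)..s, WW N (σ + t * I)

lemma pp_mono (N : ℕ) (t : ℝ) : Monotone fun s => pp N s t := by
  intro a b hab
  have := intervalIntegral.integral_interval_sub_left (ii_W N t 0 b) (ii_W N t 0 a)
  have h2 : 0 ≤ ∫ σ in a..b, WW N (σ + t * I) :=
    intervalIntegral.integral_nonneg hab fun _ _ => WW_nonneg _ _
  simp only [pp]; linarith

lemma pp_deriv (N : ℕ) {s t : ℝ} (h : (s : ℂ) + t * I ∈ DD' N) :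
    HasDerivAt (fun s => pp N s t) (‖deriv (gg N) (s + t * I)‖ ^ 2) s := by
  have ho : (fun σ : ℝ => (σ : ℂ) + t * I) ⁻¹' DD' N ∈ 𝓝 s :=
    ((isOpen_DD' N).preimage (by fun_prop)).mem_nhds h
  have hc : ContinuousAt (fun σ : ℝ => WW N (σ + t * I)) s := by
    refine ((contOn_W N t).continuousAt ho).congr ?_
    filter_upwards [ho] with σ hσ
    exact (indicator_of_mem (show (σ : ℂ) + t * I ∈ DD' N from hσ)
      (fun ζ => ‖deriv (gg N) ζ‖ ^ 2)).symm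
  have := intervalIntegral.integral_hasDerivAt_right (ii_W N t 0 s)
    (meas_W N t).stronglyMeasurableAtFilter hc
  rwa [WW, indicator_of_mem h] at this

lemma pp_zero (N : ℕ) (t : ℝ) : pp N 0 t = 0 := by simp [pp]

lemma pp_neg (N : ℕ) (s t : ℝ) : pp N (-s) (-t) = -pp N s t := by
  have := intervalIntegral.integral_comp_neg (a := 0) (b := s)
    (fun σ : ℝ => WW N (σ + ((-t : ℝ) : ℂ) * I))
  rw [pp, pp, intervalIntegral.integral_symm, ← neg_zero, ← this, neg_zero]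
  congr 1
  refine intervalIntegral.integral_congr fun σ _ => ?_
  rw [← WW_neg]; congr 1; push_cast; ring

lemma pointwise {η A L θ : ℝ} (hη : 0 < η) (hA : A = Real.tan (π / 2 / (1 + η)) / 2) (hA0 : 0 < A)
    (hL : 0 < L) (hθ1 : θ < 1)
    (hθ : ∀ w : ℂ, ‖w‖ < 1 → ‖w ^ 2 + 1‖ ≤ (1 + 2 * A) * θ → L ≤ (dpsi w).re)
    (N : ℕ) {w : ℂ} (hw : ‖w‖ < 1) (hre : 0 ≤ w.re) :
    ((N : ℝ) + 1) ^ 2 * (‖w‖ ^ 2) ^ N ≤
      (1 + η) * (N + 1) * π / 4 * ((N + 1) * (‖w‖ ^ 2) ^ N * (2 * (w * dpsi w).re)) +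
      ((N : ℝ) + 1) ^ 2 / L * Real.exp (-(N * w.re / A)) * (dpsi w).re +
      ((N : ℝ) + 1) ^ 2 * (1 - θ) ^ N / (cc / 2) ^ 2 * ‖dpsi w‖ ^ 2 := by
  have hc := cc_pos
  have hq := re_q_nonneg hw hre
  have hd : 0 ≤ (dpsi w).re := le_trans (by positivity) (re_dpsi_ge hw)
  have t1 : 0 ≤ (1 + η) * (N + 1) * π / 4 * ((N + 1) * (‖w‖ ^ 2) ^ N * (2 * (w * dpsi w).re)) := by
    positivity
  have t2 : 0 ≤ ((N : ℝ) + 1) ^ 2 / L * Real.exp (-(N * w.re / A)) * (dpsi w).re := by positivity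
  have t3 : 0 ≤ ((N : ℝ) + 1) ^ 2 * (1 - θ) ^ N / (cc / 2) ^ 2 * ‖dpsi w‖ ^ 2 := by
    have : 0 ≤ 1 - θ := by linarith
    positivity
  by_cases h1 : A * (1 - ‖w‖ ^ 2) ≤ w.re
  · have hβ : |π / 2 / (1 + η)| < π / 2 := by
      rw [abs_of_pos (by positivity)]
      exact div_lt_self (by positivity) (by linarith)
    have h2 := re_mul_dpsi_ge hw hβ (by rw [hA] at h1; linarith)
    have h3 : cc / 2 * (π / 2 / (1 + η)) = 2 / (π * (1 + η)) := by unfold cc; field_simp; norm_num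
    rw [h3, div_le_iff₀ (by positivity)] at h2
    have h4 : 0 ≤ ((N : ℝ) + 1) ^ 2 * (‖w‖ ^ 2) ^ N := by positivity
    nlinarith [mul_le_mul_of_nonneg_left h2 h4]
  · push Not at h1
    by_cases h2 : 1 - ‖w‖ ^ 2 ≤ θ
    · have e : w ^ 2 + 1 = ((1 - ‖w‖ ^ 2 : ℝ) : ℂ) + ((2 * w.re : ℝ) : ℂ) * w := by
        rw [Complex.sq_norm, Complex.normSq_apply]
        apply Complex.ext <;> simp [sq] <;> ring
      have hx : 0 ≤ 1 - ‖w‖ ^ 2 := by nlinarith [norm_nonneg w]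
      have h3 : ‖w ^ 2 + 1‖ ≤ (1 + 2 * A) * θ := by
        rw [e]
        refine (norm_add_le _ _).trans ?_
        rw [norm_mul, Complex.norm_real, Complex.norm_real, Real.norm_of_nonneg hx,
          Real.norm_of_nonneg (by linarith)]
        nlinarith [norm_nonneg w]
      have h4 := hθ w hw h3
      have h5 : (‖w‖ ^ 2) ^ N ≤ Real.exp (-(N * w.re / A)) := by
        have h6 : ‖w‖ ^ 2 ≤ Real.exp (-(w.re / A)) := by
          have := Real.add_one_le_exp (-(w.re / A))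
          have h7 : w.re / A ≤ 1 - ‖w‖ ^ 2 := by rw [div_le_iff₀' hA0]; exact h1.le
          linarith
        refine (pow_le_pow_left₀ (sq_nonneg _) h6 N).trans (le_of_eq ?_)
        rw [← Real.exp_nat_mul]; congr 1; ring
      have h8 : ((N : ℝ) + 1) ^ 2 * (‖w‖ ^ 2) ^ N ≤
          ((N : ℝ) + 1) ^ 2 / L * Real.exp (-(N * w.re / A)) * (dpsi w).re := by
        calc _ ≤ ((N : ℝ) + 1) ^ 2 * Real.exp (-(N * w.re / A)) :=
              mul_le_mul_of_nonneg_left h5 (by positivity)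
          _ = ((N : ℝ) + 1) ^ 2 / L * Real.exp (-(N * w.re / A)) * L := by field_simp
          _ ≤ _ := mul_le_mul_of_nonneg_left h4 (by positivity)
      linarith
    · push Not at h2
      have h5 : (‖w‖ ^ 2) ^ N ≤ (1 - θ) ^ N := pow_le_pow_left₀ (sq_nonneg _) (by linarith) N
      have h6 : (cc / 2) ^ 2 ≤ ‖dpsi w‖ ^ 2 := pow_le_pow_left₀ (by positivity) (norm_dpsi_ge hw) 2
      have h0 : 0 ≤ 1 - θ := by linarith
      have h8 : ((N : ℝ) + 1) ^ 2 * (‖w‖ ^ 2) ^ N ≤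
          ((N : ℝ) + 1) ^ 2 * (1 - θ) ^ N / (cc / 2) ^ 2 * ‖dpsi w‖ ^ 2 := by
        calc _ ≤ ((N : ℝ) + 1) ^ 2 * (1 - θ) ^ N := mul_le_mul_of_nonneg_left h5 (by positivity)
          _ = ((N : ℝ) + 1) ^ 2 * (1 - θ) ^ N / (cc / 2) ^ 2 * (cc / 2) ^ 2 := by field_simp
          _ ≤ _ := mul_le_mul_of_nonneg_left h6 (by positivity)
      linarith

lemma pp_le_aux {η A L θ : ℝ} (hη : 0 < η) (hA : A = Real.tan (π / 2 / (1 + η)) / 2) (hA0 : 0 < A)
    (hL : 0 < L) (hθ1 : θ < 1)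
    (hθ : ∀ w : ℂ, ‖w‖ < 1 → ‖w ^ 2 + 1‖ ≤ (1 + 2 * A) * θ → L ≤ (dpsi w).re)
    {N : ℕ} (hN : 0 < N) {s t : ℝ} (hs : 0 ≤ s) (h : (s : ℂ) + t * I ∈ DD' N) :
    pp N s t ≤ (1 + η) * (N + 1) * π / 4 * ‖gg N (s + t * I)‖ ^ 2 +
      4 * (((N : ℝ) + 1) ^ 2 / L * (A / N)) +
      4 * (((N : ℝ) + 1) ^ 2 * (1 - θ) ^ N / (cc / 2) ^ 2) := by
  have hc := cc_pos
  have hN' : (0 : ℝ) < N := by exact_mod_cast hN
  set κ := (1 + η) * (N + 1) * π / 4 with hκ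
  set B := ((N : ℝ) + 1) ^ 2 / L with hB
  set C := ((N : ℝ) + 1) ^ 2 * (1 - θ) ^ N / (cc / 2) ^ 2 with hC
  have hC0 : 0 ≤ C := by
    have : 0 ≤ 1 - θ := by linarith
    positivity
  have hin : ∀ σ ∈ Icc 0 s, (σ : ℂ) + t * I ∈ DD' N := by
    intro σ hσ
    obtain ⟨h1, h2⟩ := slice h.1 hσ
    refine ⟨h1, lt_of_le_of_lt ?_ h.2⟩
    rw [norm_gg, norm_gg]; gcongr
  have hder : ∀ σ ∈ Icc 0 s, ∃ D, 0 ≤ D ∧ HasDerivAt (fun σ : ℝ =>
      4 * (κ * (‖FF (σ + t * I)‖ ^ 2) ^ (N + 1)) -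
      4 * (B * (A / N) * Real.exp (-(N * (FF (σ + t * I)).re / A))) + 4 * (C * σ) - pp N σ t)
      D σ := by
    intro σ hσ
    have hD := hin σ hσ
    have h1 := (((line_sq hD.1).pow (N + 1)).const_mul κ).const_mul 4
    have h2 := ((((((line_re hD.1).const_mul (N : ℝ)).div_const A).neg.exp).const_mul
      (B * (A / N))).const_mul 4)
    have h3 := ((hasDerivAt_id σ).const_mul C).const_mul 4
    refine ⟨_, ?_, ((h1.sub h2).add h3).sub (pp_deriv N hD)⟩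
    have hw := norm_FF hD.1
    have hp := pointwise hη hA hA0 hL hθ1 hθ N hw (re_FF_nonneg hD.1 (by simpa using hσ.1))
    rw [norm_deriv_gg N hD.1]
    set w := FF (σ + t * I)
    have hd : 0 < ‖dpsi w‖ ^ 2 := pow_pos (lt_of_lt_of_le (by positivity) (norm_dpsi_ge hw)) 2
    have := div_nonneg (mul_nonneg (show (0 : ℝ) ≤ 4 by norm_num) (sub_nonneg.mpr hp)) hd.le
    refine le_of_le_of_eq this ?_
    have hne : ‖dpsi w‖ ≠ 0 := fun h0 => by simp [h0] at hd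
    simp only [Nat.add_sub_cancel, Pi.neg_apply, hκ, hB, hC]
    push_cast
    field_simp
    ring
  have hm := monotoneOn_of_deriv_nonneg (convex_Icc 0 s)
    (fun σ hσ => (hder σ hσ).choose_spec.2.continuousAt.continuousWithinAt)
    (fun σ hσ => (hder σ (interior_subset hσ)).choose_spec.2.differentiableAt.differentiableWithinAt)
    (fun σ hσ => by
      rw [(hder σ (interior_subset hσ)).choose_spec.2.deriv]
      exact (hder σ (interior_subset hσ)).choose_spec.1)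
    (left_mem_Icc.mpr hs) (right_mem_Icc.mpr hs) hs
  simp only [pp_zero] at hm
  have hs1 : s ≤ 1 := by
    have := (Complex.re_le_norm _).trans (norm_le_of_mem h.1)
    simpa using this
  have e1 : ‖gg N (s + t * I)‖ ^ 2 = 4 * (‖FF (s + t * I)‖ ^ 2) ^ (N + 1) := by
    rw [norm_gg, mul_pow, ← pow_mul, ← pow_mul, mul_comm (N + 1) 2]; norm_num
  have b1 : 0 ≤ κ * (‖FF (((0 : ℝ) : ℂ) + t * I)‖ ^ 2) ^ (N + 1) := by positivity
  have hBA : 0 ≤ B * (A / N) := by positivity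
  have b2 : B * (A / N) * Real.exp (-(N * (FF (((0 : ℝ) : ℂ) + t * I)).re / A)) ≤ B * (A / N) := by
    refine mul_le_of_le_one_right hBA (Real.exp_le_one_iff.mpr ?_)
    have := re_FF_nonneg (hin 0 (left_mem_Icc.mpr hs)).1 (by simp)
    exact neg_nonpos.mpr (by positivity)
  have b3 : 0 ≤ B * (A / N) * Real.exp (-(N * (FF ((s : ℂ) + t * I)).re / A)) := by positivity
  have b4 : C * s ≤ C := mul_le_of_le_one_right hC0 hs1
  rw [e1]
  nlinarith

theorem pp_bound {η : ℝ} (hη : 0 < η) : ∀ᶠ N : ℕ in atTop, ∀ ζ ∈ DD' N,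
    |pp N ζ.re ζ.im| ≤ (1 + η) * (N + 1) * π / 4 * ‖gg N ζ‖ ^ 2 + η * (N + 1) := by
  have hc := cc_pos
  set A := Real.tan (π / 2 / (1 + η)) / 2 with hA
  have hA0 : 0 < A := half_pos (Real.tan_pos_of_pos_of_lt_pi_div_two (by positivity)
    (div_lt_self (by positivity) (by linarith)))
  set L := 16 * A / η with hL
  have hL0 : 0 < L := by positivity
  obtain ⟨θ0, hθ0, hθ⟩ := re_dpsi_large L
  set θ := min (1 / 2) (θ0 / (1 + 2 * A)) with hθd
  have hθp : 0 < θ := lt_min (by norm_num) (by positivity)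
  have hθ1 : θ < 1 := lt_of_le_of_lt (min_le_left _ _) (by norm_num)
  have hθ2 : (1 + 2 * A) * θ ≤ θ0 := by
    rw [← le_div_iff₀' (by positivity)]; exact min_le_right _ _
  have hlim : Tendsto (fun N : ℕ => 4 * (((N : ℝ) * (1 - θ) ^ N + (1 - θ) ^ N) / (cc / 2) ^ 2))
      atTop (𝓝 (4 * ((0 + 0) / (cc / 2) ^ 2))) :=
    (((tendsto_self_mul_const_pow_of_lt_one (by linarith) (by linarith)).add
      (tendsto_pow_atTop_nhds_zero_of_lt_one (by linarith) (by linarith))).div_const _).const_mul 4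
  have hev := hlim.eventually (gt_mem_nhds (show 4 * ((0 + 0) / (cc / 2) ^ 2) < η / 2 by
    simpa using hη))
  filter_upwards [hev, eventually_gt_atTop 0] with N hN1 hN
  have hN' : (1 : ℝ) ≤ N := by exact_mod_cast hN
  have key : ∀ s t : ℝ, 0 ≤ s → (s : ℂ) + t * I ∈ DD' N → pp N s t ≤
      (1 + η) * (N + 1) * π / 4 * ‖gg N (s + t * I)‖ ^ 2 + η * (N + 1) := by
    intro s t hs h
    have h1 := pp_le_aux hη hA hA0 hL0 hθ1 (fun w hw h => hθ w hw (h.trans hθ2)) hN hs h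
    have h2 : 4 * (((N : ℝ) + 1) ^ 2 / L * (A / N)) ≤ η / 2 * (N + 1) := by
      have : 4 * (((N : ℝ) + 1) ^ 2 / L * (A / N)) = η / 2 * (N + 1) * ((N + 1) / (2 * N)) := by
        rw [hL]; field_simp; norm_num
      rw [this]
      refine mul_le_of_le_one_right (by positivity) ?_
      rw [div_le_one (by positivity)]; linarith
    have h3 : 4 * (((N : ℝ) + 1) ^ 2 * (1 - θ) ^ N / (cc / 2) ^ 2) ≤ η / 2 * (N + 1) := by
      have := mul_le_mul_of_nonneg_right hN1.le (show (0 : ℝ) ≤ N + 1 by positivity)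
      refine le_of_eq_of_le ?_ this
      ring
    linarith
  intro ζ hζ
  rcases le_total 0 ζ.re with h | h
  · have h0 : 0 ≤ pp N ζ.re ζ.im := by
      have := pp_mono N ζ.im h; simpa [pp_zero] using this
    have := key ζ.re ζ.im h (by rwa [Complex.re_add_im])
    rwa [Complex.re_add_im, ← abs_of_nonneg h0] at this
  · have h0 : pp N ζ.re ζ.im ≤ 0 := by
      have := pp_mono N ζ.im h; simpa [pp_zero] using this
    have e : (((-ζ.re : ℝ) : ℂ) + ((-ζ.im : ℝ) : ℂ) * I) = -ζ := by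
      apply Complex.ext <;> simp
    have hn : ‖gg N (-ζ)‖ = ‖gg N ζ‖ := by rw [norm_gg, FF_neg hζ.1, norm_neg, ← norm_gg]
    have := key (-ζ.re) (-ζ.im) (by linarith) (by
      rw [e]; exact ⟨neg_mem_DD hζ.1, by rw [hn]; exact hζ.2⟩)
    rwa [e, hn, pp_neg, ← abs_of_nonpos h0] at this

lemma pp_sign (N : ℕ) {ζ : ℂ} (h : ζ ∈ DD) : 0 ≤ pp N ζ.re ζ.im * (FF ζ).re := by
  rcases le_total 0 ζ.re with h1 | h1
  · have h0 : 0 ≤ pp N ζ.re ζ.im := by
      have := pp_mono N ζ.im h1; simpa [pp_zero] using this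
    exact mul_nonneg h0 (re_FF_nonneg h h1)
  · have h0 : pp N ζ.re ζ.im ≤ 0 := by
      have := pp_mono N ζ.im h1; simpa [pp_zero] using this
    have h2 := re_FF_nonneg (neg_mem_DD h) (by simpa using h1)
    rw [FF_neg h] at h2
    exact mul_nonneg_of_nonpos_of_nonpos h0 (by simpa using h2)

end Vale.Agent.P248
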