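import Vale.Agent.P248.Approx
import Vale.Agent.P248.Defs

/-! Passing to the limit. -/

namespace Vale.Agent.P248

open MeasureTheory Filter Topology Complex Set Metric
open scoped Matrix Real Pointwise

variable {n : ℕ}

structure SB (K : Set (Fin n → ℝ)) : Prop where
  cpt : IsCompact K
  cvx : Convex ℝ K
  symm : ∀ x ∈ K, -x ∈ K
  nhds : K ∈ 𝓝 (0 : Fin n → ℝ)

lemma abs_dot_le (a y : Fin n → ℝ) : |a ⬝ᵥ y| ≤ n * (‖a‖ * ‖y‖) := by
  refine (Finset.abs_sum_le_sum_abs _ _).trans ?_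
  calc _ ≤ ∑ _i : Fin n, ‖a‖ * ‖y‖ := Finset.sum_le_sum fun i _ => by
          rw [abs_mul]
          exact mul_le_mul (norm_le_pi_norm a i) (norm_le_pi_norm y i) (abs_nonneg _)
            (norm_nonneg _)
    _ = _ := by simp

lemma convex_polar (K : Set (Fin n → ℝ)) : Convex ℝ (polar K) := by
  intro a ha b hb s t hs ht hst x hx
  rw [add_dotProduct, smul_dotProduct, smul_dotProduct, smul_eq_mul, smul_eq_mul]
  nlinarith [ha x hx, hb x hx]

lemma isClosed_polar (K : Set (Fin n → ℝ)) : IsClosed (polar K) := by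
  have : polar K = ⋂ x ∈ K, {y | y ⬝ᵥ x ≤ 1} := by ext y; simp [polar]
  rw [this]
  exact isClosed_biInter fun x _ => isClosed_le (by fun_prop) continuous_const

lemma SB.abs_le {K : Set (Fin n → ℝ)} (h : SB K) {a x : Fin n → ℝ} (ha : a ∈ polar K)
    (hx : x ∈ K) : |a ⬝ᵥ x| ≤ 1 := by
  have h1 := ha _ (h.symm x hx)
  rw [dotProduct_neg] at h1
  exact _root_.abs_le.mpr ⟨by linarith, ha x hx⟩

lemma SB.pol {K : Set (Fin n → ℝ)} (h : SB K) : SB (polar K) := by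
  obtain ⟨R, hR0, hR⟩ := h.cpt.isBounded.exists_pos_norm_le
  obtain ⟨ρ, hρ, hb⟩ := Metric.nhds_basis_closedBall.mem_iff.mp h.nhds
  refine ⟨isCompact_of_isClosed_isBounded (isClosed_polar K) ?_, convex_polar K, ?_, ?_⟩
  · refine (isBounded_closedBall (x := (0 : Fin n → ℝ)) (r := ρ⁻¹)).subset fun a ha => ?_
    rw [mem_closedBall_zero_iff, pi_norm_le_iff_of_nonneg (by positivity)]
    intro i
    have := h.abs_le ha (hb (mem_closedBall_zero_iff.mpr
      (show ‖(Pi.single i ρ : Fin n → ℝ)‖ ≤ ρ by rw [Pi.norm_single, Real.norm_of_nonneg hρ.le])))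
    rw [dotProduct_single, abs_mul, abs_of_pos hρ] at this
    rw [Real.norm_eq_abs, ← one_div, le_div_iff₀ hρ]; exact this
  · intro a ha x hx
    rw [neg_dotProduct, ← dotProduct_neg]; exact ha _ (h.symm x hx)
  · refine mem_of_superset (closedBall_mem_nhds 0 (show 0 < 1 / ((n + 1) * R) by positivity)) ?_
    intro a ha x hx
    rw [mem_closedBall_zero_iff, le_div_iff₀ (by positivity)] at ha
    have h1 := (le_abs_self _).trans (abs_dot_le a x)
    have h2 := mul_le_mul_of_nonneg_left (hR x hx) (norm_nonneg a)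
    nlinarith [mul_nonneg (norm_nonneg a) hR0.le, mul_le_mul_of_nonneg_left h2 (Nat.cast_nonneg n)]

lemma exists_dot (f : (Fin n → ℝ) →L[ℝ] ℝ) : ∃ a : Fin n → ℝ, ∀ x, f x = a ⬝ᵥ x :=
  ⟨fun i => f (Pi.single i 1), fun x => by
    conv_lhs => rw [pi_eq_sum_univ' x]
    simp only [map_sum, map_smul, smul_eq_mul, dotProduct]
    exact Finset.sum_congr rfl fun i _ => mul_comm _ _⟩

lemma SB.bipolar {K : Set (Fin n → ℝ)} (h : SB K) : polar (polar K) = K := by
  refine Subset.antisymm (fun y hy => ?_) fun x hx a ha => by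
    rw [dotProduct_comm]; exact ha x hx
  by_contra hn
  obtain ⟨f, u, h1, h2⟩ := geometric_hahn_banach_closed_point h.cvx h.cpt.isClosed hn
  obtain ⟨a, ha⟩ := exists_dot f
  have hu : 0 < u := by simpa using h1 0 (mem_of_mem_nhds h.nhds)
  have h3 := hy (u⁻¹ • a) fun x hx => by
    rw [smul_dotProduct, smul_eq_mul, ← ha, inv_mul_le_iff₀ hu, mul_one]; exact (h1 x hx).le
  rw [dotProduct_smul, smul_eq_mul, dotProduct_comm, ← ha, inv_mul_le_iff₀ hu, mul_one] at h3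
  linarith

lemma mem_smul_polar {K : Set (Fin n → ℝ)} {c : ℝ} (hc : 0 < c) {a : Fin n → ℝ}
    (h : ∀ x ∈ K, a ⬝ᵥ x ≤ c) : a ∈ c • polar K := by
  rw [mem_smul_set_iff_inv_smul_mem₀ hc.ne']
  intro x hx
  rw [smul_dotProduct, smul_eq_mul, inv_mul_le_iff₀ hc, mul_one]; exact h x hx

/-- finite nets in a norming set -/
lemma net {K 𝒜 : Set (Fin n → ℝ)} (h : SB K) (h1 : 𝒜 ⊆ polar K) (h2 : polar 𝒜 = K) :
    ∃ C > 0, ∀ η > 0, C * η ≤ 1 → ∃ s : Finset (Fin n → ℝ), (∀ a ∈ s, a ∈ 𝒜) ∧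
      (∀ a ∈ 𝒜, ∃ b ∈ s, ‖a - b‖ ≤ η) ∧
      (∀ y, (∀ j : s, |j.1 ⬝ᵥ y| ≤ 1) → ‖y‖ ≤ C) ∧
      ∀ y, ∀ P ∈ Lam (fun j : s => j.1) η y, y ∈ (1 + C * η) • K ∧ P ∈ (1 + C * η) • polar K := by
  obtain ⟨R, hR0, hR⟩ := h.cpt.isBounded.exists_pos_norm_le
  refine ⟨2 * (n + 1) * R, by positivity, fun η hη hC => ?_⟩
  obtain ⟨t, ht1, ht2, ht3⟩ := Metric.finite_approx_of_totallyBounded
    (h.pol.cpt.totallyBounded.subset h1) η hη
  lift t to Finset (Fin n → ℝ) using ht2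
  have hnet : ∀ a ∈ 𝒜, ∃ b ∈ t, ‖a - b‖ ≤ η := by
    intro a ha
    have := ht3 ha
    simp only [mem_iUnion, mem_ball, dist_eq_norm] at this
    obtain ⟨b, hb, hab⟩ := this
    exact ⟨b, hb, hab.le⟩
  have key : ∀ y, (∀ j : t, |j.1 ⬝ᵥ y| ≤ 1) → ‖y‖ ≤ 2 * R ∧
      y ∈ (1 + 2 * (n + 1) * R * η) • K := by
    intro y hy
    have h3 : ∀ a ∈ 𝒜, y ⬝ᵥ a ≤ 1 + n * (η * ‖y‖) := by
      intro a ha
      obtain ⟨b, hb, hab⟩ := hnet a ha
      have e : y ⬝ᵥ a = b ⬝ᵥ y + (a - b) ⬝ᵥ y := by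
        rw [sub_dotProduct, dotProduct_comm y a]; ring
      have h4 := (le_abs_self _).trans (hy ⟨b, hb⟩)
      have h5 := (le_abs_self _).trans (abs_dot_le (a - b) y)
      have h6 : (n : ℝ) * (‖a - b‖ * ‖y‖) ≤ n * (η * ‖y‖) := by gcongr
      linarith
    have h4 := mem_smul_polar (by positivity) h3
    rw [h2] at h4
    obtain ⟨x, hx, hxy⟩ := h4
    have h5 : ‖y‖ ≤ (1 + n * (η * ‖y‖)) * R := by
      conv_lhs => rw [← hxy]
      rw [norm_smul, Real.norm_of_nonneg (by positivity)]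
      exact mul_le_mul_of_nonneg_left (hR x hx) (by positivity)
    have h6 : ‖y‖ ≤ 2 * R := by
      nlinarith [mul_le_mul_of_nonneg_right hC (norm_nonneg y),
        mul_nonneg (mul_nonneg hR0.le hη.le) (norm_nonneg y)]
    refine ⟨h6, ?_⟩
    rw [← h2]
    refine mem_smul_polar (by positivity) fun a ha => (h3 a ha).trans ?_
    have : (n : ℝ) * (η * ‖y‖) ≤ n * (η * (2 * R)) := by gcongr
    nlinarith [mul_nonneg hR0.le hη.le]
  refine ⟨t, ht1, hnet, fun y hy => (key y hy).1.trans (by nlinarith [Nat.cast_nonneg (α := ℝ) n]),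
    ?_⟩
  rintro y P ⟨x, w, τ, h3, h4, h5⟩
  refine ⟨(key y fun j => ?_).2, mem_smul_polar (by positivity) fun v hv => ?_⟩
  · have := (Complex.abs_im_le_norm _).trans (norm_psi_le (h3 j).1.le)
    rwa [(h3 j).2.1, zt_im] at this
  · have e : P ⬝ᵥ v = (P - ∑ j, τ j • j.1) ⬝ᵥ v + ∑ j, τ j * (j.1 ⬝ᵥ v) := by
      rw [sub_dotProduct, sum_dotProduct]; simp
    have h6 := (le_abs_self _).trans (abs_dot_le (P - ∑ j, τ j • j.1) v)
    have h7 : (n : ℝ) * (‖P - ∑ j, τ j • j.1‖ * ‖v‖) ≤ n * (η * R) := by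
      gcongr; exact hR v hv
    have h8 : ∑ j, τ j * (j.1 ⬝ᵥ v) ≤ ∑ j, |τ j| := Finset.sum_le_sum fun j _ => by
      refine (le_abs_self _).trans ?_
      rw [abs_mul]
      exact mul_le_of_le_one_right (abs_nonneg _) (h.abs_le (h1 (ht1 j.2)) hv)
    nlinarith [mul_nonneg hR0.le hη.le]

lemma lim_aux {a b : ENNReal} {C : ℝ} (hC : 0 < C) (p q : ℕ)
    (h : ∀ η > 0, η < 1 → C * η ≤ 1 →
      a ≤ ENNReal.ofReal ((1 + η) ^ p * (1 + C * η) ^ q) * b) (hb : b ≠ ⊤) : a ≤ b := by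
  have h1 : Tendsto (fun η : ℝ => ENNReal.ofReal ((1 + η) ^ p * (1 + C * η) ^ q) * b) (𝓝[>] 0)
      (𝓝 (ENNReal.ofReal ((1 + 0) ^ p * (1 + C * 0) ^ q) * b)) := by
    refine ENNReal.Tendsto.mul_const (tendsto_nhdsWithin_of_tendsto_nhds ?_) (Or.inr hb)
    exact (ENNReal.continuous_ofReal.comp (by fun_prop : Continuous fun η : ℝ =>
      (1 + η) ^ p * (1 + C * η) ^ q)).tendsto 0
  simp only [add_zero, mul_zero, one_pow, mul_one, ENNReal.ofReal_one, one_mul] at h1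
  refine ge_of_tendsto h1 ?_
  filter_upwards [Ioo_mem_nhdsGT (show 0 < min 1 (1 / C) by positivity)] with η hη
  refine h η hη.1 (hη.2.trans_le (min_le_left _ _)) ?_
  have := hη.2.trans_le (min_le_right _ _)
  rw [lt_div_iff₀' hC] at this
  exact this.le

lemma avoid {K L : Set (Fin n → ℝ)} (hK : MeasurableSet K) {c : ℝ} (hc : 1 ≤ c)
    (hK' : K ⊆ c • K) (hL' : L ⊆ c • L) {Λ : (Fin n → ℝ) → Set (Fin n → ℝ)}
    (hΛ : ∀ y, ∀ P ∈ Λ y, y ∈ c • K ∧ P ∈ c • L) {B₁ B₂ : Set (Fin n → ℝ)}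
    (h₁ : MeasurableSet B₁) (h₂ : MeasurableSet B₂) (h : ∀ y ∈ B₁, ∀ P ∈ Λ y, P ∉ B₂) :
    (∫⁻ y, volume (Λ y)) + volume (L ∩ B₂) * volume (K ∩ B₁) ≤
      ENNReal.ofReal (c ^ (2 * n)) * (volume K * volume L) := by
  have hc0 : 0 < c := by linarith
  have e : ENNReal.ofReal (c ^ (2 * n)) * (volume K * volume L) =
      volume (c • L) * volume (c • K) := by
    rw [Measure.addHaar_smul, Measure.addHaar_smul, Module.finrank_fin_fun,
      abs_of_pos (by positivity), two_mul, pow_add, ENNReal.ofReal_mul (by positivity)]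
    ring
  rw [e, ← lintegral_indicator_const (hK.inter h₁), ← lintegral_indicator_const (hK.const_smul₀ c),
    ← lintegral_add_right _ (measurable_const.indicator (hK.inter h₁))]
  refine lintegral_mono fun y => ?_
  by_cases hy : y ∈ K ∩ B₁
  · rw [indicator_of_mem hy, indicator_of_mem (hK' hy.1), ← measure_inter_add_diff (c • L) h₂,
      add_comm]
    exact add_le_add (measure_mono (inter_subset_inter_left _ hL'))
      (measure_mono fun P hP => ⟨(hΛ y P hP).2, h y hy.2 P hP⟩)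
  · rw [indicator_of_notMem hy, add_zero]
    by_cases hy' : y ∈ c • K
    · rw [indicator_of_mem hy']
      exact measure_mono fun P hP => (hΛ y P hP).2
    · have : Λ y = ∅ := eq_empty_of_forall_notMem fun P hP => hy' (hΛ y P hP).1
      simp [this]

lemma SB.sub_smul {K : Set (Fin n → ℝ)} (h : SB K) {c : ℝ} (hc : 1 ≤ c) : K ⊆ c • K := by
  intro x hx
  rw [mem_smul_set_iff_inv_smul_mem₀ (by linarith)]
  exact h.cvx.smul_mem_of_zero_mem (mem_of_mem_nhds h.nhds) hx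
    ⟨by positivity, inv_le_one_of_one_le₀ hc⟩

theorem SB.mahler {k : ℕ} {K : Set (Fin (k + 1) → ℝ)} (h : SB K) :
    ENNReal.ofReal (4 ^ (k + 1) / ((k + 1).factorial : ℝ)) ≤ volume K * volume (polar K) := by
  obtain ⟨C, hC, hnet⟩ := net h subset_rfl h.bipolar
  refine lim_aux hC (k + 1) (2 * (k + 1)) (fun η hη hη1 hCη => ?_)
    (ENNReal.mul_ne_top h.cpt.measure_lt_top.ne h.pol.cpt.measure_lt_top.ne)
  obtain ⟨s, -, -, h3, h4⟩ := hnet η hη hCη
  have hc : 1 ≤ 1 + C * η := by nlinarith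
  have := avoid h.cpt.measurableSet hc (h.sub_smul hc) (h.pol.sub_smul hc) h4
    MeasurableSet.empty MeasurableSet.empty (by simp)
  rw [ENNReal.ofReal_mul (by positivity), mul_assoc]
  exact (approx _ h3 hη hη1).trans (mul_le_mul_right (le_self_add.trans this) _)

lemma SB.of {K : Set (Fin n → ℝ)} (h1 : IsCompact K) (h2 : Convex ℝ K)
    (h3 : (interior K).Nonempty) (h4 : ∀ x ∈ K, -x ∈ K) : SB K := by
  refine ⟨h1, h2, h4, mem_interior_iff_mem_nhds.mp ?_⟩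
  obtain ⟨x, hx⟩ := h3
  have := h2.combo_interior_self_mem_interior hx (h4 x (interior_subset hx)) one_half_pos
    one_half_pos.le (add_halves 1)
  simpa using this

end Vale.Agent.P248
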