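import Vale.Agent.P248.Mono

/-! The lower bound for the total mass. -/

namespace Vale.Agent.P248

open MeasureTheory Filter Topology Complex Set
open scoped Matrix Real

variable {n : ℕ}

lemma integral_prod_coord (F : ℂ → ℝ) :
    ∫ z : EE n, ∏ i, F (zt (Pi.single i 1) z) = (∫ w : ℂ, F w) ^ n := by
  have h1 := (volume_measurePreserving_arrowProdEquivProdArrow ℝ ℝ (Fin n)).integral_comp'
    (fun z : EE n => ∏ i, F (zt (Pi.single i 1) z))
  rw [← h1]
  have h2 := integral_fintype_prod_volume_eq_pow (ι := Fin n)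
    (fun p : ℝ × ℝ => F (Complex.measurableEquivRealProd.symm p))
  rw [Fintype.card_fin, Complex.volume_preserving_equiv_real_prod.symm.integral_comp' F] at h2
  rw [← h2]
  refine integral_congr_ae (Eventually.of_forall fun x => Finset.prod_congr rfl fun i _ => ?_)
  congr 1
  apply Complex.ext <;>
    simp [zt, MeasurableEquiv.arrowProdEquivProdArrow, Equiv.arrowProdEquivProdArrow]

lemma radial (m : ℕ) {lam r : ℝ} (hl : 0 < lam) (hr : 0 < r) :
    ∫ w : ℂ, (Iic r).indicator (fun y : ℝ => Real.exp (-(lam * y ^ (2 * (m + 1)))) *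
      (((m : ℝ) + 1) ^ 2 * y ^ (2 * m))) ‖w‖ =
      π * (m + 1) * (1 - Real.exp (-(lam * r ^ (2 * (m + 1))))) / lam := by
  rw [integral_fun_norm_addHaar (volume : Measure ℂ)]
  simp only [Complex.finrank_real_complex, measureReal_def, Complex.volume_ball]
  have h1 : ∫ y in Ioi (0 : ℝ), y ^ (2 - 1) • (Iic r).indicator (fun y : ℝ =>
      Real.exp (-(lam * y ^ (2 * (m + 1)))) * (((m : ℝ) + 1) ^ 2 * y ^ (2 * m))) y =
      ∫ y in (0 : ℝ)..r, y * (Real.exp (-(lam * y ^ (2 * (m + 1)))) *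
        (((m : ℝ) + 1) ^ 2 * y ^ (2 * m))) := by
    rw [intervalIntegral.integral_of_le hr.le, ← Set.Ioi_inter_Iic,
      ← setIntegral_indicator measurableSet_Iic]
    refine integral_congr_ae (Eventually.of_forall fun y => ?_)
    by_cases h : y ∈ Iic r <;> simp [h]
  have h2 : ∀ y ∈ uIcc (0 : ℝ) r, HasDerivAt
      (fun y : ℝ => -(((m : ℝ) + 1) / (2 * lam)) * Real.exp (-(lam * y ^ (2 * (m + 1)))))
      (y * (Real.exp (-(lam * y ^ (2 * (m + 1)))) * (((m : ℝ) + 1) ^ 2 * y ^ (2 * m)))) y := by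
    intro y _
    refine ((((hasDerivAt_pow (2 * (m + 1)) y).const_mul lam).neg.exp).const_mul
      (-(((m : ℝ) + 1) / (2 * lam)))).congr_deriv ?_
    have : 2 * (m + 1) - 1 = 2 * m + 1 := by omega
    rw [this]
    simp only [Pi.neg_apply]
    push_cast
    field_simp
    ring
  rw [h1, intervalIntegral.integral_eq_sub_of_hasDerivAt h2
    (Continuous.intervalIntegrable (by fun_prop) _ _)]
  simp
  field_simp
  ring

lemma exp_le_one_sub {δ s : ℝ} (hδ : 0 < δ) (hs : 0 ≤ s) (h : (1 + δ) * s ≤ δ) :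
    Real.exp (-((1 + δ) * s)) ≤ 1 - s := by
  have h1 : (1 + δ) * s + 1 ≤ Real.exp ((1 + δ) * s) := Real.add_one_le_exp _
  have h2 : 0 < (1 + δ) * s + 1 := by positivity
  rw [Real.exp_neg]
  calc (Real.exp ((1 + δ) * s))⁻¹ ≤ ((1 + δ) * s + 1)⁻¹ := inv_anti₀ h2 h1
    _ ≤ 1 - s := by
      rw [inv_le_iff_one_le_mul₀ h2]; nlinarith

variable {J : Type} [Fintype J]

/-- hypotheses on the coordinate part -/
structure Coord (X : Dat n J) (m : ℕ) (ε : ℝ) where
  ι : Fin n → J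
  ha : ∀ i, X.a (ι i) = Pi.single i 1
  hh : ∀ i z, X.hh z (ι i) = ε ^ 2 * (((m : ℝ) + 1) ^ 2 * ‖zt (Pi.single i 1) z‖ ^ (2 * m))
  hloc : ∀ δ > 0, ∃ r > 0, ∀ z : EE n, (∀ i, ‖zt (Pi.single i 1) z‖ ≤ r) →
    z ∈ X.Om ∧ X.Ph z ≤ (1 + δ) * ∑ i, ε ^ 2 * ‖zt (Pi.single i 1) z‖ ^ (2 * (m + 1))

lemma II_lower (X : Dat n J) (hQ : IsCompact X.Q) {m : ℕ} {ε : ℝ} (hε : 0 < ε) (C : Coord X m ε)
    {δ : ℝ} (hδ : 0 < δ) : ∃ r > 0, ∀ q > 0,
    (π * (m + 1) * (1 - Real.exp (-((1 + δ) ^ 2 * q * ε ^ 2 * r ^ (2 * (m + 1))))) /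
      ((1 + δ) ^ 2 * q)) ^ n ≤ X.II q := by
  obtain ⟨r0, hr0, hloc⟩ := C.hloc δ hδ
  set r := min r0 (min 1 (δ / ((1 + δ) ^ 2 * (n * ε ^ 2 + 1)))) with hr
  have hrpos : 0 < r := lt_min hr0 (lt_min one_pos (by positivity))
  have hr1 : r ≤ 1 := (min_le_right _ _).trans (min_le_left _ _)
  have hr2 : r ≤ δ / ((1 + δ) ^ 2 * (n * ε ^ 2 + 1)) := (min_le_right _ _).trans (min_le_right _ _)
  refine ⟨r, hrpos, fun q hq => ?_⟩
  set lam := (1 + δ) ^ 2 * q * ε ^ 2 with hlam
  have hlpos : 0 < lam := by positivity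
  set F : ℂ → ℝ := fun w => ε ^ 2 * (Iic r).indicator (fun y : ℝ =>
    Real.exp (-(lam * y ^ (2 * (m + 1)))) * (((m : ℝ) + 1) ^ 2 * y ^ (2 * m))) ‖w‖ with hF
  have hF0 : ∀ w, 0 ≤ F w := fun w => mul_nonneg (sq_nonneg _) (by
    by_cases h : ‖w‖ ∈ Iic r
    · rw [indicator_of_mem h]; positivity
    · rw [indicator_of_notMem h])
  have hI : ∫ w, F w = π * (m + 1) * (1 - Real.exp (-(lam * r ^ (2 * (m + 1))))) /
      ((1 + δ) ^ 2 * q) := by
    rw [hF, integral_const_mul, radial m hlpos hrpos, hlam]; field_simp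
  rw [← hI, ← integral_prod_coord, Dat.II, ← integral_indicator hQ.isClosed.measurableSet]
  refine integral_mono_of_nonneg (Eventually.of_forall fun z => Finset.prod_nonneg fun i _ => hF0 _)
    ((integrable_indicator_iff hQ.isClosed.measurableSet).mpr (X.integrableOn_II hQ hq))
    (Eventually.of_forall fun z => ?_)
  by_cases hz : ∀ i, ‖zt (Pi.single i 1) z‖ ≤ r
  · obtain ⟨hOm, hPh⟩ := hloc z fun i => (hz i).trans (min_le_left _ _)
    set S := ∑ i, ε ^ 2 * ‖zt (Pi.single i 1) z‖ ^ (2 * (m + 1)) with hS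
    have hS0 : 0 ≤ S := Finset.sum_nonneg fun i _ => by positivity
    have hS1 : S ≤ n * ε ^ 2 * r := by
      calc S ≤ ∑ _i : Fin n, ε ^ 2 * r := Finset.sum_le_sum fun i _ =>
            mul_le_mul_of_nonneg_left ((pow_le_pow_left₀ (norm_nonneg _) (hz i) _).trans
              (pow_le_of_le_one hrpos.le hr1 (by omega))) (sq_nonneg _)
        _ = n * ε ^ 2 * r := by simp [mul_assoc]
    have hS2 : (1 + δ) * ((1 + δ) * S) ≤ δ := by
      rw [le_div_iff₀ (by positivity)] at hr2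
      have : (1 + δ) ^ 2 * S ≤ (1 + δ) ^ 2 * ((n * ε ^ 2 + 1) * r) :=
        mul_le_mul_of_nonneg_left (by nlinarith) (by positivity)
      nlinarith
    have hE := exp_le_one_sub hδ (by positivity) hS2
    have hEpos := Real.exp_pos (-((1 + δ) * ((1 + δ) * S)))
    have hzQ : z ∈ X.Q := ⟨hOm, by linarith⟩
    simp only
    rw [indicator_of_mem hzQ]
    have h1 : Real.exp (-(lam * ∑ i, ‖zt (Pi.single i 1) z‖ ^ (2 * (m + 1)))) ≤
        chi q (1 - X.Ph z) := by
      rw [chi, max_eq_left (by linarith)]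
      refine le_trans (le_of_eq ?_) (Real.rpow_le_rpow hEpos.le (hE.trans (by linarith)) hq.le)
      rw [← Real.exp_mul, hS, ← Finset.mul_sum, hlam]; ring_nf
    have h2 := prod_le_det X.a (X.hh_nonneg z) C.ι C.ha
    calc ∏ i, F (zt (Pi.single i 1) z) =
        Real.exp (-(lam * ∑ i, ‖zt (Pi.single i 1) z‖ ^ (2 * (m + 1)))) *
          ∏ i, X.hh z (C.ι i) := by
          rw [Finset.mul_sum, ← Finset.sum_neg_distrib, Real.exp_sum, ← Finset.prod_mul_distrib]
          refine Finset.prod_congr rfl fun i _ => ?_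
          rw [C.hh, hF]
          simp only
          rw [indicator_of_mem (show ‖zt (Pi.single i 1) z‖ ∈ Iic r from hz i)]
          ring
      _ ≤ chi q (1 - X.Ph z) * X.dt z :=
          mul_le_mul h1 h2 (Finset.prod_nonneg fun i _ => X.hh_nonneg _ _) (chi_nonneg _ _)
  · push Not at hz
    obtain ⟨i, hi⟩ := hz
    have : F (zt (Pi.single i 1) z) = 0 := by
      simp only [hF]; rw [indicator_of_notMem (by simpa using hi), mul_zero]
    simp only
    rw [Finset.prod_eq_zero (Finset.mem_univ i) this]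
    exact indicator_nonneg (fun z _ => mul_nonneg (chi_nonneg _ _) (X.dt_nonneg z)) _

lemma Dat.isOpen_U (X : Dat n J) : IsOpen X.U :=
  X.cPh.isOpen_inter_preimage X.isOpen_Om isOpen_Iio

lemma Dat.U_sub (X : Dat n J) : X.U ⊆ X.Q := fun _ hz => ⟨hz.1, hz.2.le⟩

lemma Dat.integrableOn_dt (X : Dat n J) (hQ : IsCompact X.Q) : IntegrableOn X.dt X.U :=
  ((X.cdt.mono X.Q_sub).integrableOn_compact hQ).mono_set X.U_sub

lemma II_le (X : Dat n J) (hQ : IsCompact X.Q) {q : ℝ} (hq : 0 < q) :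
    X.II q ≤ ∫ z in X.U, X.dt z := by
  rw [Dat.II, ← integral_indicator hQ.isClosed.measurableSet,
    ← integral_indicator X.isOpen_U.measurableSet]
  refine integral_mono ((integrable_indicator_iff hQ.isClosed.measurableSet).mpr
    (X.integrableOn_II hQ hq)) ((integrable_indicator_iff X.isOpen_U.measurableSet).mpr
    (X.integrableOn_dt hQ)) fun z => ?_
  by_cases hU : z ∈ X.U
  · rw [indicator_of_mem hU, indicator_of_mem (X.U_sub hU)]
    refine mul_le_of_le_one_left (X.dt_nonneg z) ?_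
    exact Real.rpow_le_one (le_max_right _ _) (max_le (by linarith [X.Ph_nonneg z]) zero_le_one)
      hq.le
  · rw [indicator_of_notMem hU]
    by_cases hQ' : z ∈ X.Q
    · have : 1 - X.Ph z ≤ 0 := by
        by_contra h; exact hU ⟨hQ'.1, by linarith⟩
      rw [indicator_of_mem hQ', chi_of_nonpos hq this, zero_mul]
    · rw [indicator_of_notMem hQ']

theorem mass_lower {k : ℕ} (X : Dat (k + 1) J) (hQ : IsCompact X.Q) {m : ℕ} {ε : ℝ} (hε : 0 < ε)
    (C : Coord X m ε) :
    (π * (m + 1)) ^ (k + 1) ≤ ((k + 1).factorial : ℝ) * ∫ z in X.U, X.dt z := by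
  set M := ∫ z in X.U, X.dt z with hM
  have h1 : ∀ η > (0 : ℝ), ∀ δ > (0 : ℝ), (π * (m + 1) / (1 + δ) ^ 2) ^ (k + 1) ≤
      (∏ l ∈ Finset.range (k + 1), (η + (l + 1))) * M := by
    intro η hη δ hδ
    obtain ⟨r, hr, hlow⟩ := II_lower X hQ hε C hδ
    set c := (1 + δ) ^ 2 * ε ^ 2 * r ^ (2 * (m + 1)) with hc
    have hcpos : 0 < c := by positivity
    have hN : ∀ N : ℕ, (π * (m + 1) * (1 - Real.exp (-(c * (η + N)))) / (1 + δ) ^ 2) ^ (k + 1) ≤
        (∏ l ∈ Finset.range (k + 1), (η + (l + 1))) * M := by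
      intro N
      have hq : 0 < η + N := by positivity
      have h2 := hlow (η + N) hq
      have h3 := X.chain hQ hη N
      have h4 : (η + N) ^ (k + 1) ≤ ∏ l ∈ Finset.range (k + 1), (η + N + (l + 1)) := by
        rw [← Finset.card_range (k + 1), ← Finset.prod_const, Finset.card_range]
        exact Finset.prod_le_prod (fun _ _ => hq.le) fun l _ => by
          have : (0 : ℝ) ≤ l := Nat.cast_nonneg l
          linarith
      have h5 := mul_le_mul_of_nonneg_left (II_le X hQ hη)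
        (Finset.prod_nonneg (s := Finset.range (k + 1)) (f := fun l : ℕ => η + ((l : ℝ) + 1))
          fun l _ => by positivity)
      calc _ = (η + N) ^ (k + 1) * (π * (m + 1) * (1 - Real.exp (-((1 + δ) ^ 2 * (η + N) *
            ε ^ 2 * r ^ (2 * (m + 1))))) / ((1 + δ) ^ 2 * (η + N))) ^ (k + 1) := by
            rw [← mul_pow]; congr 1
            have : c * (η + N) = (1 + δ) ^ 2 * (η + N) * ε ^ 2 * r ^ (2 * (m + 1)) := by
              rw [hc]; ring
            rw [this]; field_simp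
        _ ≤ (η + N) ^ (k + 1) * X.II (η + N) := mul_le_mul_of_nonneg_left h2 (by positivity)
        _ ≤ _ := (mul_le_mul_of_nonneg_right h4 (X.II_nonneg _)).trans (h3.trans h5)
    have hlim : Tendsto (fun N : ℕ => Real.exp (-(c * (η + N)))) atTop (𝓝 0) := by
      refine Real.tendsto_exp_neg_atTop_nhds_zero.comp ?_
      exact (tendsto_atTop_add_const_left _ _ tendsto_natCast_atTop_atTop).const_mul_atTop hcpos
    have := ((((hlim.const_sub 1).const_mul (π * (m + 1))).div_const ((1 + δ) ^ 2)).pow (k + 1))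
    simpa using le_of_tendsto' this hN
  have hA : Tendsto (fun δ : ℝ => (π * (m + 1) / (1 + δ) ^ 2) ^ (k + 1)) (𝓝[>] 0)
      (𝓝 ((π * (m + 1)) ^ (k + 1))) := by
    have : ContinuousAt (fun δ : ℝ => (π * (m + 1) / (1 + δ) ^ 2) ^ (k + 1)) 0 := by
      fun_prop (disch := norm_num)
    simpa using this.tendsto.mono_left nhdsWithin_le_nhds
  have hB : Tendsto (fun η : ℝ => (∏ l ∈ Finset.range (k + 1), (η + ((l : ℝ) + 1))) * M) (𝓝[>] 0)
      (𝓝 (((k + 1).factorial : ℝ) * M)) := by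
    have : Continuous (fun η : ℝ => (∏ l ∈ Finset.range (k + 1), (η + ((l : ℝ) + 1))) * M) := by
      fun_prop
    have h := (this.tendsto 0).mono_left (nhdsWithin_le_nhds (s := Ioi 0))
    have e : (∏ l ∈ Finset.range (k + 1), ((0 : ℝ) + ((l : ℝ) + 1))) = ((k + 1).factorial : ℝ) := by
      rw [← Finset.prod_range_add_one_eq_factorial]; push_cast; simp
    rwa [e] at h
  exact le_of_tendsto_of_tendsto hA hB (by
    filter_upwards [self_mem_nhdsWithin] with x hx using h1 x hx x hx)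

end Vale.Agent.P248
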