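import Mathlib

/-! Mixed discriminants. -/

namespace Vale.Agent.P248

open Finset Equiv
open scoped Matrix

variable {n : ℕ}

noncomputable def mx (n : ℕ) :
    MultilinearMap ℝ (fun _ : Fin n => Matrix (Fin n) (Fin n) ℝ) ℝ :=
  ∑ σ : Perm (Fin n), ∑ τ : Perm (Fin n), (((Perm.sign σ : ℤ) : ℝ) * ((Perm.sign τ : ℤ) : ℝ)) •
    (MultilinearMap.mkPiAlgebra ℝ (Fin n) ℝ).compLinearMap
      (fun i => Matrix.entryLinearMap ℝ ℝ (σ i) (τ i))

lemma mx_apply (M : Fin n → Matrix (Fin n) (Fin n) ℝ) :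
    mx n M = ∑ σ : Perm (Fin n), ∑ τ : Perm (Fin n),
      (((Perm.sign σ : ℤ) : ℝ) * ((Perm.sign τ : ℤ) : ℝ)) * ∏ i, M i (σ i) (τ i) := by
  simp [mx, MultilinearMap.sum_apply]

lemma sign_sq (σ : Perm (Fin n)) : ((Perm.sign σ : ℤ) : ℝ) * ((Perm.sign σ : ℤ) : ℝ) = 1 := by
  rw [← Int.cast_mul, ← Units.val_mul, Int.units_mul_self]; simp

lemma mx_const (H : Matrix (Fin n) (Fin n) ℝ) :
    mx n (fun _ => H) = (n.factorial : ℝ) * H.det := by
  rw [mx_apply, Finset.sum_comm]
  have : ∀ τ : Perm (Fin n), ∑ σ : Perm (Fin n),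
      (((Perm.sign σ : ℤ) : ℝ) * ((Perm.sign τ : ℤ) : ℝ)) * ∏ i, H (σ i) (τ i) = H.det := by
    intro τ
    have h1 := Matrix.det_permute' τ H
    rw [Matrix.det_apply'] at h1
    simp only [Matrix.submatrix_apply, id] at h1
    calc _ = ((Perm.sign τ : ℤ) : ℝ) * ∑ σ : Perm (Fin n),
          ((Perm.sign σ : ℤ) : ℝ) * ∏ i, H (σ i) (τ i) := by
            rw [Finset.mul_sum]; exact Finset.sum_congr rfl fun σ _ => by ring
      _ = H.det := by rw [h1, ← mul_assoc, sign_sq, one_mul]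
  simp [this, Fintype.card_perm]

lemma mx_rank (u : Fin n → Fin n → ℝ) :
    mx n (fun i => Matrix.vecMulVec (u i) (u i)) = (Matrix.of u).det ^ 2 := by
  rw [mx_apply, ← Matrix.det_transpose, Matrix.det_apply', sq, Finset.sum_mul_sum]
  refine Finset.sum_congr rfl fun σ _ => Finset.sum_congr rfl fun τ _ => ?_
  simp only [Matrix.vecMulVec_apply, Finset.prod_mul_distrib, Matrix.transpose_apply,
    Matrix.of_apply]
  ring

lemma mx_perm (M : Fin n → Matrix (Fin n) (Fin n) ℝ) (π : Perm (Fin n)) :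
    mx n (fun i => M (π i)) = mx n M := by
  rw [mx_apply, mx_apply]
  rw [← Equiv.sum_comp (Equiv.mulRight π)]
  refine Finset.sum_congr rfl fun σ _ => ?_
  rw [← Equiv.sum_comp (Equiv.mulRight π)]
  refine Finset.sum_congr rfl fun τ _ => ?_
  simp only [Equiv.coe_mulRight, Perm.sign_mul, Units.val_mul, Int.cast_mul, Perm.coe_mul,
    Function.comp]
  rw [Equiv.prod_comp π (fun i => M i (σ i) (τ i))]
  have := sign_sq π
  linear_combination (((Perm.sign σ : ℤ) : ℝ) * ((Perm.sign τ : ℤ) : ℝ) *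
    ∏ i, M i (σ i) (τ i)) * this

lemma mx_two (M : Fin n → Matrix (Fin n) (Fin n) ℝ) {i l : Fin n} (hil : i ≠ l) (c : ℝ)
    (u : Fin n → ℝ) (hi : M i = c • Matrix.vecMulVec u u) (hl : M l = c • Matrix.vecMulVec u u) :
    mx n M = 0 := by
  have key : mx n M = - mx n M := by
    conv_lhs => rw [mx_apply, ← Equiv.sum_comp (Equiv.mulRight (Equiv.swap i l))]
    rw [mx_apply, ← Finset.sum_neg_distrib]
    refine Finset.sum_congr rfl fun σ _ => ?_
    rw [← Finset.sum_neg_distrib]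
    refine Finset.sum_congr rfl fun τ _ => ?_
    simp only [Equiv.coe_mulRight, Perm.sign_mul, Units.val_mul, Int.cast_mul, Perm.coe_mul,
      Function.comp, Perm.sign_swap hil]
    have hl' : l ∈ Finset.univ.erase i := by simp [hil.symm]
    rw [← Finset.mul_prod_erase _ _ (Finset.mem_univ i), ← Finset.mul_prod_erase _ _ hl',
      ← Finset.mul_prod_erase _ (fun j => M j (σ j) (τ j)) (Finset.mem_univ i),
      ← Finset.mul_prod_erase _ (fun j => M j (σ j) (τ j)) hl']
    have : ∏ j ∈ (Finset.univ.erase i).erase l, M j (σ (Equiv.swap i l j)) (τ j) =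
        ∏ j ∈ (Finset.univ.erase i).erase l, M j (σ j) (τ j) := by
      refine Finset.prod_congr rfl fun j hj => ?_
      simp only [Finset.mem_erase] at hj
      rw [Equiv.swap_apply_of_ne_of_ne hj.2.1 hj.1]
    rw [this, Equiv.swap_apply_left, Equiv.swap_apply_right, hi, hl]
    simp only [Matrix.smul_apply, Matrix.vecMulVec_apply, smul_eq_mul]
    push_cast
    ring
  linarith

variable {k : ℕ} {J : Type*} [Fintype J]

/-- the Gram-type matrix -/
noncomputable def gram (a : J → Fin n → ℝ) (h : J → ℝ) : Matrix (Fin n) (Fin n) ℝ :=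
  ∑ j, h j • Matrix.vecMulVec (a j) (a j)

/-- determinant with first row `ξ` -/
noncomputable def dd (a : J → Fin (k + 1) → ℝ) (f : Fin k → J) (ξ : Fin (k + 1) → ℝ) : ℝ :=
  (Matrix.of (Fin.cons ξ (fun l => a (f l)) : Fin (k + 1) → Fin (k + 1) → ℝ)).det

lemma mx_cons (a : J → Fin (k + 1) → ℝ) (h : J → ℝ) (ξ : Fin (k + 1) → ℝ) :
    mx (k + 1) (Fin.cons (Matrix.vecMulVec ξ ξ) (fun _ => gram a h)) =
      ∑ f : Fin k → J, (∏ l, h (f l)) * dd a f ξ ^ 2 := by
  rw [← MultilinearMap.curryLeft_apply]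
  unfold gram
  rw [MultilinearMap.map_sum]
  refine Finset.sum_congr rfl fun f _ => ?_
  rw [MultilinearMap.map_smul_univ, MultilinearMap.curryLeft_apply, smul_eq_mul, dd, ← mx_rank]
  congr 2
  funext i
  refine Fin.cases ?_ (fun l => ?_) i <;> simp

lemma sum_dd (a : J → Fin (k + 1) → ℝ) (h : J → ℝ) :
    ∑ j, h j * ∑ f : Fin k → J, (∏ l, h (f l)) * dd a f (a j) ^ 2 =
      ((k + 1).factorial : ℝ) * (gram a h).det := by
  rw [← mx_const]
  have : (fun _ : Fin (k + 1) => gram a h) = Fin.cons (gram a h) (fun _ => gram a h) := by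
    funext i; refine Fin.cases ?_ (fun l => ?_) i <;> simp
  rw [this, ← MultilinearMap.curryLeft_apply]
  conv_rhs => rw [show ((mx (k + 1)).curryLeft (gram a h)) =
    ∑ j, h j • (mx (k + 1)).curryLeft (Matrix.vecMulVec (a j) (a j)) by
      unfold gram; rw [map_sum]; simp only [map_smul]]
  rw [MultilinearMap.sum_apply]
  refine Finset.sum_congr rfl fun j _ => ?_
  rw [MultilinearMap.smul_apply, MultilinearMap.curryLeft_apply, mx_cons, smul_eq_mul]

lemma mx_add_rank (H : Matrix (Fin (k + 1)) (Fin (k + 1)) ℝ) (t : ℝ) (ξ : Fin (k + 1) → ℝ) :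
    ((k + 1).factorial : ℝ) * (H + t • Matrix.vecMulVec ξ ξ).det =
      ((k + 1).factorial : ℝ) * H.det +
        (k + 1) * t * mx (k + 1) (Fin.cons (Matrix.vecMulVec ξ ξ) (fun _ => H)) := by
  rw [← mx_const, ← mx_const]
  have h1 := (mx (k + 1)).map_add_eq_map_add_linearDeriv_add (fun _ => H)
    (fun _ => t • Matrix.vecMulVec ξ ξ)
  have h0 : (fun _ : Fin (k + 1) => H + t • Matrix.vecMulVec ξ ξ) =
      (fun _ => H) + (fun _ => t • Matrix.vecMulVec ξ ξ) := rfl
  rw [h0, h1, Finset.sum_eq_zero, add_zero, MultilinearMap.linearDeriv_apply]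
  · congr 1
    have : ∀ i : Fin (k + 1), mx (k + 1) (Function.update (fun _ => H) i
        (t • Matrix.vecMulVec ξ ξ)) =
        t * mx (k + 1) (Fin.cons (Matrix.vecMulVec ξ ξ) (fun _ => H)) := by
      intro i
      rw [MultilinearMap.map_update_smul, smul_eq_mul, ← mx_perm _ (Equiv.swap 0 i)]
      congr 2
      funext j
      refine Fin.cases ?_ (fun l => ?_) j
      · simp
      · rw [Function.update_of_ne]
        · simp
        · intro h
          have := congrArg (Equiv.swap 0 i) h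
          simp at this
    simp only [this, Finset.sum_const, Finset.card_univ, Fintype.card_fin, nsmul_eq_mul]
    push_cast; ring
  · intro s hs
    simp only [Finset.mem_filter, Finset.mem_univ, true_and] at hs
    obtain ⟨i, hi, l, hl, hil⟩ := Finset.one_lt_card.mp (show 1 < s.card by omega)
    exact mx_two _ hil t ξ (Finset.piecewise_eq_of_mem _ _ _ hi)
      (Finset.piecewise_eq_of_mem _ _ _ hl)

lemma gram_quad (a : J → Fin n → ℝ) (h : J → ℝ) (x : Fin n → ℝ) :
    x ⬝ᵥ (gram a h *ᵥ x) = ∑ j, h j * (a j ⬝ᵥ x) ^ 2 := by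
  unfold gram
  rw [Matrix.sum_mulVec, dotProduct_sum]
  refine Finset.sum_congr rfl fun j _ => ?_
  rw [Matrix.smul_mulVec, Matrix.vecMulVec_mulVec, dotProduct_smul, dotProduct_smul]
  simp [dotProduct_comm x (a j), sq]

lemma gram_herm (a : J → Fin n → ℝ) (h : J → ℝ) : (gram a h).IsHermitian := by
  ext i l
  simp [gram, Matrix.sum_apply, Matrix.vecMulVec_apply, mul_comm]

lemma gram_psd (a : J → Fin n → ℝ) {h : J → ℝ} (hh : ∀ j, 0 ≤ h j) : (gram a h).PosSemidef := by
  refine Matrix.PosSemidef.of_dotProduct_mulVec_nonneg (gram_herm a h) fun x => ?_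
  rw [star_trivial, gram_quad]
  exact Finset.sum_nonneg fun j _ => mul_nonneg (hh j) (sq_nonneg _)

lemma gram_det_nonneg (a : J → Fin n → ℝ) {h : J → ℝ} (hh : ∀ j, 0 ≤ h j) :
    0 ≤ (gram a h).det := (gram_psd a hh).det_nonneg

/-- key inequality -/
lemma key_ineq (a : J → Fin (k + 1) → ℝ) {h c θ : J → ℝ} (hh : ∀ j, 0 ≤ h j)
    (hθ : ∀ j, 0 ≤ θ j) (hc : ∀ j, c j ^ 2 ≤ θ j * h j) :
    (k + 1) * ∑ f : Fin k → J, (∏ l, h (f l)) * dd a f (∑ j, c j • a j) ^ 2 ≤
      (∑ j, θ j) * (((k + 1).factorial : ℝ) * (gram a h).det) := by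
  set ξ := ∑ j, c j • a j with hξ
  set T := ∑ j, θ j with hT
  have hT0 : 0 ≤ T := Finset.sum_nonneg fun j _ => hθ j
  rcases hT0.eq_or_lt with h0 | hpos
  · have hz : ∀ j, θ j = 0 := fun j =>
      (Finset.sum_eq_zero_iff_of_nonneg (fun j _ => hθ j)).mp h0.symm j (Finset.mem_univ j)
    have hc0 : ∀ j, c j = 0 := fun j => by
      have := hc j; rw [hz j, zero_mul] at this
      exact pow_eq_zero_iff (two_ne_zero) |>.mp (le_antisymm this (sq_nonneg _))
    have : ξ = 0 := by simp [hξ, hc0]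
    rw [← mx_cons, this, ← h0]
    have : (Matrix.vecMulVec (0 : Fin (k + 1) → ℝ) (0 : Fin (k + 1) → ℝ)) = 0 := by
      ext; simp [Matrix.vecMulVec_apply]
    rw [this, ← MultilinearMap.curryLeft_apply, map_zero]; simp
  · have hpsd : (gram a h + (-T⁻¹) • Matrix.vecMulVec ξ ξ).PosSemidef := by
      refine Matrix.PosSemidef.of_dotProduct_mulVec_nonneg ?_ fun x => ?_
      · refine (gram_herm a h).add ?_
        ext i l
        simp [Matrix.vecMulVec_apply, mul_comm]
      · rw [star_trivial, Matrix.add_mulVec, dotProduct_add, gram_quad, Matrix.smul_mulVec,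
          Matrix.vecMulVec_mulVec, dotProduct_smul, dotProduct_smul]
        have h1 : ξ ⬝ᵥ x = ∑ j, c j * (a j ⬝ᵥ x) := by
          rw [hξ, sum_dotProduct]; simp
        have h2 := Finset.sum_sq_le_sum_mul_sum_of_sq_le_mul Finset.univ
          (r := fun j => c j * (a j ⬝ᵥ x)) (f := θ) (g := fun j => h j * (a j ⬝ᵥ x) ^ 2)
          (fun j _ => hθ j) (fun j _ => mul_nonneg (hh j) (sq_nonneg _))
          (fun j _ => by
            rw [mul_pow, ← mul_assoc]
            exact mul_le_mul_of_nonneg_right (hc j) (sq_nonneg _))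
        rw [← h1, ← hT] at h2
        simp only [MulOpposite.smul_eq_mul_unop, MulOpposite.unop_op, smul_eq_mul,
          dotProduct_comm x ξ]
        have : T⁻¹ * (ξ ⬝ᵥ x) ^ 2 ≤ ∑ j, h j * (a j ⬝ᵥ x) ^ 2 := by
          rw [inv_mul_le_iff₀ hpos]; exact h2
        nlinarith
    have h3 := mx_add_rank (gram a h) (-T⁻¹) ξ
    rw [mx_cons] at h3
    have h4 : 0 ≤ ((k + 1).factorial : ℝ) * (gram a h + (-T⁻¹) • Matrix.vecMulVec ξ ξ).det :=
      mul_nonneg (Nat.cast_nonneg _) hpsd.det_nonneg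
    rw [h3] at h4
    have h5 := mul_nonneg hT0 h4
    have h6 : T * T⁻¹ = 1 := mul_inv_cancel₀ hpos.ne'
    set S := ∑ f : Fin k → J, (∏ l, h (f l)) * dd a f ξ ^ 2
    have : T * (((k : ℝ) + 1) * (-T⁻¹) * S) = -((k + 1) * S) := by
      linear_combination (-((k : ℝ) + 1) * S) * h6
    nlinarith

/-- lower bound of the determinant by the coordinate part -/
lemma prod_le_det (a : J → Fin n → ℝ) {h : J → ℝ} (hh : ∀ j, 0 ≤ h j) (ι : Fin n → J)
    (hι : ∀ i, a (ι i) = Pi.single i 1) : ∏ i, h (ι i) ≤ (gram a h).det := by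
  classical
  have hinj : Function.Injective ι := by
    intro i l hil
    have := (hι i).symm.trans ((congrArg a hil).trans (hι l))
    by_contra hne
    have h2 := congrFun this i
    simp [Pi.single_apply, hne] at h2
  have h1 : (n.factorial : ℝ) * (gram a h).det =
      ∑ f : Fin n → J, (∏ l, h (f l)) * (Matrix.of fun l => a (f l)).det ^ 2 := by
    rw [← mx_const]; unfold gram
    rw [MultilinearMap.map_sum]
    refine Finset.sum_congr rfl fun f _ => ?_
    rw [MultilinearMap.map_smul_univ, mx_rank, smul_eq_mul]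
  have h2 : ∑ σ : Perm (Fin n), (∏ l, h (ι (σ l))) * (Matrix.of fun l => a (ι (σ l))).det ^ 2 ≤
      ∑ f : Fin n → J, (∏ l, h (f l)) * (Matrix.of fun l => a (f l)).det ^ 2 := by
    have hi : Function.Injective (fun (σ : Perm (Fin n)) => fun l => ι (σ l)) := by
      intro σ τ hst
      ext l
      exact congrArg Fin.val (hinj (congrFun hst l))
    rw [← Finset.sum_image (s := Finset.univ) (g := fun (σ : Perm (Fin n)) => fun l => ι (σ l))
      (f := fun f : Fin n → J => (∏ l, h (f l)) * (Matrix.of fun l => a (f l)).det ^ 2)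
      (fun x _ y _ hxy => hi hxy)]
    exact Finset.sum_le_sum_of_subset_of_nonneg (Finset.subset_univ _) fun f _ _ =>
      mul_nonneg (Finset.prod_nonneg fun l _ => hh _) (sq_nonneg _)
  have h3 : ∀ σ : Perm (Fin n),
      (∏ l, h (ι (σ l))) * (Matrix.of fun l => a (ι (σ l))).det ^ 2 = ∏ i, h (ι i) := by
    intro σ
    have : (Matrix.of fun l => a (ι (σ l))) = (1 : Matrix (Fin n) (Fin n) ℝ).submatrix σ id := by
      ext i l
      simp [hι, Matrix.one_apply, Pi.single_apply, eq_comm]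
    rw [this, Matrix.det_permute, Matrix.det_one, mul_one, sq, sign_sq, mul_one,
      Equiv.prod_comp σ (fun i => h (ι i))]
  simp only [h3, Finset.sum_const, Finset.card_univ, Fintype.card_perm, Fintype.card_fin,
    nsmul_eq_mul] at h2
  rw [← h1] at h2
  exact le_of_mul_le_mul_left h2 (by exact_mod_cast n.factorial_pos)

lemma dd_sum (a : J → Fin (k + 1) → ℝ) (f : Fin k → J) (ξ : Fin (k + 1) → ℝ) :
    dd a f ξ = ξ ⬝ᵥ (fun i => dd a f (Pi.single i 1)) := by
  have hlin : ∀ ξ, dd a f ξ = (Matrix.detRowAlternating (R := ℝ)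
      (n := Fin (k + 1))).toMultilinearMap.curryLeft ξ (fun l => a (f l)) := fun ξ => rfl
  conv_lhs => rw [hlin, pi_eq_sum_univ' ξ, map_sum, MultilinearMap.sum_apply]
  simp only [map_smul, MultilinearMap.smul_apply, smul_eq_mul, dotProduct, hlin]

lemma dd_self (a : J → Fin (k + 1) → ℝ) (f : Fin k → J) (l : Fin k) : dd a f (a (f l)) = 0 :=
  Matrix.det_zero_of_row_eq (i := 0) (j := l.succ) (Fin.succ_ne_zero l).symm (by
    funext i; simp)

end Vale.Agent.P248
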