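import Vale.Agent.P248.Mixed

/-! The monotonicity step (integration by parts along complex lines). -/

namespace Vale.Agent.P248

open MeasureTheory Filter Topology Complex
open scoped Matrix ComplexConjugate

abbrev EE (n : ℕ) := (Fin n → ℝ) × (Fin n → ℝ)

variable {n : ℕ}

noncomputable def zt (a : Fin n → ℝ) (z : EE n) : ℂ := ((a ⬝ᵥ z.1 : ℝ) : ℂ) + ((a ⬝ᵥ z.2 : ℝ) : ℂ) * I

def dir (c : ℂ) (e : Fin n → ℝ) : EE n := (c.re • e, c.im • e)

lemma zt_re (a : Fin n → ℝ) (z : EE n) : (zt a z).re = a ⬝ᵥ z.1 := by simp [zt]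
lemma zt_im (a : Fin n → ℝ) (z : EE n) : (zt a z).im = a ⬝ᵥ z.2 := by simp [zt]

lemma zt_line (a : Fin n → ℝ) (z : EE n) (c : ℂ) (e : Fin n → ℝ) (s : ℝ) :
    zt a (z + s • dir c e) = zt a z + s * (c * ((a ⬝ᵥ e : ℝ) : ℂ)) := by
  apply Complex.ext <;> simp [zt, dir, dotProduct_add, dotProduct_smul]

lemma continuous_zt (a : Fin n → ℝ) : Continuous (zt a) := by
  unfold zt; fun_prop

noncomputable def chi (q u : ℝ) : ℝ := (max u 0) ^ q

lemma chi_nonneg (q u : ℝ) : 0 ≤ chi q u := Real.rpow_nonneg (le_max_right _ _) _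

lemma chi_of_nonpos {q u : ℝ} (hq : 0 < q) (hu : u ≤ 0) : chi q u = 0 := by
  rw [chi, max_eq_right hu, Real.zero_rpow hq.ne']

lemma continuous_chi {q : ℝ} (hq : 0 < q) : Continuous (chi q) :=
  (continuous_id.max continuous_const).rpow_const fun _ => Or.inr hq.le

lemma hasDerivAt_chi {q : ℝ} (hq : 1 < q) (u : ℝ) :
    HasDerivAt (chi q) (q * chi (q - 1) u) u := by
  rcases lt_trichotomy u 0 with h | h | h
  · rw [chi_of_nonpos (by linarith) h.le, mul_zero]
    refine (hasDerivAt_const u (0 : ℝ)).congr_of_eventuallyEq ?_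
    filter_upwards [Iio_mem_nhds h] with x hx
    exact chi_of_nonpos (by linarith) (le_of_lt hx)
  · subst h
    rw [chi_of_nonpos (by linarith) le_rfl, mul_zero, ← hasDerivWithinAt_univ,
      ← Set.Iic_union_Ici (a := (0 : ℝ))]
    refine HasDerivWithinAt.union ?_ ?_
    · refine (hasDerivWithinAt_const (0 : ℝ) _ (0 : ℝ)).congr ?_ ?_
      · intro x hx; exact chi_of_nonpos (by linarith) hx
      · exact chi_of_nonpos (by linarith) le_rfl
    · have := (Real.hasDerivAt_rpow_const (x := 0) (p := q) (Or.inr hq.le)).hasDerivWithinAt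
        (s := Set.Ici 0)
      rw [Real.zero_rpow (by linarith), mul_zero] at this
      refine this.congr ?_ ?_
      · intro x hx; rw [chi, max_eq_left hx]
      · rw [chi, max_eq_left le_rfl]
  · have := Real.hasDerivAt_rpow_const (x := u) (p := q) (Or.inr hq.le)
    rw [chi, max_eq_left h.le]
    refine this.congr_of_eventuallyEq ?_
    filter_upwards [Ioi_mem_nhds h] with x hx
    rw [chi, max_eq_left (le_of_lt hx)]

lemma chi_mul {q : ℝ} (hq : 1 < q) (u : ℝ) : chi (q - 1) u * (1 - u) = chi (q - 1) u - chi q u := by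
  rcases le_or_gt u 0 with h | h
  · rw [chi_of_nonpos (by linarith) h, chi_of_nonpos (by linarith) h]; ring
  · simp only [chi, max_eq_left h.le]
    rw [Real.rpow_sub_one h.ne']; field_simp

lemma line_g {g : ℂ → ℂ} {ζ g' : ℂ} (hg : HasDerivAt g g' ζ) (β : ℂ) :
    HasDerivAt (fun s : ℝ => g (ζ + s * β)) (g' * β) 0 := by
  have h1 : HasDerivAt (fun u : ℂ => ζ + u * β) β ((0 : ℝ) : ℂ) := by
    simpa using ((hasDerivAt_id ((0 : ℝ) : ℂ)).mul_const β).const_add ζ
  have h2 : HasDerivAt g g' (ζ + ((0 : ℝ) : ℂ) * β) := by simpa using hg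
  exact (h2.comp ((0 : ℝ) : ℂ) h1).comp_ofReal

lemma line0 {g : ℂ → ℂ} {ζ : ℂ} (hg : AnalyticAt ℂ g ζ) (β : ℂ) :
    HasDerivAt (fun s : ℝ => ‖g (ζ + s * β)‖ ^ 2) (2 * (deriv g ζ * β * conj (g ζ)).re) 0 := by
  have := (line_g hg.differentiableAt.hasDerivAt β).norm_sq
  simpa [Complex.inner] using this

lemma line1 {g : ℂ → ℂ} {ζ : ℂ} (hg : AnalyticAt ℂ g ζ) (β : ℂ) :
    HasDerivAt (fun s : ℝ => 2 * (deriv g (ζ + s * β) * β * conj (g (ζ + s * β))).re)
      (2 * (deriv (deriv g) ζ * β * β * conj (g ζ) +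
        deriv g ζ * β * conj (deriv g ζ * β)).re) 0 := by
  have h1 := (line_g hg.deriv.differentiableAt.hasDerivAt β).mul_const β
  have h2 := (line_g hg.differentiableAt.hasDerivAt β).star
  have h3 := Complex.reCLM.hasFDerivAt.comp_hasDerivAt (0 : ℝ) (h1.mul h2)
  have h4 := h3.const_mul (2 : ℝ)
  simpa [Function.comp_def] using h4

/-- data: functionals, domains, holomorphic functions -/
structure Dat (n : ℕ) (J : Type) where
  a : J → Fin n → ℝ
  D : J → Set ℂ
  g : J → ℂ → ℂ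
  hD : ∀ j, IsOpen (D j)
  hg : ∀ j, AnalyticOnNhd ℂ (g j) (D j)

variable {J : Type} [Fintype J] (X : Dat n J)

def Dat.Om : Set (EE n) := {z | ∀ j, zt (X.a j) z ∈ X.D j}
noncomputable def Dat.Ph (z : EE n) : ℝ := ∑ j, ‖X.g j (zt (X.a j) z)‖ ^ 2
noncomputable def Dat.hh (z : EE n) (j : J) : ℝ := ‖deriv (X.g j) (zt (X.a j) z)‖ ^ 2
def Dat.Q : Set (EE n) := {z | z ∈ X.Om ∧ X.Ph z ≤ 1}
def Dat.U : Set (EE n) := {z | z ∈ X.Om ∧ X.Ph z < 1}
noncomputable def Dat.dt (z : EE n) : ℝ := (gram X.a (X.hh z)).det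
noncomputable def Dat.P1 (c : ℂ) (e : Fin n → ℝ) (z : EE n) : ℝ :=
  ∑ j, 2 * (deriv (X.g j) (zt (X.a j) z) * (c * ((X.a j ⬝ᵥ e : ℝ) : ℂ)) *
    conj (X.g j (zt (X.a j) z))).re
noncomputable def Dat.P2 (c : ℂ) (e : Fin n → ℝ) (z : EE n) : ℝ :=
  ∑ j, 2 * (deriv (deriv (X.g j)) (zt (X.a j) z) * (c * ((X.a j ⬝ᵥ e : ℝ) : ℂ)) *
    (c * ((X.a j ⬝ᵥ e : ℝ) : ℂ)) * conj (X.g j (zt (X.a j) z)) +
    deriv (X.g j) (zt (X.a j) z) * (c * ((X.a j ⬝ᵥ e : ℝ) : ℂ)) *
      conj (deriv (X.g j) (zt (X.a j) z) * (c * ((X.a j ⬝ᵥ e : ℝ) : ℂ)))).re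

lemma Dat.isOpen_Om : IsOpen X.Om := by
  have : X.Om = ⋂ j, zt (X.a j) ⁻¹' X.D j := by ext z; simp [Dat.Om]
  rw [this]
  exact isOpen_iInter_of_finite fun j => (X.hD j).preimage (continuous_zt _)

lemma Dat.cont_comp {G : J → ℂ → ℂ} (hG : ∀ j, AnalyticOnNhd ℂ (G j) (X.D j)) (j : J) :
    ContinuousOn (fun z => G j (zt (X.a j) z)) X.Om :=
  (hG j).continuousOn.comp (continuous_zt _).continuousOn fun _ hz => hz j

lemma Dat.cg0 (j : J) : ContinuousOn (fun z => X.g j (zt (X.a j) z)) X.Om := X.cont_comp X.hg j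
lemma Dat.cg1 (j : J) : ContinuousOn (fun z => deriv (X.g j) (zt (X.a j) z)) X.Om :=
  X.cont_comp (G := fun j => deriv (X.g j)) (fun j => (X.hg j).deriv) j
lemma Dat.cg2 (j : J) : ContinuousOn (fun z => deriv (deriv (X.g j)) (zt (X.a j) z)) X.Om :=
  X.cont_comp (G := fun j => deriv (deriv (X.g j))) (fun j => (X.hg j).deriv.deriv) j

lemma Dat.cPh : ContinuousOn X.Ph X.Om :=
  continuousOn_finset_sum _ fun j _ => (X.cg0 j).norm.pow 2

lemma Dat.chh (j : J) : ContinuousOn (fun z => X.hh z j) X.Om := (X.cg1 j).norm.pow 2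

lemma Dat.hh_nonneg (z : EE n) (j : J) : 0 ≤ X.hh z j := sq_nonneg _

lemma Dat.Ph_nonneg (z : EE n) : 0 ≤ X.Ph z := Finset.sum_nonneg fun _ _ => sq_nonneg _

lemma Dat.dt_nonneg (z : EE n) : 0 ≤ X.dt z := gram_det_nonneg _ (X.hh_nonneg z)

lemma Dat.cdt : ContinuousOn X.dt X.Om := by
  have h1 : ContinuousOn (fun z => gram X.a (X.hh z)) X.Om :=
    continuousOn_finset_sum _ fun j _ => (X.chh j).smul continuousOn_const
  exact (Continuous.matrix_det continuous_id).comp_continuousOn h1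

lemma Dat.cP1 (c : ℂ) (e : Fin n → ℝ) : ContinuousOn (X.P1 c e) X.Om :=
  continuousOn_finset_sum _ fun j _ => continuousOn_const.mul
    (Complex.continuous_re.comp_continuousOn (((X.cg1 j).mul continuousOn_const).mul
      (Complex.continuous_conj.comp_continuousOn (X.cg0 j))))

lemma Dat.cP2 (c : ℂ) (e : Fin n → ℝ) : ContinuousOn (X.P2 c e) X.Om :=
  continuousOn_finset_sum _ fun j _ => continuousOn_const.mul
    (Complex.continuous_re.comp_continuousOn (((((X.cg2 j).mul continuousOn_const).mul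
      continuousOn_const).mul (Complex.continuous_conj.comp_continuousOn (X.cg0 j))).add
      (((X.cg1 j).mul continuousOn_const).mul (Complex.continuous_conj.comp_continuousOn
        ((X.cg1 j).mul continuousOn_const)))))

lemma Dat.dPh (c : ℂ) (e : Fin n → ℝ) {z : EE n} (hz : z ∈ X.Om) :
    HasDerivAt (fun s : ℝ => X.Ph (z + s • dir c e)) (X.P1 c e z) 0 := by
  simp only [Dat.Ph, Dat.P1, zt_line]
  exact HasDerivAt.fun_sum fun j _ => line0 (X.hg j _ (hz j)) _

lemma Dat.dP1 (c : ℂ) (e : Fin n → ℝ) {z : EE n} (hz : z ∈ X.Om) :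
    HasDerivAt (fun s : ℝ => X.P1 c e (z + s • dir c e)) (X.P2 c e z) 0 := by
  simp only [Dat.P1, Dat.P2, zt_line]
  exact HasDerivAt.fun_sum fun j _ => line1 (X.hg j _ (hz j)) _

lemma Dat.Q_sub : X.Q ⊆ X.Om := fun _ hz => hz.1

lemma Dat.ibp (hQ : IsCompact X.Q) {q : ℝ} (hq : 1 < q) (c : ℂ) (e : Fin n → ℝ) (ρ : EE n → ℝ)
    (hρ : ContinuousOn ρ X.Om) (hinv : ∀ z (s : ℝ), ρ (z + s • dir c e) = ρ z) :
    ∫ z in X.Q, ρ z * (-(q * chi (q - 1) (1 - X.Ph z)) * X.P1 c e z ^ 2 +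
      chi q (1 - X.Ph z) * X.P2 c e z) = 0 := by
  set F : EE n → ℝ := fun z => ρ z * (chi q (1 - X.Ph z) * X.P1 c e z) with hF
  set F' : EE n → ℝ := fun z => ρ z * (-(q * chi (q - 1) (1 - X.Ph z)) * X.P1 c e z ^ 2 +
      chi q (1 - X.Ph z) * X.P2 c e z) with hF'
  have hm : MeasurableSet X.Q := hQ.isClosed.measurableSet
  have c0 : ContinuousOn (fun z => chi q (1 - X.Ph z)) X.Om :=
    (continuous_chi (by linarith)).comp_continuousOn (continuousOn_const.sub X.cPh)
  have c1 : ContinuousOn (fun z => chi (q - 1) (1 - X.Ph z)) X.Om :=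
    (continuous_chi (by linarith)).comp_continuousOn (continuousOn_const.sub X.cPh)
  have iF : Integrable (X.Q.indicator F) := (integrable_indicator_iff hm).mpr
    (((hρ.mul (c0.mul (X.cP1 c e))).mono X.Q_sub).integrableOn_compact hQ)
  have iF' : Integrable (X.Q.indicator F') := (integrable_indicator_iff hm).mpr
    (((hρ.mul ((((continuousOn_const.mul c1).neg).mul ((X.cP1 c e).pow 2)).add
      (c0.mul (X.cP2 c e)))).mono X.Q_sub).integrableOn_compact hQ)
  have e1 : ∀ z ∈ X.Om, X.Q.indicator F z = F z := by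
    intro z hz
    by_cases h : z ∈ X.Q
    · exact Set.indicator_of_mem h _
    · rw [Set.indicator_of_notMem h]
      have : 1 - X.Ph z ≤ 0 := by
        by_contra h'; exact h ⟨hz, by linarith⟩
      simp [hF, chi_of_nonpos (show 0 < q by linarith) this]
  have e2 : ∀ z ∈ X.Om, X.Q.indicator F' z = F' z := by
    intro z hz
    by_cases h : z ∈ X.Q
    · exact Set.indicator_of_mem h _
    · rw [Set.indicator_of_notMem h]
      have : 1 - X.Ph z ≤ 0 := by
        by_contra h'; exact h ⟨hz, by linarith⟩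
      simp [hF', chi_of_nonpos (show 0 < q by linarith) this,
        chi_of_nonpos (show 0 < q - 1 by linarith) this]
  have hcont : ∀ z : EE n, Tendsto (fun s : ℝ => z + s • dir c e) (𝓝 0) (𝓝 z) := by
    intro z
    have : Continuous (fun s : ℝ => z + s • dir c e) := by fun_prop
    simpa using this.tendsto 0
  have hder : ∀ z, HasLineDerivAt ℝ (X.Q.indicator F) (X.Q.indicator F' z) z (dir c e) := by
    intro z
    by_cases hz : z ∈ X.Om
    · rw [e2 z hz]
      have h1 : HasDerivAt (fun s : ℝ => chi q (1 - X.Ph (z + s • dir c e)))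
          (q * chi (q - 1) (1 - X.Ph z) * (-X.P1 c e z)) 0 := by
        have h2 := (X.dPh c e hz).const_sub 1
        have h3 : HasDerivAt (chi q) (q * chi (q - 1) (1 - X.Ph z))
            (1 - X.Ph (z + (0 : ℝ) • dir c e)) := by
          simpa using hasDerivAt_chi hq (1 - X.Ph z)
        exact h3.comp (0 : ℝ) h2
      have h4 := (h1.mul (X.dP1 c e hz)).const_mul (ρ z)
      have h5 : HasDerivAt (fun s : ℝ => F (z + s • dir c e)) (F' z) 0 := by
        refine (h4.congr_of_eventuallyEq (Filter.Eventually.of_forall fun s => ?_)).congr_deriv ?_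
        · simp only [hF, hinv, Pi.mul_apply]
        · simp only [hF', zero_smul, add_zero]; ring
      refine h5.congr_of_eventuallyEq ?_
      filter_upwards [hcont z (X.isOpen_Om.mem_nhds hz)] with s hs
      exact e1 _ hs
    · have hzQ : z ∉ X.Q := fun h => hz h.1
      rw [Set.indicator_of_notMem hzQ]
      refine (hasDerivAt_const (0 : ℝ) (0 : ℝ)).congr_of_eventuallyEq ?_
      filter_upwards [hcont z (hQ.isClosed.isOpen_compl.mem_nhds hzQ)] with s hs
      exact Set.indicator_of_notMem hs _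
  haveI : (volume : Measure (EE n)).IsAddHaarMeasure :=
    Measure.prod.instIsAddHaarMeasure (volume : Measure (Fin n → ℝ)) (volume : Measure (Fin n → ℝ))
  have key := integral_bilinear_hasLineDerivAt_right_eq_neg_left_of_integrable
    (μ := (volume : Measure (EE n))) (f := X.Q.indicator F) (f' := X.Q.indicator F')
    (g := fun _ => (1 : ℝ)) (g' := fun _ => (0 : ℝ)) (v := dir c e)
    (B := ContinuousLinearMap.mul ℝ ℝ) (by simpa using iF') (by simp) (by simpa using iF)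
    (fun z _ => hder z) (fun z _ => hasDerivAt_const (0 : ℝ) (1 : ℝ))
  simp only [ContinuousLinearMap.mul_apply', mul_zero, integral_zero, mul_one] at key
  rw [integral_indicator hm] at key
  linarith

noncomputable def Dat.II (q : ℝ) : ℝ := ∫ z in X.Q, chi q (1 - X.Ph z) * X.dt z

lemma Dat.integrableOn_II (hQ : IsCompact X.Q) {q : ℝ} (hq : 0 < q) :
    IntegrableOn (fun z => chi q (1 - X.Ph z) * X.dt z) X.Q :=
  ((((continuous_chi hq).comp_continuousOn (continuousOn_const.sub X.cPh)).mul X.cdt).mono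
    X.Q_sub).integrableOn_compact hQ

lemma Dat.II_nonneg (q : ℝ) : 0 ≤ X.II q :=
  integral_nonneg fun z => mul_nonneg (chi_nonneg _ _) (X.dt_nonneg z)

end Vale.Agent.P248

namespace Vale.Agent.P248

open MeasureTheory Filter Topology Complex
open scoped Matrix ComplexConjugate

variable {k : ℕ} {J : Type} [Fintype J] (X : Dat (k + 1) J)

noncomputable def ee (a : J → Fin (k + 1) → ℝ) (f : Fin k → J) : Fin (k + 1) → ℝ :=
  fun i => dd a f (Pi.single i 1)

lemma Dat.P2_sum (z : EE (k + 1)) (f : Fin k → J) :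
    X.P2 1 (ee X.a f) z + X.P2 I (ee X.a f) z = 4 * ∑ j, X.hh z j * dd X.a f (X.a j) ^ 2 := by
  rw [Dat.P2, Dat.P2, ← Finset.sum_add_distrib, Finset.mul_sum]
  refine Finset.sum_congr rfl fun j _ => ?_
  rw [dd_sum X.a f (X.a j), Dat.hh, Complex.sq_norm, Complex.normSq_apply]
  change _ = 4 * (_ * (X.a j ⬝ᵥ ee X.a f) ^ 2)
  simp only [mul_re, mul_im, add_re, conj_re, conj_im, one_re, one_im, I_re, I_im, ofReal_re,
    ofReal_im]
  ring

lemma Dat.P1_eq (c : ℂ) (z : EE (k + 1)) (f : Fin k → J) :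
    X.P1 c (ee X.a f) z = 2 * dd X.a f (∑ j, (deriv (X.g j) (zt (X.a j) z) * c *
      conj (X.g j (zt (X.a j) z))).re • X.a j) := by
  rw [dd_sum, sum_dotProduct, Finset.mul_sum, Dat.P1]
  refine Finset.sum_congr rfl fun j _ => ?_
  rw [smul_dotProduct]
  change _ = 2 * (_ * (X.a j ⬝ᵥ ee X.a f))
  simp only [mul_re, mul_im, conj_re, conj_im, ofReal_re, ofReal_im]
  ring

lemma Dat.P1_ineq (z : EE (k + 1)) :
    (k + 1) * ∑ f : Fin k → J, (∏ l, X.hh z (f l)) *
      (X.P1 1 (ee X.a f) z ^ 2 + X.P1 I (ee X.a f) z ^ 2) ≤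
      4 * (X.Ph z * (((k + 1).factorial : ℝ) * X.dt z)) := by
  set cc : ℂ → J → ℝ := fun c j => (deriv (X.g j) (zt (X.a j) z) * c *
      conj (X.g j (zt (X.a j) z))).re with hcc
  have hk : ∀ c : ℂ, (k + 1) * ∑ f : Fin k → J, (∏ l, X.hh z (f l)) *
      dd X.a f (∑ j, cc c j • X.a j) ^ 2 ≤ (∑ j, cc c j ^ 2 / X.hh z j) *
        (((k + 1).factorial : ℝ) * X.dt z) := by
    intro c
    refine key_ineq X.a (X.hh_nonneg z) (fun j => div_nonneg (sq_nonneg _) (X.hh_nonneg z j)) ?_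
    intro j
    by_cases h : X.hh z j = 0
    · have : deriv (X.g j) (zt (X.a j) z) = 0 := by simpa [Dat.hh] using h
      simp [hcc, this, h]
    · rw [div_mul_cancel₀ _ h]
  have hsum : (∑ j, cc 1 j ^ 2 / X.hh z j) + (∑ j, cc I j ^ 2 / X.hh z j) ≤ X.Ph z := by
    rw [← Finset.sum_add_distrib, Dat.Ph]
    refine Finset.sum_le_sum fun j _ => ?_
    by_cases h : X.hh z j = 0
    · simp [h]
    · rw [← add_div, div_le_iff₀ (lt_of_le_of_ne (X.hh_nonneg z j) (Ne.symm h))]
      simp only [hcc, Dat.hh, Complex.sq_norm, Complex.normSq_apply, mul_re, mul_im, conj_re,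
        conj_im, one_re, one_im, I_re, I_im]
      exact le_of_eq (by ring)
  have hD : 0 ≤ ((k + 1).factorial : ℝ) * X.dt z :=
    mul_nonneg (Nat.cast_nonneg _) (X.dt_nonneg z)
  have h1 := hk 1
  have h2 := hk I
  have h3 := mul_le_mul_of_nonneg_right hsum hD
  have h4 : ∑ f : Fin k → J, (∏ l, X.hh z (f l)) *
      (X.P1 1 (ee X.a f) z ^ 2 + X.P1 I (ee X.a f) z ^ 2) =
      4 * (∑ f : Fin k → J, (∏ l, X.hh z (f l)) * dd X.a f (∑ j, cc 1 j • X.a j) ^ 2 +
        ∑ f : Fin k → J, (∏ l, X.hh z (f l)) * dd X.a f (∑ j, cc I j • X.a j) ^ 2) := by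
    rw [← Finset.sum_add_distrib, Finset.mul_sum]
    refine Finset.sum_congr rfl fun f _ => ?_
    rw [X.P1_eq, X.P1_eq]; ring
  rw [h4]
  nlinarith

lemma Dat.step (hQ : IsCompact X.Q) {q : ℝ} (hq : 1 < q) :
    (k + 1 + q) * X.II q ≤ q * X.II (q - 1) := by
  have hm : MeasurableSet X.Q := hQ.isClosed.measurableSet
  set T : (Fin k → J) → ℂ → EE (k + 1) → ℝ := fun f c z => (∏ l, X.hh z (f l)) *
    (-(q * chi (q - 1) (1 - X.Ph z)) * X.P1 c (ee X.a f) z ^ 2 +
      chi q (1 - X.Ph z) * X.P2 c (ee X.a f) z) with hT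
  have c0 : ContinuousOn (fun z => chi q (1 - X.Ph z)) X.Om :=
    (continuous_chi (by linarith)).comp_continuousOn (continuousOn_const.sub X.cPh)
  have c1 : ContinuousOn (fun z => chi (q - 1) (1 - X.Ph z)) X.Om :=
    (continuous_chi (by linarith)).comp_continuousOn (continuousOn_const.sub X.cPh)
  have cρ : ∀ f : Fin k → J, ContinuousOn (fun z => ∏ l, X.hh z (f l)) X.Om := fun f =>
    continuousOn_finset_prod _ fun l _ => X.chh _
  have hT0 : ∀ f c, ∫ z in X.Q, T f c z = 0 := by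
    intro f c
    refine X.ibp hQ hq c (ee X.a f) _ (cρ f) fun z s => ?_
    refine Finset.prod_congr rfl fun l _ => ?_
    have : X.a (f l) ⬝ᵥ ee X.a f = 0 := by
      have := dd_self X.a f l
      rwa [dd_sum] at this
    simp only [Dat.hh, zt_line, this]; simp
  have hTi : ∀ f c, IntegrableOn (T f c) X.Q := fun f c =>
    ((((cρ f).mul ((((continuousOn_const.mul c1).neg).mul ((X.cP1 c _).pow 2)).add
      (c0.mul (X.cP2 c _))))).mono X.Q_sub).integrableOn_compact hQ
  have hTi2 : ∀ f, IntegrableOn (fun z => T f 1 z + T f I z) X.Q := fun f =>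
    (hTi f 1).add (hTi f I)
  have hS : ∫ z in X.Q, ∑ f : Fin k → J, (T f 1 z + T f I z) = 0 := by
    rw [integral_finset_sum _ fun f _ => hTi2 f]
    refine Finset.sum_eq_zero fun f _ => ?_
    rw [integral_add (hTi f 1) (hTi f I), hT0, hT0, add_zero]
  have hfac : (0 : ℝ) < ((k + 1).factorial : ℝ) := by exact_mod_cast (k + 1).factorial_pos
  have hpt : ∀ z, 4 * ((k + 1).factorial : ℝ) * ((k + 1 + q) * (chi q (1 - X.Ph z) * X.dt z) -
      q * (chi (q - 1) (1 - X.Ph z) * X.dt z)) ≤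
      (k + 1) * ∑ f : Fin k → J, (T f 1 z + T f I z) := by
    intro z
    have h1 := X.P1_ineq z
    have h2 := sum_dd X.a (X.hh z)
    have h3 : ∑ f : Fin k → J, (T f 1 z + T f I z) =
        -(q * chi (q - 1) (1 - X.Ph z)) * ∑ f : Fin k → J, (∏ l, X.hh z (f l)) *
          (X.P1 1 (ee X.a f) z ^ 2 + X.P1 I (ee X.a f) z ^ 2) +
        chi q (1 - X.Ph z) * (4 * (((k + 1).factorial : ℝ) * X.dt z)) := by
      rw [Dat.dt, ← h2]
      simp only [Finset.mul_sum]
      rw [Finset.sum_comm, ← Finset.sum_add_distrib]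
      refine Finset.sum_congr rfl fun f _ => ?_
      have h4 := X.P2_sum z f
      have h5 : ∑ j, chi q (1 - X.Ph z) * (4 * (X.hh z j * ((∏ l, X.hh z (f l)) *
          dd X.a f (X.a j) ^ 2))) = chi q (1 - X.Ph z) * (∏ l, X.hh z (f l)) *
            (4 * ∑ j, X.hh z j * dd X.a f (X.a j) ^ 2) := by
        simp only [Finset.mul_sum]
        exact Finset.sum_congr rfl fun j _ => by ring
      rw [h5, ← h4]
      simp only [hT]; ring
    have h6 := chi_mul hq (1 - X.Ph z)
    rw [sub_sub_cancel] at h6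
    have h7 : 0 ≤ q * chi (q - 1) (1 - X.Ph z) := mul_nonneg (by linarith) (chi_nonneg _ _)
    have h8 := mul_le_mul_of_nonneg_left h1 h7
    rw [h3]
    have h9 : q * chi (q - 1) (1 - X.Ph z) * (4 * (X.Ph z * (((k + 1).factorial : ℝ) * X.dt z))) =
        4 * q * (chi (q - 1) (1 - X.Ph z) - chi q (1 - X.Ph z)) *
          (((k + 1).factorial : ℝ) * X.dt z) := by rw [← h6]; ring
    nlinarith
  have i0 := X.integrableOn_II hQ (show 0 < q by linarith)
  have i1 := X.integrableOn_II hQ (show 0 < q - 1 by linarith)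
  have i2 : IntegrableOn (fun z => (k + 1 + q) * (chi q (1 - X.Ph z) * X.dt z) -
      q * (chi (q - 1) (1 - X.Ph z) * X.dt z)) X.Q := (i0.const_mul _).sub (i1.const_mul _)
  have i3 : IntegrableOn (fun z => ∑ f : Fin k → J, (T f 1 z + T f I z)) X.Q :=
    integrable_finset_sum _ fun f _ => hTi2 f
  have hint := integral_mono (μ := volume.restrict X.Q) (i2.const_mul _) (i3.const_mul _) hpt
  rw [integral_const_mul, integral_const_mul, hS, integral_sub (i0.const_mul _) (i1.const_mul _),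
    integral_const_mul, integral_const_mul, mul_zero] at hint
  have : (k + 1 + q) * X.II q - q * X.II (q - 1) ≤ 0 := by
    by_contra h
    have := mul_pos (mul_pos (show (0 : ℝ) < 4 by norm_num) hfac) (not_le.mp h)
    exact absurd hint (not_le.mpr this)
  linarith

lemma Dat.chain (hQ : IsCompact X.Q) {η : ℝ} (hη : 0 < η) (N : ℕ) :
    (∏ l ∈ Finset.range (k + 1), (η + N + (l + 1))) * X.II (η + N) ≤
      (∏ l ∈ Finset.range (k + 1), (η + (l + 1))) * X.II η := by
  induction N with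
  | zero => simp
  | succ N ih =>
    refine le_trans ?_ ih
    have hN : (0 : ℝ) ≤ N := Nat.cast_nonneg N
    have h1 := X.step hQ (q := η + (N + 1 : ℕ)) (by push_cast; linarith)
    have e1 : η + ((N + 1 : ℕ) : ℝ) - 1 = η + N := by push_cast; ring
    rw [e1] at h1
    rw [Finset.prod_range_succ, Finset.prod_range_succ']
    have e2 : ∏ l ∈ Finset.range k, (η + (N : ℝ) + (((l + 1 : ℕ) : ℝ) + 1)) =
        ∏ l ∈ Finset.range k, (η + ((N + 1 : ℕ) : ℝ) + ((l : ℝ) + 1)) :=
      Finset.prod_congr rfl fun l _ => by push_cast; ring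
    rw [e2]
    have hp : 0 ≤ ∏ l ∈ Finset.range k, (η + ((N + 1 : ℕ) : ℝ) + ((l : ℝ) + 1)) :=
      Finset.prod_nonneg fun l _ => by positivity
    have h2 := mul_le_mul_of_nonneg_left h1 hp
    push_cast at h2 ⊢
    nlinarith

end Vale.Agent.P248
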