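import Mathlib

/-! The conformal map `psi` with `w * psi'(w) = (8/π²) arctan w`. -/

namespace Vale.Agent.P248

open MeasureTheory Filter Topology Complex Set Metric
open scoped Real ComplexConjugate

noncomputable def cc : ℝ := 8 / π ^ 2

lemma cc_pos : 0 < cc := by unfold cc; positivity

noncomputable def tm (k : ℕ) (w : ℂ) : ℂ := (-1) ^ k * w ^ (2 * k + 1) / ((2 * k + 1 : ℕ) : ℂ) ^ 2

noncomputable def psi (w : ℂ) : ℂ := cc * ∑' k, tm k w

noncomputable def dpsi (w : ℂ) : ℂ := deriv psi w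

lemma hasSum_odd : HasSum (fun k : ℕ => 1 / ((2 * k + 1 : ℕ) : ℝ) ^ 2) (π ^ 2 / 8) := by
  have h := hasSum_zeta_two
  have he : HasSum (fun k : ℕ => 1 / ((2 * k : ℕ) : ℝ) ^ 2) (π ^ 2 / 24) := by
    have := h.mul_left (1 / 4)
    convert! this using 1
    · funext k; push_cast; rw [mul_pow, one_div_mul_one_div]; norm_num
    · ring
  have ho : Summable (fun k : ℕ => 1 / ((2 * k + 1 : ℕ) : ℝ) ^ 2) :=
    h.summable.comp_injective (i := fun k => 2 * k + 1) fun a b hab => by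
      simpa using hab
  have := (HasSum.even_add_odd (f := fun n : ℕ => 1 / (n : ℝ) ^ 2) he ho.hasSum).unique h
  have h2 : ∑' k : ℕ, 1 / ((2 * k + 1 : ℕ) : ℝ) ^ 2 = π ^ 2 / 8 := by linarith
  exact h2 ▸ ho.hasSum

lemma norm_tm {w : ℂ} (hw : ‖w‖ ≤ 1) (k : ℕ) : ‖tm k w‖ ≤ ‖w‖ * (1 / ((2 * k + 1 : ℕ) : ℝ) ^ 2) := by
  rw [tm, norm_div, norm_mul, norm_pow, norm_pow, norm_pow, norm_neg, norm_one, one_pow, one_mul,
    Complex.norm_natCast, mul_one_div, pow_succ']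
  gcongr
  exact mul_le_of_le_one_right (norm_nonneg _) (pow_le_one₀ (norm_nonneg _) hw)

lemma norm_tm' {w : ℂ} (hw : ‖w‖ ≤ 1) (k : ℕ) : ‖tm k w‖ ≤ 1 / ((2 * k + 1 : ℕ) : ℝ) ^ 2 :=
  (norm_tm hw k).trans (mul_le_of_le_one_left (by positivity) hw)

lemma summable_tm {w : ℂ} (hw : ‖w‖ ≤ 1) : Summable fun k => tm k w :=
  Summable.of_norm_bounded hasSum_odd.summable (norm_tm' hw)

lemma norm_psi_le' {w : ℂ} (hw : ‖w‖ ≤ 1) : ‖psi w‖ ≤ ‖w‖ := by
  have h := tsum_of_norm_bounded (hasSum_odd.mul_left ‖w‖) (norm_tm hw)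
  rw [psi, norm_mul, Complex.norm_real, Real.norm_of_nonneg cc_pos.le]
  calc cc * ‖∑' k, tm k w‖ ≤ cc * (‖w‖ * (π ^ 2 / 8)) := mul_le_mul_of_nonneg_left h cc_pos.le
    _ = ‖w‖ := by unfold cc; field_simp

lemma norm_psi_le {w : ℂ} (hw : ‖w‖ ≤ 1) : ‖psi w‖ ≤ 1 := (norm_psi_le' hw).trans hw

lemma continuousOn_psi : ContinuousOn psi (closedBall 0 1) := by
  refine continuousOn_const.mul (continuousOn_tsum (fun k => ?_) hasSum_odd.summable
    fun k w hw => norm_tm' (by simpa using hw) k)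
  unfold tm; fun_prop

lemma diff_tm (k : ℕ) : Differentiable ℂ (tm k) := by unfold tm; fun_prop

lemma diffOn_psi : DifferentiableOn ℂ psi (ball 0 1) :=
  (differentiableOn_const _).mul (differentiableOn_tsum_of_summable_norm hasSum_odd.summable
    (fun k => (diff_tm k).differentiableOn) isOpen_ball
    fun k w hw => norm_tm' (le_of_lt (by simpa using hw)) k)

lemma analytic_psi : AnalyticOnNhd ℂ psi (ball 0 1) := diffOn_psi.analyticOnNhd isOpen_ball

lemma hasStrict_psi {w : ℂ} (hw : ‖w‖ < 1) : HasStrictDerivAt psi (dpsi w) w :=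
  (analytic_psi w (by simpa using hw)).hasStrictDerivAt

lemma hasSum_dpsi {w : ℂ} (hw : ‖w‖ < 1) :
    HasSum (fun k : ℕ => (cc : ℂ) * ((-w ^ 2) ^ k / ((2 * k + 1 : ℕ) : ℂ))) (dpsi w) := by
  have hw' : w ∈ ball (0 : ℂ) 1 := by simpa using hw
  have h := hasSum_deriv_of_summable_norm hasSum_odd.summable
    (fun k => (diff_tm k).differentiableOn) isOpen_ball
    (fun k w hw => norm_tm' (le_of_lt (by simpa using hw)) k) hw'
  have h2 : dpsi w = cc * deriv (fun w => ∑' k, tm k w) w := by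
    unfold dpsi psi; exact deriv_const_mul_field _
  rw [h2]
  refine HasSum.mul_left _ ?_
  convert! h using 2 with k
  have : HasDerivAt (tm k) ((-1) ^ k * (((2 * k + 1 : ℕ) : ℂ) * w ^ (2 * k + 1 - 1)) /
      ((2 * k + 1 : ℕ) : ℂ) ^ 2) w :=
    ((hasDerivAt_pow (2 * k + 1) w).const_mul _).div_const _
  rw [this.deriv]
  have hk : ((2 * k + 1 : ℕ) : ℂ) ≠ 0 := by exact_mod_cast (by omega : 2 * k + 1 ≠ 0)
  rw [neg_pow, Nat.add_sub_cancel, pow_mul]
  field_simp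

lemma mul_dpsi {w : ℂ} (hw : ‖w‖ < 1) : w * dpsi w = cc * Complex.arctan w := by
  have h1 := (hasSum_dpsi hw).mul_left w
  have h2 := (Complex.hasSum_arctan hw).mul_left (cc : ℂ)
  refine h1.unique ?_
  convert h2 using 2 with k
  rw [neg_pow, pow_succ w (2 * k), pow_mul]; ring

lemma one_sub_ne {u : ℂ} (hu : ‖u‖ < 1) : 1 - u ≠ 0 := by
  intro h
  have : u = 1 := by linear_combination -h
  simp [this] at hu

lemma norm_sq_mul_lt {v : ℂ} (hv : ‖v‖ < 1) {t : ℝ} (ht : t ∈ uIcc (0 : ℝ) 1) :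
    ‖(t : ℂ) ^ 2 * v‖ ≤ ‖v‖ := by
  rw [uIcc_of_le zero_le_one] at ht
  rw [norm_mul, norm_pow, Complex.norm_real, Real.norm_of_nonneg ht.1]
  exact mul_le_of_le_one_left (norm_nonneg _) (pow_le_one₀ ht.1 ht.2)

lemma contOn_ker {v : ℂ} (hv : ‖v‖ < 1) :
    ContinuousOn (fun t : ℝ => (1 - (t : ℂ) ^ 2 * v)⁻¹) (uIcc 0 1) :=
  ContinuousOn.inv₀ (by fun_prop) fun t ht => one_sub_ne ((norm_sq_mul_lt hv ht).trans_lt hv)

lemma hasSum_int {v : ℂ} (hv : ‖v‖ < 1) :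
    HasSum (fun k : ℕ => v ^ k / ((2 * k + 1 : ℕ) : ℂ))
      (∫ t in (0 : ℝ)..1, (1 - (t : ℂ) ^ 2 * v)⁻¹) := by
  have h := intervalIntegral.hasSum_integral_of_dominated_convergence (μ := volume) (a := 0)
    (b := 1) (F := fun (k : ℕ) (t : ℝ) => ((t : ℂ) ^ 2 * v) ^ k)
    (f := fun t : ℝ => (1 - (t : ℂ) ^ 2 * v)⁻¹) (fun k _ => ‖v‖ ^ k)
    (fun k => (by fun_prop : Continuous fun t : ℝ => ((t : ℂ) ^ 2 * v) ^ k).aestronglyMeasurable)
    (fun k => Eventually.of_forall fun t ht => by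
      rw [norm_pow]
      exact pow_le_pow_left₀ (norm_nonneg _) (norm_sq_mul_lt hv (uIoc_subset_uIcc ht)) _)
    (Eventually.of_forall fun t _ => summable_geometric_of_lt_one (norm_nonneg _) hv)
    intervalIntegrable_const
    (Eventually.of_forall fun t ht => hasSum_geometric_of_norm_lt_one
      ((norm_sq_mul_lt hv (uIoc_subset_uIcc ht)).trans_lt hv))
  convert! h using 2 with k
  simp_rw [mul_pow, ← pow_mul, ← Complex.ofReal_pow]
  rw [intervalIntegral.integral_mul_const, intervalIntegral.integral_ofReal, integral_pow]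
  push_cast
  simp; field_simp

lemma re_dpsi {w : ℂ} (hw : ‖w‖ < 1) :
    (dpsi w).re = cc * ∫ t in (0 : ℝ)..1, ((1 - (t : ℂ) ^ 2 * (-w ^ 2))⁻¹).re := by
  have hv : ‖-w ^ 2‖ < 1 := by
    rw [norm_neg, norm_pow]; exact pow_lt_one₀ (norm_nonneg _) hw two_ne_zero
  have h := (hasSum_dpsi hw).unique ((hasSum_int hv).mul_left (cc : ℂ))
  rw [h, Complex.re_ofReal_mul]
  congr 1
  exact (Complex.reCLM.intervalIntegral_comp_comm (contOn_ker hv).intervalIntegrable).symm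

lemma re_inv_ge {u : ℂ} (hu : ‖u‖ < 1) : 1 / 2 ≤ ((1 - u)⁻¹).re := by
  have h0 : 0 < Complex.normSq (1 - u) := Complex.normSq_pos.mpr (one_sub_ne hu)
  rw [Complex.inv_re, le_div_iff₀ h0, Complex.normSq_apply]
  have : u.re * u.re + u.im * u.im < 1 := by
    rw [← Complex.normSq_apply, ← Complex.sq_norm]; exact pow_lt_one₀ (norm_nonneg _) hu two_ne_zero
  simp only [sub_re, one_re, sub_im, one_im]
  nlinarith

lemma re_dpsi_ge {w : ℂ} (hw : ‖w‖ < 1) : cc / 2 ≤ (dpsi w).re := by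
  have hv : ‖-w ^ 2‖ < 1 := by
    rw [norm_neg, norm_pow]; exact pow_lt_one₀ (norm_nonneg _) hw two_ne_zero
  rw [re_dpsi hw]
  have : ∫ _t in (0 : ℝ)..1, (1 / 2 : ℝ) ≤
      ∫ t in (0 : ℝ)..1, ((1 - (t : ℂ) ^ 2 * (-w ^ 2))⁻¹).re :=
    intervalIntegral.integral_mono_on zero_le_one intervalIntegrable_const
      (Complex.continuous_re.comp_continuousOn (contOn_ker hv)).intervalIntegrable
      fun t ht => re_inv_ge ((norm_sq_mul_lt hv (by rwa [uIcc_of_le zero_le_one])).trans_lt hv)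
  simp only [intervalIntegral.integral_const, sub_zero, smul_eq_mul, one_mul] at this
  have := mul_le_mul_of_nonneg_left this cc_pos.le
  linarith

lemma dpsi_ne {w : ℂ} (hw : ‖w‖ < 1) : dpsi w ≠ 0 := by
  intro h
  have := re_dpsi_ge hw
  rw [h, Complex.zero_re] at this
  linarith [cc_pos]

lemma re_inv_near {b : ℝ} {c : ℂ} (hb : 0 < b) (hc : ‖c‖ ≤ b / 2) :
    2 / (9 * b) ≤ (((b : ℂ) + c)⁻¹).re := by
  have h1 : |c.re| ≤ b / 2 := (Complex.abs_re_le_norm c).trans hc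
  have h2 : c.re * c.re + c.im * c.im ≤ (b / 2) ^ 2 := by
    rw [← Complex.normSq_apply, ← Complex.sq_norm]; exact pow_le_pow_left₀ (norm_nonneg _) hc 2
  obtain ⟨h3, h4⟩ := abs_le.mp h1
  have h0 : 0 < Complex.normSq ((b : ℂ) + c) := by
    rw [Complex.normSq_apply]; simp only [add_re, ofReal_re, add_im, ofReal_im]; nlinarith
  rw [Complex.inv_re, div_le_div_iff₀ (by positivity) h0, Complex.normSq_apply]
  simp only [add_re, ofReal_re, add_im, ofReal_im]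
  nlinarith

lemma re_dpsi_large (L : ℝ) : ∃ θ > 0, ∀ w : ℂ, ‖w‖ < 1 → ‖w ^ 2 + 1‖ ≤ θ → L ≤ (dpsi w).re := by
  set τ := min (1 / 2) (Real.exp (-(9 * (L / cc)))) with hτ
  have hτ0 : 0 < τ := lt_min (by norm_num) (Real.exp_pos _)
  have hτ1 : τ ≤ 1 / 2 := min_le_left _ _
  refine ⟨τ / 2, by positivity, fun w hw hθ => ?_⟩
  have hv : ‖-w ^ 2‖ < 1 := by
    rw [norm_neg, norm_pow]; exact pow_lt_one₀ (norm_nonneg _) hw two_ne_zero
  have hc := Complex.continuous_re.comp_continuousOn (contOn_ker hv)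
  have h1 : ∫ t in (0 : ℝ)..(1 - τ), ((1 - (t : ℂ) ^ 2 * (-w ^ 2))⁻¹).re ≤
      ∫ t in (0 : ℝ)..1, ((1 - (t : ℂ) ^ 2 * (-w ^ 2))⁻¹).re := by
    refine intervalIntegral.integral_mono_interval le_rfl (by linarith) (by linarith) ?_
      hc.intervalIntegrable
    filter_upwards [ae_restrict_mem measurableSet_Ioc] with t ht
    exact le_trans (by norm_num) (re_inv_ge ((norm_sq_mul_lt hv (by
      rw [uIcc_of_le zero_le_one]; exact Ioc_subset_Icc_self ht)).trans_lt hv))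
  have hsub : uIcc (0 : ℝ) (1 - τ) ⊆ uIcc 0 1 := by
    rw [uIcc_of_le zero_le_one, uIcc_of_le (by linarith)]
    exact Icc_subset_Icc le_rfl (by linarith)
  have hc2 : ContinuousOn (fun t : ℝ => 1 / 9 * (1 - t)⁻¹) (uIcc 0 (1 - τ)) := by
    refine continuousOn_const.mul (ContinuousOn.inv₀ (by fun_prop) fun t ht => ?_)
    rw [uIcc_of_le (by linarith)] at ht
    linarith [ht.2]
  have h2 : ∫ t in (0 : ℝ)..(1 - τ), 1 / 9 * (1 - t)⁻¹ ≤
      ∫ t in (0 : ℝ)..(1 - τ), ((1 - (t : ℂ) ^ 2 * (-w ^ 2))⁻¹).re := by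
    refine intervalIntegral.integral_mono_on (by linarith) hc2.intervalIntegrable
      (hc.mono hsub).intervalIntegrable fun t ht => ?_
    have ht1 : τ ≤ 1 - t := by linarith [ht.2]
    have hb : 0 < 1 - t ^ 2 := by nlinarith [ht.1]
    have e : 1 - (t : ℂ) ^ 2 * (-w ^ 2) = ((1 - t ^ 2 : ℝ) : ℂ) + (t : ℂ) ^ 2 * (w ^ 2 + 1) := by
      push_cast; ring
    have hn : ‖(t : ℂ) ^ 2 * (w ^ 2 + 1)‖ ≤ (1 - t ^ 2) / 2 := by
      rw [norm_mul, norm_pow, Complex.norm_real, Real.norm_of_nonneg ht.1]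
      have : t ^ 2 * ‖w ^ 2 + 1‖ ≤ 1 * (τ / 2) :=
        mul_le_mul (by nlinarith [ht.1]) hθ (norm_nonneg _) zero_le_one
      nlinarith [ht.1]
    rw [e]
    refine le_trans ?_ (re_inv_near hb hn)
    rw [← one_div, one_div_mul_one_div, div_le_div_iff₀ (by linarith) (by positivity)]
    nlinarith [ht.1]
  have h3 : ∫ t in (0 : ℝ)..(1 - τ), 1 / 9 * (1 - t)⁻¹ = -(1 / 9) * Real.log τ := by
    have : ∀ t ∈ uIcc (0 : ℝ) (1 - τ), HasDerivAt (fun t : ℝ => -(1 / 9) * Real.log (1 - t))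
        (1 / 9 * (1 - t)⁻¹) t := by
      intro t ht
      rw [uIcc_of_le (by linarith)] at ht
      have h0 : 1 - t ≠ 0 := by linarith [ht.2]
      refine ((((hasDerivAt_id t).const_sub 1).log h0).const_mul (-(1 / 9))).congr_deriv ?_
      simp only [id]; field_simp
    rw [intervalIntegral.integral_eq_sub_of_hasDerivAt this hc2.intervalIntegrable]
    simp
  have h4 : Real.log τ ≤ -(9 * (L / cc)) := by
    rw [Real.log_le_iff_le_exp hτ0]; exact min_le_right _ _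
  rw [re_dpsi hw]
  have h5 : L / cc ≤ ∫ t in (0 : ℝ)..1, ((1 - (t : ℂ) ^ 2 * (-w ^ 2))⁻¹).re := by linarith
  rwa [div_le_iff₀' cc_pos] at h5

lemma re_mul_dpsi {w : ℂ} (hw : ‖w‖ < 1) : ∃ α : ℝ, |α| < π / 2 ∧
    Real.tan α = 2 * w.re / (1 - ‖w‖ ^ 2) ∧ (w * dpsi w).re = cc / 2 * α := by
  have hx : 0 < 1 - ‖w‖ ^ 2 := by nlinarith [norm_nonneg w]
  have hne : 1 - w * I ≠ 0 := one_sub_ne (by simpa using hw)
  have hN : 0 < Complex.normSq (1 - w * I) := Complex.normSq_pos.mpr hne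
  set Z : ℂ := ⟨1 - ‖w‖ ^ 2, 2 * w.re⟩ with hZ
  have e : (1 + w * I) / (1 - w * I) = (((Complex.normSq (1 - w * I))⁻¹ : ℝ) : ℂ) * Z := by
    rw [div_eq_iff hne]
    have h1 : Z = (1 + w * I) * conj (1 - w * I) := by
      apply Complex.ext
      · simp [hZ, Complex.sq_norm, Complex.normSq_apply]; ring
      · simp [hZ]; ring
    have h2 : ((Complex.normSq (1 - w * I) : ℝ) : ℂ) ≠ 0 := by exact_mod_cast hN.ne'
    rw [h1, mul_assoc, mul_assoc, mul_comm (conj (1 - w * I)), Complex.mul_conj]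
    push_cast
    field_simp
  refine ⟨arg Z, Complex.abs_arg_lt_pi_div_two_iff.mpr (Or.inl hx), Complex.tan_arg Z, ?_⟩
  rw [mul_dpsi hw, Complex.re_ofReal_mul, Complex.arctan, e, ← Complex.arg_real_mul Z
    (inv_pos.mpr hN), ← Complex.log_im]
  simp; ring

lemma re_mul_dpsi_ge {w : ℂ} (hw : ‖w‖ < 1) {β : ℝ} (hβ : |β| < π / 2)
    (h : Real.tan β * (1 - ‖w‖ ^ 2) ≤ 2 * w.re) : cc / 2 * β ≤ (w * dpsi w).re := by
  obtain ⟨α, h1, h2, h3⟩ := re_mul_dpsi hw
  have hx : 0 < 1 - ‖w‖ ^ 2 := by nlinarith [norm_nonneg w]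
  rw [h3]
  refine mul_le_mul_of_nonneg_left ?_ (by linarith [cc_pos])
  refine (Real.strictMonoOn_tan.le_iff_le (abs_lt.mp hβ) (abs_lt.mp h1)).mp ?_
  rw [h2, le_div_iff₀ hx]; exact h

lemma psi_mono {w₁ w₂ : ℂ} (h₁ : ‖w₁‖ < 1) (h₂ : ‖w₂‖ < 1) :
    cc / 2 * ‖w₁ - w₂‖ ^ 2 ≤ ((psi w₁ - psi w₂) * conj (w₁ - w₂)).re := by
  set d := w₁ - w₂ with hd
  have hin : ∀ s ∈ Icc (0 : ℝ) 1, ‖w₂ + s * d‖ < 1 := by
    intro s hs
    have := (convex_ball (0 : ℂ) 1).add_smul_sub_mem (x := w₂) (y := w₁) (by simpa using h₂)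
      (by simpa using h₁) hs
    simpa [hd] using this
  have hder : ∀ s ∈ Icc (0 : ℝ) 1, HasDerivAt (fun s : ℝ => (psi (w₂ + s * d) * conj d).re -
      cc / 2 * ‖d‖ ^ 2 * s) ((dpsi (w₂ + s * d) * d * conj d).re - cc / 2 * ‖d‖ ^ 2) s := by
    intro s hs
    have h1 : HasDerivAt (fun u : ℂ => w₂ + u * d) d (s : ℂ) := by
      simpa using ((hasDerivAt_id (s : ℂ)).mul_const d).const_add w₂
    have h2 := (((hasStrict_psi (hin s hs)).hasDerivAt.comp (s : ℂ) h1).mul_const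
      (conj d)).comp_ofReal
    have h3 := Complex.reCLM.hasFDerivAt.comp_hasDerivAt s h2
    exact h3.sub (by simpa using (hasDerivAt_id s).const_mul (cc / 2 * ‖d‖ ^ 2))
  have hm := monotoneOn_of_deriv_nonneg (convex_Icc (0 : ℝ) 1)
    (fun s hs => (hder s hs).continuousAt.continuousWithinAt)
    (fun s hs => (hder s (interior_subset hs)).differentiableAt.differentiableWithinAt)
    (fun s hs => by
      rw [(hder s (interior_subset hs)).deriv, mul_assoc, Complex.mul_conj, Complex.re_mul_ofReal,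
        ← Complex.sq_norm]
      have := re_dpsi_ge (hin s (interior_subset hs))
      nlinarith [sq_nonneg ‖d‖])
    (left_mem_Icc.mpr zero_le_one) (right_mem_Icc.mpr zero_le_one) zero_le_one
  have e : w₂ + ((1 : ℝ) : ℂ) * d = w₁ := by simp [hd]
  simp only [e, Complex.ofReal_zero, zero_mul, add_zero, mul_zero, sub_zero, mul_one] at hm
  rw [sub_mul, Complex.sub_re]; linarith

lemma psi_neg (w : ℂ) : psi (-w) = -psi w := by
  simp only [psi, tm, ← mul_neg, ← tsum_neg]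
  congr 2; funext k
  rw [Odd.neg_pow ⟨k, rfl⟩]; ring

lemma psi_conj (w : ℂ) : psi (conj w) = conj (psi w) := by
  simp only [psi, tm, map_mul, Complex.conj_ofReal, Complex.conj_tsum, map_div₀, map_pow, map_neg,
    map_one, map_natCast]

lemma psi_zero : psi 0 = 0 := by simpa using norm_psi_le' (w := 0) (by simp)

lemma psi_inj : InjOn psi (ball 0 1) := by
  intro w₁ h₁ w₂ h₂ h
  have := psi_mono (by simpa using h₁) (by simpa using h₂ : ‖w₂‖ < 1)
  rw [h, sub_self, zero_mul, Complex.zero_re] at this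
  have h3 : ‖w₁ - w₂‖ ^ 2 ≤ 0 := by
    by_contra hc
    have := mul_pos (half_pos cc_pos) (not_le.mp hc)
    linarith
  exact sub_eq_zero.mp (norm_eq_zero.mp (pow_eq_zero_iff two_ne_zero |>.mp
    (le_antisymm h3 (sq_nonneg _))))

lemma re_psi_imag (y : ℝ) : (psi (y * I)).re = 0 := by
  have h1 := psi_conj (y * I)
  have h2 : conj ((y : ℂ) * I) = -(y * I) := by simp
  rw [h2, psi_neg] at h1
  have := congrArg Complex.re h1
  simp only [neg_re, conj_re] at this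
  linarith

lemma re_psi_mul {w : ℂ} (hw : ‖w‖ < 1) : cc / 2 * w.re ^ 2 ≤ (psi w).re * w.re := by
  have h := psi_mono hw (w₂ := w.im * I) (by
    simpa using (Complex.abs_im_le_norm w).trans_lt hw)
  have e : w - w.im * I = (w.re : ℂ) := by apply Complex.ext <;> simp
  rw [e, Complex.conj_ofReal, Complex.re_mul_ofReal, Complex.sub_re, re_psi_imag, sub_zero,
    Complex.norm_real, Real.norm_eq_abs, sq_abs] at h
  exact h

lemma norm_le_psi {w : ℂ} (hw : ‖w‖ < 1) : cc / 2 * ‖w‖ ≤ ‖psi w‖ := by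
  have h := psi_mono hw (w₂ := 0) (by simp)
  rw [psi_zero, sub_zero, sub_zero] at h
  have h2 := (Complex.re_le_norm (psi w * conj w))
  rw [norm_mul, Complex.norm_conj] at h2
  rcases (norm_nonneg w).eq_or_lt with h0 | h0
  · rw [← h0]; simp
  · exact le_of_mul_le_mul_right (by nlinarith) h0

end Vale.Agent.P248
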